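import Vale.Agent.P307.Triv.Spec
import Vale.Agent.P307.Bdl.B1

/-!
Closed sets in classes with disintegrated closures; Ehrenfeucht-Mostowski models.
-/

universe u

open FirstOrder Cardinal Set

namespace Vale.Agent.P307.Triv

open Language.Structure Language.Substructure

section closed

variable {L : Language.{u, u}} {K : AEC L} {N N' : Type u} [L.Structure N] [L.Structure N']

theorem cl_refl (K : AEC L) (a : N) : cl K a a := fun _ _ h => h

theorem cl_trans {x y z : N} (h : cl K x y) (h' : cl K y z) : cl K x z :=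
  fun S hS hz => h S hS (h' S hS hz)

theorem exists_least (hT : Disintegrated K) (hN : K.mem N) (a : N) :
    ∃ S : L.Substructure N, K.le S ∧ (S : Set N) = {x | cl K x a} := by
  obtain ⟨S, h1, h2, h3⟩ := (hT N hN).1 a
  refine ⟨S, h1, ?_⟩
  ext x
  exact ⟨fun hx T hT' ha => h3 T hT' ha hx, fun hx => hx S h1 h2⟩

theorem mk_cl_le {l : Cardinal.{u}} (hK : K.IsLS l) (hN : K.mem N) (a : N) :
    #{x : N | cl K x a} ≤ l := by
  obtain ⟨S, h1, h2, h3⟩ := hK.2.2 N hN {a}
  refine (mk_le_mk_of_subset (t := (S : Set N)) ?_).trans (h3.trans ?_)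
  · intro x hx
    exact hx S h1 (h2 rfl)
  · rw [mk_singleton]
    exact add_le_of_le hK.1 (one_le_aleph0.trans hK.1) le_rfl

theorem exists_closed [L.IsRelational] (hT : Disintegrated K) (hN : K.mem N) {X : Set N}
    (hne : X.Nonempty) (hX : Closed (fun x a => cl K x a) X) :
    ∃ S : L.Substructure N, K.le S ∧ (S : Set N) = X := by
  classical
  obtain ⟨a₀, ha₀⟩ := hne
  have key : ∀ b : Finset X, ∃ U : L.Substructure N, K.le U ∧
      (U : Set N) = {x | cl K x a₀ ∨ ∃ a ∈ b, cl K x a.1} := by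
    intro b
    induction b using Finset.induction_on with
    | empty =>
      obtain ⟨S, h1, h2⟩ := exists_least hT hN a₀
      refine ⟨S, h1, ?_⟩
      rw [h2]
      ext x
      simp
    | insert a b _ ih =>
      obtain ⟨U, hU1, hU2⟩ := ih
      obtain ⟨S, h1, h2⟩ := exists_least hT hN a.1
      obtain ⟨V, hV1, hV2⟩ := (hT N hN).2 U S hU1 h1
      refine ⟨V, hV1, ?_⟩
      rw [hV2, hU2, h2]
      ext x
      simp only [Set.mem_union, Set.mem_setOf_eq, Finset.mem_insert, exists_eq_or_imp]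
      rw [or_assoc, or_comm (b := cl K x a.1)]
  choose F hF1 hF2 using key
  have hm : Monotone F := by
    intro b b' hb x hx
    have hx' : x ∈ (F b : Set N) := hx
    rw [hF2] at hx'
    change x ∈ (F b' : Set N)
    rw [hF2]
    rcases hx' with h | ⟨a, ha, h⟩
    · exact Or.inl h
    · exact Or.inr ⟨a, hb ha, h⟩
  refine ⟨⨆ b, F b, AEC.le_iSup_finset F hm hF1, ?_⟩
  let T : L.Substructure N := ⟨X, fun f => isEmptyElim f⟩
  have h1 : ⨆ b, F b ≤ T := by
    refine iSup_le fun b x hx => ?_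
    have hx' : x ∈ (F b : Set N) := hx
    rw [hF2] at hx'
    rcases hx' with h | ⟨a, ha, h⟩
    · exact hX a₀ ha₀ x h
    · exact hX a.1 a.2 x h
  refine Set.Subset.antisymm h1 fun x hx => ?_
  have h2 : x ∈ F {⟨x, hx⟩} := by
    change x ∈ (F {⟨x, hx⟩} : Set N)
    rw [hF2]
    exact Or.inr ⟨⟨x, hx⟩, by simp, cl_refl K x⟩
  exact (le_iSup F {⟨x, hx⟩}) h2

theorem cl_map (hT : Disintegrated K) {S : L.Substructure N} {S' : L.Substructure N'}
    (e : S ≃[L] S') (hS : K.le S) (hS' : K.le S') {x a : S} (h : cl K (x : N) a) :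
    cl K (e x : N') (e a) := by
  have hN' := (K.mem_of_le S' hS').2
  intro T' hT' haT'
  obtain ⟨T, h1, h2, h3⟩ := (hT N' hN').1 (e a)
  have h4 := K.coherence T S' (h3 S' hS' (e a).2) h1 hS'
  have h5 := K.le_trans S _ (K.le_iso e.symm _ h4) hS
  have h6 := h _ h5 ⟨a, ⟨e a, h2, e.symm_apply_apply a⟩, rfl⟩
  obtain ⟨y, ⟨z, hz, hzy⟩, hyx⟩ := h6
  have h7 : y = x := Subtype.ext hyx
  subst h7
  have h8 : e y = z := by
    rw [← hzy]
    exact e.apply_symm_apply z
  rw [h8]
  exact h3 T' hT' haT' hz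

theorem cEmb_of_equiv (hT : Disintegrated K) {S : L.Substructure N} {S' : L.Substructure N'}
    (e : S ≃[L] S') (hS : K.le S) (hS' : K.le S') (f : N → N') (hf : ∀ a : S, f a = e a) :
    CEmb L (fun x a => cl K x a) (fun x a => cl K x a) (S : Set N) f where
  inj x hx y hy h := by
    have h1 := hf ⟨x, hx⟩
    have h2 := hf ⟨y, hy⟩
    have h3 : e ⟨x, hx⟩ = e ⟨y, hy⟩ := Subtype.ext (h1.symm.trans (h.trans h2))
    exact congrArg Subtype.val (e.injective h3)
  rel n r v hv := by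
    have h1 := e.map_rel r (fun i => (⟨v i, hv i⟩ : S))
    have h2 : (fun i => f (v i)) = fun i => ((e ⟨v i, hv i⟩ : S') : N') :=
      funext fun i => hf ⟨v i, hv i⟩
    rw [h2]
    exact h1
  cl a ha x hx := by
    rw [hf ⟨a, ha⟩, hf ⟨x, hx⟩]
    constructor
    · intro h
      have h1 := cl_map hT e.symm hS' hS h
      rwa [e.symm_apply_apply, e.symm_apply_apply] at h1
    · intro h
      exact cl_map hT e hS hS' (x := ⟨x, hx⟩) (a := ⟨a, ha⟩) h
  closed a ha y hy := by
    rw [hf ⟨a, ha⟩] at hy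
    have h1 : y ∈ S' := hy S' hS' (e ⟨a, ha⟩).2
    refine ⟨e.symm ⟨y, h1⟩, (e.symm ⟨y, h1⟩).2, ?_⟩
    rw [hf, e.apply_symm_apply]

theorem CEmb.mono {M M' : Type u} [L.Structure M] [L.Structure M'] {ρ : M → M → Prop}
    {ρ' : M' → M' → Prop} {X Y : Set M} {f : M → M'} (h : CEmb L ρ ρ' Y f) (hX : Closed ρ X)
    (hXY : X ⊆ Y) : CEmb L ρ ρ' X f where
  inj := h.inj.mono hXY
  rel n r v hv := h.rel n r v fun i => hXY (hv i)
  cl a ha x hx := h.cl a (hXY ha) x (hXY hx)
  closed a ha y hy := by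
    obtain ⟨x, hx, rfl⟩ := h.closed a (hXY ha) y hy
    exact ⟨x, hX a ha x ((h.cl a (hXY ha) x hx).1 hy), rfl⟩

end closed

theorem specA1 : SpecA1.{u} := by
  intro L _ K l hK hT
  refine ⟨fun N _ hN => ⟨mk_cl_le hK hN, fun X hne hX => exists_closed hT hN hne hX⟩, ?_⟩
  intro N N' _ _ hN hN' S S' e hS hS' f hf
  exact cEmb_of_equiv hT e hS hS' f hf

section em

variable {L : Language.{u, u}} {K : AEC L} {N : Type u} [L.Structure N]

/-- Ehrenfeucht-Mostowski members of all cardinalities which contain a copy of a given small set. -/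
theorem exists_em {lam : Cardinal.{u}} (hK : K.IsLS lam) (hN : K.mem N)
    (hμ : hanf (2 ^ lam) ≤ #N) (hμ' : lam < #N) (P : Set N) (hP : #P ≤ lam) (κ : Cardinal.{u})
    (hκ : lam ≤ κ) : ∃ (N₁ : Type u) (_ : L.Structure N₁), K.mem N₁ ∧ #N₁ = κ ∧
      ∃ (S : L.Substructure N) (h : S ↪[L] N₁), K.le S ∧ P ⊆ S ∧ K.Emb h := by
  classical
  have hlam := hK.1
  have hκ0 : ℵ₀ ≤ κ := hlam.trans hκ
  obtain ⟨Λ, hΛ⟩ : ∃ Λ : Type u, #Λ = lam := ⟨lam.out, mk_out lam⟩
  have hne : Nonempty N := by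
    rw [← mk_ne_zero_iff]
    exact (pos_of_gt hμ').ne'
  obtain ⟨fn, hfn⟩ := Gr.exists_skolem hK hN (fun _ => P) (fun _ => hP) (Λ := Λ) hΛ.ge
  let Ρ : Type u := PEmpty
  let _ : (Gr.LX Λ Ρ).Structure N := Gr.lxStr fn (fun _ r _ => PEmpty.elim r)
  let L₁ : Language.{u, u} := L.sum (Gr.LX Λ Ρ)
  let φ : L →ᴸ L₁ := Language.LHom.sumInl
  have hL : L₁.card ≤ lam := Gr.card_LX_le hlam hK.2.1 hΛ.le (by simp [Ρ])
  have hcl : ∀ S : L₁.Substructure N, ∀ n ξ v, (∀ k, v k ∈ (S : Set N)) →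
      fn n ξ v ∈ (S : Set N) := by
    intro S n ξ v hv
    exact S.fun_mem (n := n) (Sum.inr (ξ : (Gr.LX Λ Ρ).Functions n)) v hv
  have hsk : ∀ S : L₁.Substructure N, K.le (φ.substructureReduct S) := by
    intro S
    obtain ⟨⟨S', h1, h2⟩, -⟩ := hfn S (hcl S)
    have h3 : S' = φ.substructureReduct S := SetLike.coe_injective (by rw [h2]; rfl)
    rw [← h3]
    exact h1
  have hPS : ∀ S : L₁.Substructure N, P ⊆ S := fun S =>
    (hfn S (hcl S)).2 ∅ (by simp)
  obtain ⟨x⟩ : Nonempty ((#N).ord.ToType ≃ N) := Cardinal.eq.1 (by rw [mk_ord_toType])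
  obtain ⟨a, ha1, ha2⟩ := exists_template (L := L₁) hlam hL x (by rw [mk_ord_toType]; exact hμ)
  have ha4 : x (a 2 0) ≠ x (a 2 1) := fun h =>
    absurd (x.injective h) (ha1 2 (show (0 : Fin 2) < 1 by decide)).ne
  obtain ⟨N₁, hN₁, c, hc1, hc2⟩ := exists_isEM (L := L₁) (M := N)
    (a := fun n i => x (a n i)) ha2 κ.ord.ToType
  let _ : L.Structure N₁ := φ.reduct N₁
  have this : φ.IsExpansionOn N₁ := Language.LHom.isExpansionOn_reduct _ _
  have hNK := em_le (K := K) φ hc1 hc2 hsk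
  have hcinj := hc1.injective ha4
  refine ⟨N₁, inferInstance, hNK.1, le_antisymm ?_ ?_, ?_⟩
  · refine (mk_le_of_surjective (f := fun t : L₁.Term κ.ord.ToType => t.realize c)
      (exists_term_of_top hc2)).trans ?_
    exact mk_term_le hκ0 (hL.trans hκ) _ (mk_ord_toType κ).le
  · calc κ = #κ.ord.ToType := (mk_ord_toType κ).symm
      _ ≤ #N₁ := mk_le_of_injective hcinj
  · let b : ULift.{u} (Fin 0) → N := fun k => k.down.elim0
    let b' : ULift.{u} (Fin 0) → N₁ := fun k => k.down.elim0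
    have hbb : AtEq L₁ b b' := by
      have h1 := ((hc1 0 (fun k => k.elim0) (fun k => k.elim0)).comp
        (fun k : ULift.{u} (Fin 0) => k.down)).symm
      convert h1 using 1
      · funext k
        exact k.down.elim0
      · funext k
        exact k.down.elim0
    obtain ⟨e, -⟩ := Gr.exists_closure_equiv hbb
    let ρ : closure L₁ (Set.range b) ↪[L₁] N₁ :=
      (closure L₁ (Set.range b')).subtype.comp e.toEmbedding
    refine ⟨φ.substructureReduct (closure L₁ (Set.range b)), Gr.subEmb φ _ ρ, hsk _, hPS _, ?_⟩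
    have h1 : ρ.toHom.range = closure L₁ (c '' ∅) := by
      have h2 : ρ.toHom.range = closure L₁ (Set.range b') := by
        ext y
        constructor
        · rintro ⟨z, rfl⟩
          exact (e z).2
        · intro hy
          exact ⟨e.symm ⟨y, hy⟩, congrArg Subtype.val (e.apply_symm_apply ⟨y, hy⟩)⟩
      rw [h2]
      congr 1
      rw [image_empty]
      exact Set.range_eq_empty _
    change K.le _
    rw [Gr.range_subEmb, h1]
    exact hNK.2 ∅

end em

theorem specA2 : SpecA2.{u} := by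
  classical
  intro l lam hl hlam
  refine ⟨max (hanf (2 ^ lam)) (Order.succ lam), (Order.lt_succ lam).trans_le (le_max_right _ _),
    ?_⟩
  intro L _ K hK hT hbig
  have hK' : K.IsLS lam := hK.mono hlam
  refine ⟨?_, ?_⟩
  · intro κ hκ
    obtain ⟨N, _, hN, hμ⟩ := hbig
    obtain ⟨N₁, h1, h2, h3, -⟩ := exists_em hK' hN ((le_max_left _ _).trans hμ)
      ((Order.lt_succ lam).trans_le ((le_max_right _ _).trans hμ)) ∅ (by simp) κ hκ
    exact ⟨N₁, h1, h2, h3⟩
  · intro N M _ _ hN hM hμ hM' hcat P hP hPl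
    obtain ⟨N₁, _, h2, h3, S, h, hS, hPS, hemb⟩ := exists_em hK' hN ((le_max_left _ _).trans hμ)
      ((Order.lt_succ lam).trans_le ((le_max_right _ _).trans hμ)) P hPl #M hM'
    obtain ⟨g⟩ := hcat.2 N₁ M h2 hM h3 rfl
    have h4 : K.Emb (g.toEmbedding.comp h) := (AEC.Emb.of_equiv g h2).comp hemb
    have hMne : Nonempty M := by
      rw [← mk_ne_zero_iff]
      exact ((aleph0_pos.trans_le hK'.1).trans_le hM').ne'
    let f : N → M := fun a => if ha : a ∈ S then (g.toEmbedding.comp h) ⟨a, ha⟩ else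
      Classical.arbitrary M
    refine ⟨f, CEmb.mono ?_ hP hPS⟩
    refine cEmb_of_equiv hT (g.toEmbedding.comp h).equivRange hS h4 f fun a => ?_
    simp only [f, dif_pos a.2]
    rfl

end Vale.Agent.P307.Triv
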