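import Vale.Agent.P307.Triv.CC

/-!
Part C: the decomposition of `N` and the proof of `SpecC`.
-/

universe u

open FirstOrder Cardinal Set

namespace Vale.Agent.P307.Triv.C

variable {N : Type u} {ρN : N → N → Prop} {l : Cardinal.{u}}

/-- The elements with many witnesses. -/
def RN (l : Cardinal.{u}) (ρN : N → N → Prop) : Set N := {x | 2 ^ l < #{a | ρN x a}}

theorem RN_down (ht : ∀ x y z, ρN x y → ρN y z → ρN x z) {x a : N} (h : ρN x a)
    (ha : a ∈ RN l ρN) : x ∈ RN l ρN :=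
  lt_of_lt_of_le ha (Cardinal.mk_le_mk_of_subset fun b hb => ht x a b h hb)

/-- The components. -/
def Comp (l : Cardinal.{u}) (ρN : N → N → Prop) : Type u :=
  Quot fun x y : {x : N // x ∉ RN l ρN} => Cmp ρN x.1 y.1

open Classical in
/-- The component of an element, or `none` on the base. -/
noncomputable def cc (l : Cardinal.{u}) (ρN : N → N → Prop) (x : N) : Option (Comp l ρN) :=
  if h : x ∉ RN l ρN then some (Quot.mk _ ⟨x, h⟩) else none

theorem cc_some {x : N} (h : x ∉ RN l ρN) : cc l ρN x = some (Quot.mk _ ⟨x, h⟩) := by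
  unfold cc
  rw [dif_pos h]
  rfl

theorem cc_none {x : N} : cc l ρN x = none ↔ x ∈ RN l ρN := by
  constructor
  · intro h
    by_contra hx
    rw [cc_some hx] at h
    exact absurd h (by simp)
  · intro h
    unfold cc
    rw [dif_neg (not_not.2 h)]

/-- One step inside a component. -/
def Stp (l : Cardinal.{u}) (ρN : N → N → Prop) (p q : N) : Prop :=
  p ∉ RN l ρN ∧ q ∉ RN l ρN ∧ Cmp ρN p q

theorem cmp_symm {a b : N} (h : Cmp ρN a b) : Cmp ρN b a := Or.symm h

theorem stp_symm {p q : N} (h : Stp l ρN p q) : Stp l ρN q p := ⟨h.2.1, h.1, cmp_symm h.2.2⟩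

theorem rtg_symm {p q : N} (h : Relation.ReflTransGen (Stp l ρN) p q) :
    Relation.ReflTransGen (Stp l ρN) q p := by
  induction h with
  | refl => exact Relation.ReflTransGen.refl
  | tail _ h ih => exact Relation.ReflTransGen.head (stp_symm h) ih

theorem cc_eq {x y : N} (hx : x ∉ RN l ρN) (hy : y ∉ RN l ρN) (h : Cmp ρN x y) :
    cc l ρN x = cc l ρN y := by
  rw [cc_some hx, cc_some hy]
  exact congrArg some (Quot.sound h)

theorem rtg_of_mk {x y : {x : N // x ∉ RN l ρN}}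
    (h : Relation.EqvGen (fun x y : {x : N // x ∉ RN l ρN} => Cmp ρN x.1 y.1) x y) :
    Relation.ReflTransGen (Stp l ρN) x.1 y.1 := by
  induction h with
  | rel a b h => exact Relation.ReflTransGen.single ⟨a.2, b.2, h⟩
  | refl a => exact Relation.ReflTransGen.refl
  | symm a b _ ih => exact rtg_symm ih
  | trans a b c _ _ h1 h2 => exact h1.trans h2

theorem rtg_of_cc {x y : N} {j : Comp l ρN} (hx : cc l ρN x = some j) (hy : cc l ρN y = some j) :
    Relation.ReflTransGen (Stp l ρN) x y := by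
  have hx0 : x ∉ RN l ρN := fun h => by
    rw [cc_none.2 h] at hx
    exact absurd hx (by simp)
  have hy0 : y ∉ RN l ρN := fun h => by
    rw [cc_none.2 h] at hy
    exact absurd hy (by simp)
  rw [cc_some hx0] at hx
  rw [cc_some hy0, ← hx] at hy
  have h1 := Quot.eqvGen_exact (Option.some_injective _ hy)
  exact rtg_symm (rtg_of_mk h1)

theorem deco (ht : ∀ x y z, ρN x y → ρN y z → ρN x z) : Deco ρN (cc l ρN) where
  down x a h := by
    by_cases hx : x ∈ RN l ρN
    · exact Or.inl (cc_none.2 hx)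
    · exact Or.inr (cc_eq hx (fun ha => hx (RN_down ht h ha)) (Or.inl h))
  conn x y j hx hy := by
    have h1 := rtg_of_cc hx hy
    clear hy
    have h2 : Relation.ReflTransGen
        (fun a b => cc l ρN a = some j ∧ cc l ρN b = some j ∧ Cmp ρN a b) x y ∧
        cc l ρN y = some j := by
      induction h1 with
      | refl => exact ⟨Relation.ReflTransGen.refl, hx⟩
      | tail _ h ih =>
        have h3 := cc_eq h.1 h.2.1 h.2.2
        rw [ih.2] at h3
        exact ⟨ih.1.tail ⟨ih.2, h3.symm, h.2.2⟩, h3.symm⟩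
    exact h2.1
  comp x y hx hy h := cc_eq (fun h' => hx (cc_none.2 h')) (fun h' => hy (cc_none.2 h')) h
  surj j := by
    obtain ⟨x, rfl⟩ := Quot.exists_rep j
    exact ⟨x.1, cc_some x.2⟩

theorem mk_comp (hl : ℵ₀ ≤ l) (hd : ∀ a, #{x | ρN x a} ≤ l) (j : Comp l ρN) :
    #{x | cc l ρN x = some j} ≤ 2 ^ l := by
  have hl1 : l ≤ 2 ^ l := (Cardinal.cantor l).le
  have hl2 : ℵ₀ ≤ 2 ^ l := hl.trans hl1
  obtain ⟨x0, rfl⟩ := Quot.exists_rep j
  have hsub : {x | cc l ρN x = some (Quot.mk _ x0)} ⊆ reach (Stp l ρN) x0.1 := by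
    intro y hy
    have h1 : Relation.ReflTransGen (Stp l ρN) x0.1 y := rtg_of_cc (cc_some x0.2) hy
    clear hy
    induction h1 with
    | refl => exact self_mem_reach _ _
    | tail _ h ih => exact reach_closed _ _ ih h
  refine (Cardinal.mk_le_mk_of_subset hsub).trans (mk_reach_le _ hl2 (fun j => ?_) _)
  by_cases hj : j ∈ RN l ρN
  · have : {k | Stp l ρN j k} = ∅ := by
      ext k
      simp [Stp, hj]
    rw [this]
    simp
  · have : {k | Stp l ρN j k} ⊆ {k | ρN j k} ∪ {k | ρN k j} := fun k hk => hk.2.2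
    exact (Cardinal.mk_le_mk_of_subset this).trans
      (mk_union_le' hl2 (not_lt.1 hj) ((hd j).trans hl1))

end Vale.Agent.P307.Triv.C

namespace Vale.Agent.P307.Triv

open C

theorem specC : SpecC.{u} := by
  intro L R I E N _ _ l ρ ρN hl hM hR hE hE0 hI hB hrefl htr hd hN hP
  classical
  have hl1 : l ≤ 2 ^ l := (Cardinal.cantor l).le
  have hl2 : ℵ₀ ≤ (2 : Cardinal.{u}) ^ l := hl.trans hl1
  have hs0 : (2 : Cardinal.{u}) ^ l ≤ Order.succ (2 ^ l) := Order.le_succ _
  have hs1 : l < Order.succ (2 ^ l) := lt_of_le_of_lt hl1 (Order.lt_succ _)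
  have hs2 : ℵ₀ ≤ Order.succ ((2 : Cardinal.{u}) ^ l) := hl.trans hs1.le
  have hlI : l < #I := hs1.trans hI
  have hD : Deco ρN (cc l ρN) := deco htr
  -- the base is small
  have hdn : ∀ S : Set N, #S ≤ Order.succ l → ∃ P : Set N, S ⊆ P ∧ Closed ρN P ∧
      #P ≤ Order.succ (2 ^ l) := by
    intro S hS
    refine ⟨⋃ a : S, {x | ρN x a}, fun a ha => Set.mem_iUnion.2 ⟨⟨a, ha⟩, hrefl a⟩, ?_, ?_⟩
    · intro a ha x hx
      obtain ⟨b, hb⟩ := Set.mem_iUnion.1 ha
      exact Set.mem_iUnion.2 ⟨b, htr x a b hx hb⟩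
    · refine mk_iUnion_le' hs2 (hS.trans ?_) _ fun a => (hd a).trans hs1.le
      exact Order.succ_le_succ hl1
  have hRN : #(RN l ρN) ≤ l := by
    by_contra hcon
    rw [not_le] at hcon
    obtain ⟨A, hA, hAc⟩ := Cardinal.le_mk_iff_exists_subset.1 (Order.succ_le_of_lt hcon)
    have hW : ∀ x : A, ∃ W ⊆ {a | ρN x.1 a}, #W = Order.succ l := fun x => by
      refine Cardinal.le_mk_iff_exists_subset.1 ?_
      exact (Order.succ_le_succ hl1).trans (Order.succ_le_of_lt (hA x.2))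
    choose W hW1 hW2 using hW
    have hsl : ℵ₀ ≤ Order.succ l := hl.trans (Order.le_succ l)
    obtain ⟨P, hP1, hP2, hP3⟩ := hdn (A ∪ ⋃ x, W x)
      (mk_union_le' hsl hAc.le (mk_iUnion_le' hsl hAc.le _ fun x => (hW2 x).le))
    obtain ⟨f, hf⟩ := hP P hP2 hP3
    have hfR : ∀ x : A, ∃ s, f x = Sum.inl s := by
      intro x
      rcases h : f x with s | p
      · exact ⟨s, rfl⟩
      · exfalso
        have hWP : W x ⊆ P := fun a ha => hP1 (Or.inr (Set.mem_iUnion.2 ⟨x, ha⟩))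
        have h1 : #(f '' W x) ≤ l := by
          refine (Cardinal.mk_le_mk_of_subset ?_).trans (inr_wit (p := p) hM hE)
          rintro _ ⟨a, ha, rfl⟩
          have := (hf.cl a (hWP ha) _ (hP1 (Or.inl x.2))).2 (hW1 x ha)
          rw [h] at this
          exact this
        rw [Cardinal.mk_image_eq_of_injOn _ _ (hf.inj.mono hWP), hW2] at h1
        exact absurd h1 (not_le.2 (Order.lt_succ l))
    choose s hs using hfR
    have h2 : #A ≤ #R := by
      refine Cardinal.mk_le_of_injective (f := s) ?_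
      intro x y hxy
      exact Subtype.ext (hf.inj (hP1 (Or.inl x.2)) (hP1 (Or.inl y.2)) (by rw [hs, hs, hxy]))
    rw [hAc] at h2
    exact absurd (h2.trans hR) (not_le.2 (Order.lt_succ l))
  have hcn : {x | cc l ρN x = none} = RN l ρN := by
    ext x
    exact cc_none
  have hcov : ∀ J' : Set (Comp l ρN), B (cc l ρN) J' ⊆
      RN l ρN ∪ ⋃ j : J', {x | cc l ρN x = some j.1} := by
    intro J' x hx
    rcases h : cc l ρN x with _ | j
    · exact Or.inl (cc_none.1 h)
    · exact Or.inr (Set.mem_iUnion.2 ⟨⟨j, hx j h⟩, h⟩)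
  have hBc : ∀ J' : Set (Comp l ρN), #J' ≤ Order.succ (2 ^ l) →
      #(B (cc l ρN) J') ≤ Order.succ (2 ^ l) := fun J' hJ' =>
    (Cardinal.mk_le_mk_of_subset (hcov J')).trans
      (mk_union_le' hs2 (hRN.trans hs1.le)
        (mk_iUnion_le' hs2 hJ' _ fun j => (mk_comp hl hd j.1).trans hs0))
  have hJ : Order.succ (2 ^ l) ≤ #(Comp l ρN) := by
    rw [Order.succ_le_iff]
    by_contra hcon
    rw [not_lt] at hcon
    have h1 : (Set.univ : Set N) ⊆
        RN l ρN ∪ ⋃ j : (Set.univ : Set (Comp l ρN)), {x | cc l ρN x = some j.1} :=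
      fun x _ => hcov Set.univ (fun j _ => trivial)
    have h2 : #N ≤ 2 ^ l := by
      rw [← Cardinal.mk_univ]
      refine (Cardinal.mk_le_mk_of_subset h1).trans (mk_union_le' hl2 (hRN.trans hl1)
        (mk_iUnion_le' hl2 ?_ _ fun j => mk_comp hl hd j.1))
      rw [Cardinal.mk_univ]
      exact hcon
    exact absurd (hN.trans_le (h2.trans hs0)) (lt_irrefl _)
  refine ⟨Comp l ρN, cc l ρN, hJ, fun J₁ hJ₁ => ?_⟩
  have hW : ∀ x : RN l ρN, ∃ W ⊆ {a | ρN x.1 a}, #W = Order.succ (2 ^ l) := fun x =>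
    Cardinal.le_mk_iff_exists_subset.1 (Order.succ_le_of_lt x.2)
  choose W hW1 hW2 using hW
  obtain ⟨J0, hJ0⟩ := Cardinal.le_mk_iff_exists_set.1 hJ
  set J2 : Set (Comp l ρN) := ⋃ x : RN l ρN, {j | ∃ a ∈ W x, cc l ρN a = some j} with hJ2
  have hJ2c : #J2 ≤ Order.succ (2 ^ l) := by
    refine mk_iUnion_le' hs2 (hRN.trans hs1.le) _ fun x => ?_
    rw [← hW2 x]
    choose a ha haj using fun j : {j | ∃ a ∈ W x, cc l ρN a = some j} => j.2
    refine Cardinal.mk_le_of_injective (f := fun j => ⟨a j, ha j⟩) ?_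
    intro j j' hjj
    have h1 : a j = a j' := congrArg Subtype.val hjj
    have h2 := haj j
    rw [h1, haj j'] at h2
    exact Subtype.ext (Option.some_injective _ h2).symm
  set J' : Set (Comp l ρN) := (J₁ ∪ J2) ∪ J0 with hJ'
  have hJ'c : #J' ≤ Order.succ (2 ^ l) := mk_union_le' hs2 (mk_union_le' hs2 hJ₁ hJ2c) hJ0.le
  obtain ⟨f, hf⟩ := hP (B (cc l ρN) J') (B_closed hD J') (hBc J' hJ'c)
  have hcore : Core ρ (cc l ρN) J' f := by
    refine core hl hM hR hE hE0 hlI hB hD hf (fun x hx => ?_) ?_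
    · have hx' : x ∈ RN l ρN := cc_none.1 hx
      refine hs1.trans_le ?_
      rw [← hW2 ⟨x, hx'⟩]
      refine Cardinal.mk_le_mk_of_subset fun a ha => ⟨fun j hj => ?_, hW1 ⟨x, hx'⟩ ha⟩
      exact Or.inl (Or.inr (Set.mem_iUnion.2 ⟨⟨x, hx'⟩, a, ha, hj⟩))
    · refine hs1.trans_le ?_
      rw [← hJ0]
      exact Cardinal.mk_le_mk_of_subset Set.subset_union_right
  exact local_coord hl hM hR hE hlI hB hD (fun j hj => Or.inl (Or.inl hj)) hf hcore
    ((hBc J₁ hJ₁).trans_lt hI)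

end Vale.Agent.P307.Triv
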