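import Vale.Agent.P307.Triv.Spec

/-!
Part C: facts about the symmetric structure.
-/

universe u

open FirstOrder Cardinal Set

namespace Vale.Agent.P307.Triv.C

section Card

variable {α : Type u} {l : Cardinal.{u}}

theorem mk_iUnion_le' {ι : Type u} (hl : ℵ₀ ≤ l) (hι : #ι ≤ l) (f : ι → Set α)
    (h : ∀ i, #(f i) ≤ l) : #(⋃ i, f i) ≤ l := by
  refine (Cardinal.mk_iUnion_le f).trans ?_
  exact (mul_le_mul' hι (ciSup_le' h)).trans (Cardinal.mul_eq_self hl).le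

/-- The points reached from `i` in `n` steps. -/
def level (r : α → α → Prop) (i : α) : ℕ → Set α
  | 0 => {i}
  | n + 1 => ⋃ j : level r i n, {k | r j k}

/-- The points reached from `i`. -/
def reach (r : α → α → Prop) (i : α) : Set α := ⋃ n : ULift.{u} ℕ, level r i n.down

theorem self_mem_reach (r : α → α → Prop) (i : α) : i ∈ reach r i := Set.mem_iUnion.2 ⟨⟨0⟩, rfl⟩

theorem reach_closed (r : α → α → Prop) (i : α) {j k : α} (hj : j ∈ reach r i) (h : r j k) :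
    k ∈ reach r i := by
  obtain ⟨⟨n⟩, hn⟩ := Set.mem_iUnion.1 hj
  exact Set.mem_iUnion.2 ⟨⟨n + 1⟩, Set.mem_iUnion.2 ⟨⟨j, hn⟩, h⟩⟩

theorem mk_reach_le (r : α → α → Prop) (hl : ℵ₀ ≤ l) (hr : ∀ j, #{k | r j k} ≤ l) (i : α) :
    #(reach r i) ≤ l := by
  refine mk_iUnion_le' hl ?_ _ ?_
  · simpa using hl
  · rintro ⟨n⟩
    induction n with
    | zero =>
      change #({i} : Set α) ≤ l
      rw [Cardinal.mk_singleton]
      exact Cardinal.one_le_aleph0.trans hl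
    | succ n ih => exact mk_iUnion_le' hl ih _ fun j => hr j

theorem mk_union_le' {s t : Set α} (hl : ℵ₀ ≤ l) (hs : #s ≤ l) (ht : #t ≤ l) :
    #(s ∪ t : Set α) ≤ l :=
  (Cardinal.mk_union_le s t).trans ((add_le_add hs ht).trans (Cardinal.add_eq_self hl).le)

end Card

section Sym

variable {L : Language.{u, u}} {R I E : Type u} [L.Structure (R ⊕ (I × E))] {l : Cardinal.{u}}
  {ρ : R ⊕ (I × E) → R ⊕ (I × E) → Prop}

theorem inr_wit (hM : SymM L R I E ρ) (hE : #E ≤ l) (p : I × E) :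
    #{a | ρ (Sum.inr p) a} ≤ l := by
  have h : {a | ρ (Sum.inr p) a} ⊆ Set.range fun e : E => (Sum.inr (p.1, e) : R ⊕ (I × E)) := by
    rintro (s | ⟨j, e⟩) ha
    · obtain ⟨s', hs'⟩ := hM.base _ _ ha
      exact absurd hs' (by simp)
    · have := hM.piece p.1 p.2 j e ha
      exact ⟨e, by rw [this]⟩
  exact (Cardinal.mk_le_mk_of_subset h).trans (Cardinal.mk_range_le.trans hE)

theorem inl_wit (hM : SymM L R I E ρ) (s : R) : #I ≤ #{a | ρ (Sum.inl s) a} := by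
  obtain ⟨e, he⟩ := hM.full s
  refine Cardinal.mk_le_of_injective (f := fun i => ⟨Sum.inr (i, e), he i⟩) ?_
  intro i j hij
  simpa using hij

theorem mk_carrier (hl : ℵ₀ ≤ l) (hR : #R ≤ l) (hE : #E ≤ l) (hI : l < #I) :
    #(R ⊕ (I × E)) ≤ #I := by
  have hI0 : ℵ₀ ≤ #I := hl.trans hI.le
  rw [Cardinal.mk_sum, Cardinal.mk_prod, Cardinal.lift_id, Cardinal.lift_id, Cardinal.lift_id,
    Cardinal.lift_id]
  have h1 : #I * #E ≤ #I := (mul_le_mul' le_rfl (hE.trans hI.le)).trans (Cardinal.mul_eq_self hI0).le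
  exact (add_le_add (hR.trans hI.le) h1).trans (Cardinal.add_eq_self hI0).le

/-- The facts about an isomorphism of a large closed set onto the symmetric structure. -/
theorem g_inl (hM : SymM L R I E ρ) (hE : #E ≤ l) {Y : Set (R ⊕ (I × E))}
    {g : R ⊕ (I × E) → R ⊕ (I × E)} (hg : CEmb L ρ ρ Y g)
    (hY : ∀ s, Sum.inl s ∈ Y) (hw : ∀ s, l < #{a | a ∈ Y ∧ ρ (Sum.inl s) a}) (s : R) :
    ∃ s', g (Sum.inl s) = Sum.inl s' := by
  rcases h : g (Sum.inl s) with s' | p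
  · exact ⟨s', rfl⟩
  · exfalso
    have h1 : #(g '' {a | a ∈ Y ∧ ρ (Sum.inl s) a}) ≤ l := by
      refine (Cardinal.mk_le_mk_of_subset ?_).trans (inr_wit (p := p) hM hE)
      rintro _ ⟨a, ⟨ha, ha1⟩, rfl⟩
      have := (hg.cl a ha _ (hY s)).2 ha1
      rw [h] at this
      exact this
    rw [Cardinal.mk_image_eq_of_injOn _ _ (hg.inj.mono fun a ha => ha.1)] at h1
    exact absurd h1 (not_le.2 (hw s))

theorem g_inr (hM : SymM L R I E ρ) (hE : #E ≤ l) (hI : l < #I) {Y : Set (R ⊕ (I × E))}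
    {g : R ⊕ (I × E) → R ⊕ (I × E)} (hg : CEmb L ρ ρ Y g) (hgs : g '' Y = Set.univ)
    {p : I × E} (hp : Sum.inr p ∈ Y) : ∃ q, g (Sum.inr p) = Sum.inr q := by
  rcases h : g (Sum.inr p) with s | q
  · exfalso
    have h1 : {a | ρ (Sum.inl s) a} ⊆ g '' {a | ρ (Sum.inr p) a} := by
      intro a ha
      obtain ⟨y, hy, rfl⟩ : a ∈ g '' Y := by rw [hgs]; trivial
      refine ⟨y, ?_, rfl⟩
      rw [← h] at ha
      exact (hg.cl y hy _ hp).1 ha
    have h2 := (inl_wit hM s).trans ((Cardinal.mk_le_mk_of_subset h1).trans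
      (Cardinal.mk_image_le.trans (inr_wit (p := p) hM hE)))
    exact absurd h2 (not_le.2 hI)
  · exact ⟨q, rfl⟩

/-- Comparability. -/
def Cmp {α : Type u} (ρ : α → α → Prop) (a b : α) : Prop := ρ a b ∨ ρ b a

theorem cmp_piece (hM : SymM L R I E ρ) {p q : I × E}
    (h : Cmp ρ (Sum.inr p : R ⊕ (I × E)) (Sum.inr q)) : p.1 = q.1 := by
  rcases h with h | h
  · exact hM.piece _ _ _ _ h
  · exact (hM.piece _ _ _ _ h).symm

/-- A connected and relatively closed part of the pieces is mapped onto a piece. -/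
theorem g_piece (hM : SymM L R I E ρ) (hE : #E ≤ l) (hI : l < #I) {Y : Set (R ⊕ (I × E))}
    {g : R ⊕ (I × E) → R ⊕ (I × E)} (hg : CEmb L ρ ρ Y g) (hgs : g '' Y = Set.univ)
    (hY : ∀ s, Sum.inl s ∈ Y) (hw : ∀ s, l < #{a | a ∈ Y ∧ ρ (Sum.inl s) a})
    {Z : Set (R ⊕ (I × E))} (hZY : Z ⊆ Y) (hZ0 : Z.Nonempty) (hZi : ∀ z ∈ Z, ∃ p, z = Sum.inr p)
    (hZc : ∀ z ∈ Z, ∀ p, Sum.inr p ∈ Y → Cmp ρ (Sum.inr p) z → Sum.inr p ∈ Z)
    (hZr : ∀ z ∈ Z, ∀ z' ∈ Z,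
      Relation.ReflTransGen (fun a b => a ∈ Z ∧ b ∈ Z ∧ Cmp ρ a b) z z') :
    ∃ k, (∀ z ∈ Z, ∃ e, g z = Sum.inr (k, e)) ∧ ∀ e, ∃ z ∈ Z, g z = Sum.inr (k, e) := by
  have hcmp : ∀ a ∈ Y, ∀ b ∈ Y, Cmp ρ (g a) (g b) ↔ Cmp ρ a b := fun a ha b hb => by
    unfold Cmp
    rw [hg.cl b hb a ha, hg.cl a ha b hb]
  have hinr : ∀ z ∈ Z, ∃ q, g z = Sum.inr q := fun z hz => by
    obtain ⟨p, rfl⟩ := hZi z hz
    exact g_inr hM hE hI hg hgs (hZY hz)
  obtain ⟨z0, hz0⟩ := hZ0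
  obtain ⟨⟨k, e0⟩, hk⟩ := hinr z0 hz0
  refine ⟨k, fun z hz => ?_, fun e => ?_⟩
  · induction hZr z0 hz0 z hz with
    | refl => exact ⟨e0, hk⟩
    | tail _ h ih =>
      obtain ⟨hb, hc, hbc⟩ := h
      obtain ⟨e1, he1⟩ := ih hb
      obtain ⟨⟨k2, e2⟩, he2⟩ := hinr _ hc
      have h1 := (hcmp _ (hZY hb) _ (hZY hc)).2 hbc
      rw [he1, he2] at h1
      have h2 := cmp_piece hM h1
      simp only at h2
      exact ⟨e2, by rw [he2, h2]⟩
  · have h0 := hM.conn k e0 e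
    induction h0 with
    | refl => exact ⟨z0, hz0, hk⟩
    | @tail b c _ h ih =>
      obtain ⟨z, hz, hzb⟩ := ih
      obtain ⟨y, hy, hyc⟩ : (Sum.inr (k, c) : R ⊕ (I × E)) ∈ g '' Y := by rw [hgs]; trivial
      have h1 : Cmp ρ (g y) (g z) := by
        rw [hyc, hzb]
        exact h.symm
      have h2 := (hcmp _ hy _ (hZY hz)).1 h1
      rcases y with s | p
      · obtain ⟨s', hs'⟩ := g_inl hM hE hg hY hw s
        rw [hs'] at hyc
        exact absurd hyc (by simp)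
      · exact ⟨_, hZc z hz p hy h2, hyc⟩

end Sym

end Vale.Agent.P307.Triv.C
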