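import Vale.Agent.P307.Triv.CA

/-!
Part C: the trace of a type is everything; the base is mapped onto the base; local coordinates.
-/

universe u

open FirstOrder Cardinal Set

namespace Vale.Agent.P307.Triv.C

variable {L : Language.{u, u}} {R I E : Type u} [L.Structure (R ⊕ (I × E))] {l : Cardinal.{u}}
  {ρ : R ⊕ (I × E) → R ⊕ (I × E) → Prop}

/-- Large closed sets are isomorphic to the whole structure. -/
def Big (L : Language.{u, u}) {R I E : Type u} [L.Structure (R ⊕ (I × E))]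
    (ρ : R ⊕ (I × E) → R ⊕ (I × E) → Prop) : Prop :=
  ∀ Y : Set (R ⊕ (I × E)), Closed ρ Y → #Y = #I → ∃ g, CEmb L ρ ρ Y g ∧ g '' Y = Set.univ

/-- A type: a nonempty closed connected part of the piece. -/
structure IsType (R I : Type u) {E : Type u} (ρ : R ⊕ (I × E) → R ⊕ (I × E) → Prop) (T : Set E) :
    Prop where
  ne : T.Nonempty
  closed : ∀ i e e', e ∈ T → ρ (Sum.inr (i, e')) (Sum.inr (i, e)) → e' ∈ T
  conn : ∀ i, ∀ e ∈ T, ∀ e' ∈ T, Relation.ReflTransGen
    (fun a b => a ∈ T ∧ b ∈ T ∧ Cmp ρ (Sum.inr (i, a) : R ⊕ (I × E)) (Sum.inr (i, b))) e e'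

theorem trace_full (hl : ℵ₀ ≤ l) (hM : SymM L R I E ρ) (hR : #R ≤ l) (hE : #E ≤ l)
    (hE0 : Nonempty E) (hI : l < #I) (hB : Big L ρ) {T : Set E} (hT : IsType R I ρ T) (s : R) :
    ∃ e ∈ T, ∀ i, ρ (Sum.inl s) (Sum.inr (i, e)) := by
  classical
  have hI0 : ℵ₀ ≤ #I := hl.trans hI.le
  have : Infinite I := Cardinal.infinite_iff.2 hI0
  obtain ⟨i0⟩ : Nonempty I := inferInstance
  set Y : Set (R ⊕ (I × E)) := {y | ∀ e, y = Sum.inr (i0, e) → e ∈ T} with hY
  have hcompl : #({i0}ᶜ : Set I) = #I := by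
    refine Cardinal.mk_compl_of_infinite _ ?_
    rw [Cardinal.mk_singleton]
    exact Cardinal.one_lt_aleph0.trans_le hI0
  have hwit : ∀ s, #I ≤ #{a | a ∈ Y ∧ ρ (Sum.inl s) a} := by
    intro s
    obtain ⟨e, he⟩ := hM.full s
    rw [← hcompl]
    refine Cardinal.mk_le_of_injective
      (f := fun i : ({i0}ᶜ : Set I) => ⟨Sum.inr (i.1, e), ?_, he i.1⟩) ?_
    · intro e' h
      have h1 := (Prod.mk.injEq _ _ _ _ ▸ Sum.inr_injective h).1
      exact absurd h1 i.2
    · intro i j hij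
      have := Sum.inr_injective (congrArg Subtype.val hij)
      exact Subtype.ext (Prod.mk.injEq _ _ _ _ ▸ this).1
  have hYc : Closed ρ Y := by
    intro a ha x hx e hxe
    subst hxe
    rcases a with s | ⟨j, e'⟩
    · obtain ⟨s', hs'⟩ := hM.base _ _ hx
      exact absurd hs' (by simp)
    · have h1 := hM.piece _ _ _ _ hx
      subst h1
      exact hT.closed _ _ _ (ha e' rfl) hx
  have hYcard : #Y = #I := by
    refine le_antisymm ((Cardinal.mk_set_le _).trans (mk_carrier hl hR hE hI)) ?_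
    obtain ⟨e⟩ := hE0
    rw [← hcompl]
    refine Cardinal.mk_le_of_injective
      (f := fun i : ({i0}ᶜ : Set I) => ⟨Sum.inr (i.1, e), ?_⟩) ?_
    · intro e' h
      have h1 := (Prod.mk.injEq _ _ _ _ ▸ Sum.inr_injective h).1
      exact absurd h1 i.2
    · intro i j hij
      have := Sum.inr_injective (congrArg Subtype.val hij)
      exact Subtype.ext (Prod.mk.injEq _ _ _ _ ▸ this).1
  obtain ⟨g, hg, hgs⟩ := hB Y hYc hYcard
  have hYinl : ∀ s, (Sum.inl s : R ⊕ (I × E)) ∈ Y := fun s e h => absurd h (by simp)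
  have hw : ∀ s, l < #{a | a ∈ Y ∧ ρ (Sum.inl s) a} := fun s => hI.trans_le (hwit s)
  set Z : Set (R ⊕ (I × E)) := {y | ∃ e ∈ T, y = Sum.inr (i0, e)} with hZ
  have hZY : Z ⊆ Y := by
    rintro _ ⟨e, he, rfl⟩ e' h
    have h1 := (Prod.mk.injEq _ _ _ _ ▸ Sum.inr_injective h).2
    rw [← h1]
    exact he
  obtain ⟨k, -, hk⟩ := g_piece (Z := Z) hM hE hI hg hgs hYinl hw hZY
    (by obtain ⟨e, he⟩ := hT.ne; exact ⟨_, e, he, rfl⟩)
    (by rintro _ ⟨e, he, rfl⟩; exact ⟨_, rfl⟩)
    (by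
      rintro _ ⟨e, he, rfl⟩ ⟨i, e'⟩ hp hc
      have h1 := cmp_piece hM hc
      simp only at h1
      subst h1
      exact ⟨e', hp e' rfl, rfl⟩)
    (by
      rintro _ ⟨e, he, rfl⟩ _ ⟨e', he', rfl⟩
      have h1 := hT.conn i0 e he e' he'
      induction h1 with
      | refl => exact Relation.ReflTransGen.refl
      | tail _ h ih => exact (ih h.1).tail ⟨⟨_, h.1, rfl⟩, ⟨_, h.2.1, rfl⟩, h.2.2⟩)
  obtain ⟨s1, hs1⟩ := g_inl hM hE hg hYinl hw s
  obtain ⟨e, he⟩ := hM.full s1
  obtain ⟨z, ⟨e0, he0, rfl⟩, hz⟩ := hk e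
  refine ⟨e0, he0, fun i => hM.unif_base s i0 i e0 ?_⟩
  rw [← hg.cl _ (hZY ⟨e0, he0, rfl⟩) _ (hYinl s), hs1, hz]
  exact he k

/-- The properties of the decomposition of `N` into a base and components. -/
structure Deco {N J : Type u} (ρN : N → N → Prop) (c : N → Option J) : Prop where
  down : ∀ x a, ρN x a → c x = none ∨ c x = c a
  conn : ∀ x y j, c x = some j → c y = some j → Relation.ReflTransGen
    (fun a b => c a = some j ∧ c b = some j ∧ Cmp ρN a b) x y
  comp : ∀ x y, c x ≠ none → c y ≠ none → Cmp ρN x y → c x = c y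
  surj : ∀ j, ∃ x, c x = some j

/-- The union of the base and of the components in `J'`. -/
def B {N J : Type u} (c : N → Option J) (J' : Set J) : Set N := {x | ∀ j, c x = some j → j ∈ J'}

section

variable {N J : Type u} [L.Structure N] {ρN : N → N → Prop} {c : N → Option J}

theorem B_closed (hD : Deco ρN c) (J' : Set J) : Closed ρN (B c J') := by
  intro a ha x hx j hj
  rcases hD.down x a hx with h | h
  · rw [h] at hj
    exact absurd hj (by simp)
  · exact ha j (by rw [← h, hj])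

theorem B_mono {J' J'' : Set J} (h : J' ⊆ J'') : B c J' ⊆ B c J'' := fun _ hx j hj => h (hx j hj)

theorem B_none {x : N} (J' : Set J) (h : c x = none) : x ∈ B c J' := fun j hj => by
  rw [h] at hj
  exact absurd hj (by simp)

theorem B_some {x : N} {J' : Set J} {j : J} (h : c x = some j) (hj : j ∈ J') : x ∈ B c J' :=
  fun j' hj' => by
    rw [h] at hj'
    rw [← Option.some_injective _ hj']
    exact hj

/-- What a closed embedding of a sufficiently large part does. -/
structure Core {R I E N J : Type u} (ρ : R ⊕ (I × E) → R ⊕ (I × E) → Prop) (c : N → Option J)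
    (J' : Set J) (f : N → R ⊕ (I × E)) : Prop where
  base : ∀ x, c x = none → ∃ s, f x = Sum.inl s
  base_surj : ∀ s, ∃ x, c x = none ∧ f x = Sum.inl s
  inr : ∀ x ∈ B c J', c x ≠ none → ∃ p, f x = Sum.inr p
  type : ∃ T : Set E, IsType R I ρ T ∧ ∀ s, ∃ e ∈ T, ∀ i, ρ (Sum.inl s) (Sum.inr (i, e))

theorem core (hl : ℵ₀ ≤ l) (hM : SymM L R I E ρ) (hR : #R ≤ l) (hE : #E ≤ l)
    (hE0 : Nonempty E) (hI : l < #I) (hB : Big L ρ) (hD : Deco ρN c) {J' : Set J}
    {f : N → R ⊕ (I × E)} (hf : CEmb L ρN ρ (B c J') f)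
    (hw : ∀ x, c x = none → l < #{a | a ∈ B c J' ∧ ρN x a}) (hJ : l < #J') :
    Core ρ c J' f := by
  classical
  have hbase : ∀ x, c x = none → ∃ s, f x = Sum.inl s := by
    intro x hx
    rcases h : f x with s | p
    · exact ⟨s, rfl⟩
    · exfalso
      have h1 : #(f '' {a | a ∈ B c J' ∧ ρN x a}) ≤ l := by
        refine (Cardinal.mk_le_mk_of_subset ?_).trans (inr_wit (p := p) hM hE)
        rintro _ ⟨a, ⟨ha, ha1⟩, rfl⟩
        have := (hf.cl a ha _ (B_none J' hx)).2 ha1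
        rw [h] at this
        exact this
      rw [Cardinal.mk_image_eq_of_injOn _ _ (hf.inj.mono fun a ha => ha.1)] at h1
      exact absurd h1 (not_le.2 (hw x hx))
  -- the bad components
  set Bd : Set J := {j | j ∈ J' ∧ ∃ x, c x = some j ∧ ∃ s, f x = Sum.inl s} with hBd
  have hBdc : #Bd ≤ l := by
    refine le_trans ?_ hR
    choose x hx s hs using fun j : Bd => j.2.2
    refine Cardinal.mk_le_of_injective (f := s) ?_
    intro j j' hjj
    have h1 : x j = x j' := hf.inj (B_some (hx j) j.2.1) (B_some (hx j') j'.2.1)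
      (by rw [hs, hs, hjj])
    have h2 := hx j
    rw [h1, hx j'] at h2
    exact Subtype.ext (Option.some_injective _ h2).symm
  have hgood : ∀ j ∈ J' \ Bd, ∃ i, ∀ x, c x = some j → ∃ e, f x = Sum.inr (i, e) := by
    rintro j ⟨hj, hjB⟩
    have hinr : ∀ x, c x = some j → ∃ p, f x = Sum.inr p := by
      intro x hx
      rcases h : f x with s | p
      · exact absurd ⟨hj, x, hx, s, h⟩ hjB
      · exact ⟨p, rfl⟩
    obtain ⟨x0, hx0⟩ := hD.surj j
    obtain ⟨⟨i, e0⟩, hi⟩ := hinr x0 hx0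
    refine ⟨i, fun x hx => ?_⟩
    induction hD.conn x0 x j hx0 hx with
    | refl => exact ⟨e0, hi⟩
    | @tail b d _ h ih =>
      obtain ⟨hb, hc, hbc⟩ := h
      obtain ⟨e1, he1⟩ := ih hb
      obtain ⟨⟨k2, e2⟩, he2⟩ := hinr _ hc
      have h1 : Cmp ρ (f b) (f d) := by
        rcases hbc with hbc | hbc
        · exact Or.inl ((hf.cl _ (B_some hc hj) _ (B_some hb hj)).2 hbc)
        · exact Or.inr ((hf.cl _ (B_some hb hj) _ (B_some hc hj)).2 hbc)
      rw [he1, he2] at h1
      have h2 := cmp_piece hM h1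
      simp only at h2
      exact ⟨e2, by rw [he2, h2]⟩
  have htype : ∀ j ∈ J' \ Bd, ∀ i, (∀ x, c x = some j → ∃ e, f x = Sum.inr (i, e)) →
      IsType R I ρ {e | ∃ x, c x = some j ∧ f x = Sum.inr (i, e)} := by
    intro j hj i hi
    have hcmp : ∀ a b, c a = some j → c b = some j → (Cmp ρ (f a) (f b) ↔ Cmp ρN a b) :=
      fun a b ha hb => by
        unfold Cmp
        rw [hf.cl b (B_some hb hj.1) a (B_some ha hj.1),
          hf.cl a (B_some ha hj.1) b (B_some hb hj.1)]
    refine ⟨?_, ?_, ?_⟩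
    · obtain ⟨x, hx⟩ := hD.surj j
      obtain ⟨e, he⟩ := hi x hx
      exact ⟨e, x, hx, he⟩
    · rintro i' e e' ⟨x, hx, hxe⟩ h
      have h1 := hM.unif_piece i' i e' e h
      rw [← hxe] at h1
      obtain ⟨y, hy, hye⟩ := hf.closed x (B_some hx hj.1) _ h1
      rw [← hye] at h1
      have h2 := (hf.cl x (B_some hx hj.1) y hy).1 h1
      refine ⟨y, ?_, hye⟩
      rcases hD.down y x h2 with h3 | h3
      · obtain ⟨s, hs⟩ := hbase y h3
        rw [hs] at hye
        exact absurd hye (by simp)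
      · rw [h3, hx]
    · rintro i' e ⟨x, hx, hxe⟩ e' ⟨x', hx', hxe'⟩
      have h1 := hD.conn x x' j hx hx'
      clear hx'
      induction h1 generalizing e' with
      | refl =>
        rw [hxe] at hxe'
        have h2 : e = e' := (Prod.mk.injEq _ _ _ _ ▸ Sum.inr_injective hxe').2
        rw [h2]
      | @tail b d _ h ih =>
        obtain ⟨hb, hd, hbd⟩ := h
        obtain ⟨e1, he1⟩ := hi b hb
        refine (ih e1 he1).tail ⟨⟨b, hb, he1⟩, ⟨d, hd, hxe'⟩, ?_⟩
        have h2 := (hcmp b d hb hd).2 hbd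
        rw [he1, hxe'] at h2
        rcases h2 with h2 | h2
        · exact Or.inl (hM.unif_piece i i' _ _ h2)
        · exact Or.inr (hM.unif_piece i i' _ _ h2)
  -- two good components
  have hnt : (J' \ Bd).Nontrivial := by
    rw [← Set.not_subsingleton_iff]
    intro hs
    have h1 : #(J' \ Bd : Set J) ≤ 1 := Cardinal.mk_le_one_iff_set_subsingleton.2 hs
    have h2 : #J' ≤ l := by
      have h3 : J' ⊆ Bd ∪ (J' \ Bd) := fun j hj => by
        by_cases h : j ∈ Bd
        · exact Or.inl h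
        · exact Or.inr ⟨hj, h⟩
      exact (Cardinal.mk_le_mk_of_subset h3).trans
        (mk_union_le' hl hBdc (h1.trans (Cardinal.one_le_aleph0.trans hl)))
    exact absurd h2 (not_le.2 hJ)
  obtain ⟨j, hj, j', hj', hne⟩ := hnt
  have hbelow : ∀ j ∈ J' \ Bd, ∀ s, ∃ x ∈ B c J', f x = Sum.inl s ∧
      (c x = none ∨ c x = some j) := by
    intro j hj s
    obtain ⟨i, hi⟩ := hgood j hj
    obtain ⟨e, ⟨b, hb, hbe⟩, he⟩ := trace_full hl hM hR hE hE0 hI hB (htype j hj i hi) s
    have h1 := he i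
    rw [← hbe] at h1
    obtain ⟨x, hx, hxs⟩ := hf.closed b (B_some hb hj.1) _ h1
    rw [← hxs] at h1
    have h2 := (hf.cl b (B_some hb hj.1) x hx).1 h1
    refine ⟨x, hx, hxs, ?_⟩
    rcases hD.down x b h2 with h3 | h3
    · exact Or.inl h3
    · exact Or.inr (by rw [h3, hb])
  have hsurj : ∀ s, ∃ x, c x = none ∧ f x = Sum.inl s := by
    intro s
    obtain ⟨x, hx, hxs, hxc⟩ := hbelow j hj s
    obtain ⟨x', hx', hxs', hxc'⟩ := hbelow j' hj' s
    have h1 : x = x' := hf.inj hx hx' (by rw [hxs, hxs'])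
    subst h1
    rcases hxc with h | h
    · exact ⟨x, h, hxs⟩
    · rcases hxc' with h' | h'
      · exact ⟨x, h', hxs⟩
      · rw [h] at h'
        exact absurd (Option.some_injective _ h') hne
  refine ⟨hbase, hsurj, fun x hx hxc => ?_, ?_⟩
  · rcases h : f x with s | p
    · obtain ⟨y, hy, hys⟩ := hsurj s
      have h1 : x = y := hf.inj hx (B_none J' hy) (by rw [h, hys])
      rw [h1] at hxc
      exact absurd hy hxc
    · exact ⟨p, rfl⟩
  · obtain ⟨i, hi⟩ := hgood j hj
    exact ⟨_, htype j hj i hi, trace_full hl hM hR hE hE0 hI hB (htype j hj i hi)⟩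

end

end Vale.Agent.P307.Triv.C
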