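import Vale.Agent.P307.Triv.CB

/-!
Part C: local coordinates.
-/

universe u

open FirstOrder Cardinal Set

namespace Vale.Agent.P307.Triv.C

variable {L : Language.{u, u}} {R I E : Type u} [L.Structure (R ⊕ (I × E))] {l : Cardinal.{u}}
  {ρ : R ⊕ (I × E) → R ⊕ (I × E) → Prop} {N J : Type u} [L.Structure N] {ρN : N → N → Prop}
  {c : N → Option J}

theorem local_coord (hl : ℵ₀ ≤ l) (hM : SymM L R I E ρ) (hR : #R ≤ l) (hE : #E ≤ l)
    (hI : l < #I) (hB : Big L ρ) (hD : Deco ρN c) {J₁ J' : Set J}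
    (hJJ : J₁ ⊆ J') {f : N → R ⊕ (I × E)} (hf : CEmb L ρN ρ (B c J') f) (hC : Core ρ c J' f)
    (hc : #(B c J₁) < #I) : ∃ h, Loc L R I E c J₁ h := by
  classical
  have hI0 : ℵ₀ ≤ #I := hl.trans hI.le
  have : Infinite I := Cardinal.infinite_iff.2 hI0
  obtain ⟨T, hT, htr⟩ := hC.type
  have hBB : B c J₁ ⊆ B c J' := B_mono hJJ
  have hfcmp : ∀ a ∈ B c J', ∀ b ∈ B c J', Cmp ρ (f a) (f b) ↔ Cmp ρN a b := fun a ha b hb => by
    unfold Cmp
    rw [hf.cl b hb a ha, hf.cl a ha b hb]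
  set IY : Set I := {i | ∃ x ∈ B c J₁, ∃ e, f x = Sum.inr (i, e)} with hIY
  have hIYc : #IY < #I := by
    refine lt_of_le_of_lt ?_ hc
    choose x hx e he using fun i : IY => i.2
    refine Cardinal.mk_le_of_injective (f := fun i => ⟨x i, hx i⟩) ?_
    intro i i' hii
    have h1 : x i = x i' := congrArg Subtype.val hii
    have h2 := he i
    rw [h1, he i'] at h2
    exact Subtype.ext (Prod.mk.injEq _ _ _ _ ▸ Sum.inr_injective h2).1.symm
  have hcompl : #(IYᶜ : Set I) = #I := Cardinal.mk_compl_of_infinite _ hIYc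
  set Y : Set (R ⊕ (I × E)) := f '' B c J₁ ∪ {y | ∃ i e, y = Sum.inr (i, e) ∧ e ∈ T ∧ i ∉ IY}
    with hY
  have hYinl : ∀ s, (Sum.inl s : R ⊕ (I × E)) ∈ Y := fun s => by
    obtain ⟨x, hx, hxs⟩ := hC.base_surj s
    exact Or.inl ⟨x, B_none _ hx, hxs⟩
  have hYc : Closed ρ Y := by
    rintro a ha x hx
    rcases ha with ⟨b, hb, rfl⟩ | ⟨i, e, rfl, he, hi⟩
    · obtain ⟨y, hy, hyx⟩ := hf.closed b (hBB hb) x hx
      subst hyx
      exact Or.inl ⟨y, B_closed hD J₁ b hb y ((hf.cl b (hBB hb) y hy).1 hx), rfl⟩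
    · rcases x with s | ⟨i', e'⟩
      · exact hYinl s
      · have h1 := hM.piece _ _ _ _ hx
        subst h1
        exact Or.inr ⟨i', e', rfl, hT.closed _ _ _ he hx, hi⟩
  have hwit : ∀ s, #I ≤ #{a | a ∈ Y ∧ ρ (Sum.inl s) a} := by
    intro s
    obtain ⟨e, he, hes⟩ := htr s
    rw [← hcompl]
    refine Cardinal.mk_le_of_injective
      (f := fun i : (IYᶜ : Set I) => ⟨Sum.inr (i.1, e), Or.inr ⟨i.1, e, rfl, he, i.2⟩, hes i.1⟩) ?_
    intro i j hij
    have := Sum.inr_injective (congrArg Subtype.val hij)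
    exact Subtype.ext (Prod.mk.injEq _ _ _ _ ▸ this).1
  have hYcard : #Y = #I := by
    refine le_antisymm ((Cardinal.mk_set_le _).trans (mk_carrier hl hR hE hI)) ?_
    obtain ⟨e, he⟩ := hT.ne
    rw [← hcompl]
    refine Cardinal.mk_le_of_injective
      (f := fun i : (IYᶜ : Set I) => ⟨Sum.inr (i.1, e), Or.inr ⟨i.1, e, rfl, he, i.2⟩⟩) ?_
    intro i j hij
    have := Sum.inr_injective (congrArg Subtype.val hij)
    exact Subtype.ext (Prod.mk.injEq _ _ _ _ ▸ this).1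
  obtain ⟨g, hg, hgs⟩ := hB Y hYc hYcard
  have hw : ∀ s, l < #{a | a ∈ Y ∧ ρ (Sum.inl s) a} := fun s => hI.trans_le (hwit s)
  have hfY : ∀ x ∈ B c J₁, f x ∈ Y := fun x hx => Or.inl ⟨x, hx, rfl⟩
  have hinj : ∀ x ∈ B c J₁, ∀ y ∈ B c J₁, g (f x) = g (f y) → x = y := fun x hx y hy h =>
    hf.inj (hBB hx) (hBB hy) (hg.inj (hfY x hx) (hfY y hy) h)
  -- the components
  have hcompo : ∀ j ∈ J₁, ∃ k, (∀ x, c x = some j → ∃ e, g (f x) = Sum.inr (k, e)) ∧
      ∀ e, ∃ x, c x = some j ∧ g (f x) = Sum.inr (k, e) := by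
    intro j hj
    have hin : ∀ x, c x = some j → x ∈ B c J₁ := fun x hx => B_some hx hj
    have hinr : ∀ x, c x = some j → ∃ p, f x = Sum.inr p := fun x hx =>
      hC.inr x (hBB (hin x hx)) (by rw [hx]; simp)
    obtain ⟨k, h1, h2⟩ := g_piece (Z := f '' {x | c x = some j}) hM hE hI hg hgs hYinl hw
      (by rintro _ ⟨x, hx, rfl⟩; exact hfY x (hin x hx))
      (by obtain ⟨x, hx⟩ := hD.surj j; exact ⟨_, x, hx, rfl⟩)
      (by rintro _ ⟨x, hx, rfl⟩; exact hinr x hx)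
      (by
        rintro _ ⟨x, hx, rfl⟩ p hp hcp
        obtain ⟨q, hq⟩ := hinr x hx
        rcases hp with ⟨y, hy, hyp⟩ | ⟨i, e, hp, he, hi⟩
        · refine ⟨y, ?_, hyp⟩
          rw [← hyp] at hcp
          have h3 := (hfcmp y (hBB hy) x (hBB (hin x hx))).1 hcp
          have hyn : c y ≠ none := fun hn => by
            obtain ⟨s, hs⟩ := hC.base y hn
            rw [hs] at hyp
            exact absurd hyp (by simp)
          change c y = some j
          rw [hD.comp y x hyn (by rw [show c x = some j from hx]; simp) h3]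
          exact hx
        · exfalso
          have h3 : p = (i, e) := Sum.inr_injective hp
          subst h3
          rw [hq] at hcp
          have h4 := cmp_piece hM hcp
          simp only at h4
          exact hi ⟨x, hin x hx, q.2, by rw [hq, h4]⟩)
      (by
        rintro _ ⟨x, hx, rfl⟩ _ ⟨y, hy, rfl⟩
        have h3 := hD.conn x y j hx hy
        clear hy
        induction h3 with
        | refl => exact Relation.ReflTransGen.refl
        | @tail b d _ h ih =>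
          exact ih.tail ⟨⟨_, h.1, rfl⟩, ⟨_, h.2.1, rfl⟩,
            (hfcmp b (hBB (hin b h.1)) d (hBB (hin d h.2.1))).2 h.2.2⟩)
    refine ⟨k, fun x hx => h1 _ ⟨x, hx, rfl⟩, fun e => ?_⟩
    obtain ⟨_, ⟨x, hx, rfl⟩, hxe⟩ := h2 e
    exact ⟨x, hx, hxe⟩
  obtain ⟨i0⟩ : Nonempty I := inferInstance
  have hmem : ∀ x, (c x = none ∨ ∃ j ∈ J₁, c x = some j) → x ∈ B c J₁ := by
    rintro x (h | ⟨j, hj, h⟩)
    · exact B_none _ h
    · exact B_some h hj
  refine ⟨fun x => g (f x), ⟨fun n r v hv => ?_, fun x hx => ?_, fun x y hx hy h => ?_, fun s => ?_,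
    ?_⟩⟩
  · have hv' : ∀ k, v k ∈ B c J₁ := fun k => hmem _ (hv k)
    exact (hg.rel n r (fun k => f (v k)) fun k => hfY _ (hv' k)).trans
      (hf.rel n r v fun k => hBB (hv' k))
  · obtain ⟨s, hs⟩ := hC.base x hx
    simp only [hs]
    exact g_inl hM hE hg hYinl hw s
  · exact hinj x (B_none _ hx) y (B_none _ hy) h
  · obtain ⟨y, hy, hys⟩ : (Sum.inl s : R ⊕ (I × E)) ∈ g '' Y := by rw [hgs]; trivial
    rcases y with s' | p
    · obtain ⟨x, hx, hxs⟩ := hC.base_surj s'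
      exact ⟨x, hx, by rw [hxs, hys]⟩
    · obtain ⟨q, hq⟩ := g_inr hM hE hI hg hgs hy
      rw [hq] at hys
      exact absurd hys (by simp)
  · set k : J → I := fun j => if hj : j ∈ J₁ then (hcompo j hj).choose else i0 with hk
    have hk1 : ∀ j (hj : j ∈ J₁), k j = (hcompo j hj).choose := fun j hj => by
      rw [hk]
      simp only [hj, dif_pos]
    have hk2 : ∀ j ∈ J₁, (∀ x, c x = some j → ∃ e, g (f x) = Sum.inr (k j, e)) ∧
        ∀ e, ∃ x, c x = some j ∧ g (f x) = Sum.inr (k j, e) := fun j hj => by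
      rw [hk1 j hj]
      exact (hcompo j hj).choose_spec
    refine ⟨k, fun j hj j' hj' hjj => ?_, fun j hj => ⟨(hk2 j hj).1, fun x y hx hy h =>
      hinj x (B_some hx hj) y (B_some hy hj) h, (hk2 j hj).2⟩⟩
    obtain ⟨x, hx⟩ := hD.surj j
    obtain ⟨e, he⟩ := (hk2 j hj).1 x hx
    obtain ⟨x', hx', hxe'⟩ := (hk2 j' hj').2 e
    have h1 : x = x' := hinj x (B_some hx hj) x' (B_some hx' hj') (by rw [he, hxe', hjj])
    rw [h1, hx'] at hx
    exact (Option.some_injective _ hx).symm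

end Vale.Agent.P307.Triv.C
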