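import Vale.Agent.P307.Defs

universe u

open FirstOrder Cardinal Set

namespace Vale.Agent.P307.Triv

variable {L : Language.{u, u}}

/-- The class `K` has disintegrated closures: in every member of `K` each element belongs to a least
strong substructure, and the union of any two strong substructures is a strong substructure. -/
def Disintegrated {L : Language.{u, u}} (K : AEC L) : Prop :=
  ∀ (N : Type u) [L.Structure N], K.mem N →
    (∀ a : N, ∃ S : L.Substructure N, K.le S ∧ a ∈ S ∧
      ∀ T : L.Substructure N, K.le T → a ∈ T → S ≤ T) ∧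
    ∀ S T : L.Substructure N, K.le S → K.le T →
      ∃ U : L.Substructure N, K.le U ∧ (U : Set N) = (S : Set N) ∪ T

/-- `x` belongs to all strong substructures of `N` which contain `a`. -/
def cl (K : AEC L) {N : Type u} [L.Structure N] (x a : N) : Prop :=
  ∀ S : L.Substructure N, K.le S → a ∈ S → x ∈ S

/-- The set `X` is closed downwards for the relation `ρ` (`ρ x a`: `x` is in the closure of `a`). -/
def Closed {N : Type u} (ρ : N → N → Prop) (X : Set N) : Prop := ∀ a ∈ X, ∀ x, ρ x a → x ∈ X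

/-- `f` maps the closed set `X` isomorphically onto a closed set. -/
structure CEmb (L : Language.{u, u}) {N M : Type u} [L.Structure N] [L.Structure M]
    (ρ : N → N → Prop) (ρ' : M → M → Prop) (X : Set N) (f : N → M) : Prop where
  inj : Set.InjOn f X
  rel : ∀ (n : ℕ) (r : L.Relations n) (v : Fin n → N), (∀ i, v i ∈ X) →
    (Language.Structure.RelMap r (fun i => f (v i)) ↔ Language.Structure.RelMap r v)
  cl : ∀ a ∈ X, ∀ x ∈ X, (ρ' (f x) (f a) ↔ ρ x a)
  closed : ∀ a ∈ X, ∀ y, ρ' y (f a) → ∃ x ∈ X, f x = y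

/-- Renaming of the indices. -/
def mv {R E I I' : Type u} (σ : I → I') : R ⊕ (I × E) → R ⊕ (I' × E) :=
  Sum.map id (Prod.map σ id)

/-- `σ` is injective on the indices which occur in the tuple `v`. -/
def InjT {R E I I' : Type u} {n : ℕ} (σ : I → I') (v : Fin n → R ⊕ (I × E)) : Prop :=
  ∀ (k k' : Fin n) (i i' : I) (e e' : E), v k = Sum.inr (i, e) → v k' = Sum.inr (i', e') →
    σ i = σ i' → i = i'

/-- The structure on `R ⊕ (I × E)` is symmetric: it consists of a base `R` and of pieces `{i} × E`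
which can be permuted arbitrarily. -/
structure SymM (L : Language.{u, u}) (R I E : Type u) [L.Structure (R ⊕ (I × E))]
    (ρ : R ⊕ (I × E) → R ⊕ (I × E) → Prop) : Prop where
  sym : ∀ (n : ℕ) (r : L.Relations n) (v : Fin n → R ⊕ (I × E)) (σ : I → I), InjT σ v →
    (Language.Structure.RelMap r (fun k => mv σ (v k)) ↔ Language.Structure.RelMap r v)
  refl : ∀ x, ρ x x
  trans : ∀ x y z, ρ x y → ρ y z → ρ x z
  base : ∀ x s, ρ x (Sum.inl s) → ∃ s', x = Sum.inl s'
  piece : ∀ i e j e', ρ (Sum.inr (i, e)) (Sum.inr (j, e')) → i = j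
  unif_base : ∀ s i j e, ρ (Sum.inl s) (Sum.inr (i, e)) → ρ (Sum.inl s) (Sum.inr (j, e))
  unif_piece : ∀ i j e e', ρ (Sum.inr (i, e)) (Sum.inr (i, e')) →
    ρ (Sum.inr (j, e)) (Sum.inr (j, e'))
  conn : ∀ i e e', Relation.ReflTransGen
    (fun a b => ρ (Sum.inr (i, a)) (Sum.inr (i, b)) ∨ ρ (Sum.inr (i, b)) (Sum.inr (i, a))) e e'
  full : ∀ s, ∃ e, ∀ i, ρ (Sum.inl s) (Sum.inr (i, e))

/-- Coordinates of `N` over the symmetric structure on `R ⊕ (I × E)`. -/
def Coord (L : Language.{u, u}) (R I E : Type u) [L.Structure (R ⊕ (I × E))] (N : Type u)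
    [L.Structure N] (J : Type u) (ζ : N ≃ R ⊕ (J × E)) : Prop :=
  ∀ (n : ℕ) (r : L.Relations n) (v : Fin n → N) (σ : J → I), InjT σ (fun k => ζ (v k)) →
    (Language.Structure.RelMap r (fun k => mv σ (ζ (v k))) ↔ Language.Structure.RelMap r v)

end Vale.Agent.P307.Triv
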