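import Vale.Agent.P307.Triv.Spec
import Vale.Agent.P307.H67.Aec

/-!
Categoricity transfer in classes with disintegrated closures: final assembly.
-/

universe u

open FirstOrder Cardinal Set

namespace Vale.Agent.P307.Triv

open Language.Structure Language.Substructure

/-! ### Reduction to relational languages -/

section rel

variable {L : Language.{u, u}} {K : AEC L}

theorem disintegrated_relAEC (h : Disintegrated K) : Disintegrated (H67.relAEC K) := by
  intro N _ hN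
  obtain ⟨N₀, _, hN₀, ⟨e⟩⟩ := (show H67.memR K N from hN)
  obtain ⟨h1, h2⟩ := h N₀ hN₀
  have hup : ∀ T : L.Substructure N₀, K.le T → ∃ S : (H67.relLang L).Substructure N,
      H67.leR K S ∧ ∀ x, x ∈ T ↔ e x ∈ S := by
    intro T hT
    let S : (H67.relLang L).Substructure N :=
      { carrier := {y | e.symm y ∈ T}
        fun_mem := fun f => PEmpty.elim f }
    have hmem : ∀ x, x ∈ T ↔ e x ∈ S := by
      intro x
      change x ∈ T ↔ e.symm (e x) ∈ T
      rw [e.symm_apply_apply]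
    exact ⟨S, ⟨N₀, inferInstance, e, T, hT, hmem⟩, hmem⟩
  constructor
  · intro a
    obtain ⟨T, hT, haT, hmin⟩ := h1 (e.symm a)
    obtain ⟨S, hS, hmem⟩ := hup T hT
    refine ⟨S, hS, ?_, ?_⟩
    · have := (hmem (e.symm a)).1 haT
      rwa [e.apply_symm_apply] at this
    · intro T' hT' haT'
      obtain ⟨T₁, hT₁, hmem₁⟩ := (show H67.leR K T' from hT').pres e
      have h3 := hmin T₁ hT₁ ((hmem₁ _).2 (by rwa [e.apply_symm_apply]))
      intro y hy
      obtain ⟨x, rfl⟩ := e.surjective y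
      exact (hmem₁ x).1 (h3 ((hmem x).2 hy))
  · intro S T hS hT
    obtain ⟨S₁, hS₁, hmS⟩ := (show H67.leR K S from hS).pres e
    obtain ⟨T₁, hT₁, hmT⟩ := (show H67.leR K T from hT).pres e
    obtain ⟨U₁, hU₁, hU⟩ := h2 S₁ T₁ hS₁ hT₁
    obtain ⟨U, hU', hmU⟩ := hup U₁ hU₁
    refine ⟨U, hU', ?_⟩
    ext y
    obtain ⟨x, rfl⟩ := e.surjective y
    have h3 : x ∈ (U₁ : Set N₀) ↔ x ∈ (S₁ : Set N₀) ∪ T₁ := by rw [hU]
    change e x ∈ U ↔ e x ∈ S ∨ e x ∈ T
    rw [← hmU, ← hmS, ← hmT]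
    exact h3

end rel

/-! ### Structures with the same coordinates -/

section coord

variable {L : Language.{u, u}} {R I E N N' J J' : Type u} [L.Structure (R ⊕ (I × E))]
  [L.Structure N] [L.Structure N']

theorem mv_mv (σ : J → I) (τ : N → J) (z : R ⊕ (N × E)) : mv σ (mv τ z) = mv (fun x => σ (τ x)) z := by
  rcases z with z | ⟨z, e⟩ <;> rfl

theorem exists_injT [Infinite I] {n : ℕ} (v : Fin n → R ⊕ (J × E)) :
    ∃ σ : J → I, InjT σ v := by
  classical
  let idx : R ⊕ (J × E) → Finset J := fun z => Sum.elim (fun _ => ∅) (fun p => {p.1}) z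
  let F : Finset J := Finset.univ.biUnion fun k => idx (v k)
  obtain ⟨g⟩ : Nonempty (F ↪ I) := by
    have h1 : #F ≤ #I := (lt_aleph0_of_finite _).le.trans (infinite_iff.1 inferInstance)
    exact (Cardinal.le_def _ _).1 h1
  have hI : Nonempty I := inferInstance
  refine ⟨fun j => if h : j ∈ F then g ⟨j, h⟩ else Classical.arbitrary I, ?_⟩
  intro k k' i i' e e' hk hk' h
  have h1 : i ∈ F := Finset.mem_biUnion.2 ⟨k, Finset.mem_univ _, by simp [idx, hk]⟩
  have h2 : i' ∈ F := Finset.mem_biUnion.2 ⟨k', Finset.mem_univ _, by simp [idx, hk']⟩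
  simp only [dif_pos h1, dif_pos h2] at h
  exact congrArg Subtype.val (g.injective h)

theorem equiv_of_coord [L.IsRelational] [Infinite I] (ζ : N ≃ R ⊕ (J × E))
    (ζ' : N' ≃ R ⊕ (J' × E)) (h : Coord L R I E N J ζ) (h' : Coord L R I E N' J' ζ')
    (τ : J ≃ J') : Nonempty (N ≃[L] N') := by
  let θ : R ⊕ (J × E) ≃ R ⊕ (J' × E) := Equiv.sumCongr (Equiv.refl R)
    (Equiv.prodCongr τ (Equiv.refl E))
  have hθ : ∀ z, θ z = mv τ z := by
    rintro (z | ⟨z, e⟩) <;> rfl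
  let f : N ≃ N' := (ζ.trans θ).trans ζ'.symm
  have hf : ∀ x, ζ' (f x) = mv τ (ζ x) := by
    intro x
    change ζ' (ζ'.symm (θ (ζ x))) = _
    rw [ζ'.apply_symm_apply, hθ]
  refine ⟨{ toEquiv := f, map_fun' := fun F => isEmptyElim F, map_rel' := ?_ }⟩
  intro n r v
  obtain ⟨σ, hσ⟩ := exists_injT (I := I) (fun k => ζ (v k))
  have h1 := h n r v σ hσ
  have h2 := h' n r (fun k => f (v k)) (fun j => σ (τ.symm j)) ?_
  · rw [← h1]
    change RelMap r (fun k => f (v k)) ↔ _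
    rw [← h2]
    have h3 : (fun k => mv (E := E) (fun j => σ (τ.symm j)) (ζ' (f (v k)))) =
        fun k => mv σ (ζ (v k)) := by
      funext k
      rw [hf, mv_mv]
      congr 1
      funext j
      rw [τ.symm_apply_apply]
    rw [h3]
  · intro k k' i i' e e' hk hk' hii
    have hk2 := (hf (v k)).symm.trans hk
    have hk2' := (hf (v k')).symm.trans hk'
    have key : ∀ (z : R ⊕ (J × E)) (i : J') (e : E), mv τ z = Sum.inr (i, e) →
        z = Sum.inr (τ.symm i, e) := by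
      rintro (z | ⟨z, e₀⟩) i e hz
      · cases hz
      · have h4 : (τ z, e₀) = (i, e) := Sum.inr.inj hz
        obtain ⟨h5, h6⟩ := Prod.mk.injEq _ _ _ _ ▸ h4
        subst h5 h6
        rw [τ.symm_apply_apply]
    exact τ.symm.injective (hσ k k' _ _ e e' (key _ _ _ hk2) (key _ _ _ hk2') hii)

theorem mk_of_coord {l : Cardinal.{u}} (hl : ℵ₀ ≤ l) (hR : #R ≤ l) (hE : #E ≤ l) [Nonempty E]
    (hJ : l ≤ #J) (ζ : N ≃ R ⊕ (J × E)) : #N = #J := by
  have hJ0 : ℵ₀ ≤ #J := hl.trans hJ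
  rw [mk_congr ζ, mk_sum, mk_prod, lift_id, lift_id, lift_id, lift_id,
    mul_eq_left hJ0 (hE.trans hJ) (mk_ne_zero E), add_eq_right hJ0 (hR.trans hJ)]

end coord

/-- Categoricity transfer in relational classes with disintegrated closures, from the parts. -/
theorem transfer_rel (hG : SpecG.{u}) (hC : SpecC.{u}) (hS : SpecS.{u}) (hA1 : SpecA1.{u})
    (hA2 : SpecA2.{u}) : ∀ l : Cardinal.{u}, ℵ₀ ≤ l → ∃ μ : Cardinal.{u}, l ≤ μ ∧
      ∀ (L : Language.{u, u}) [L.IsRelational] (K : AEC L), K.IsLS l → Disintegrated K →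
        ∀ κ, μ ≤ κ → K.CategoricalIn κ → ∀ κ', μ ≤ κ' → K.CategoricalIn κ' := by
  classical
  intro l hl
  have hlam : l ≤ Order.succ (2 ^ l) := (cantor l).le.trans (Order.le_succ _)
  obtain ⟨μ₁, hμ₁, hS⟩ := hS l hl
  obtain ⟨μ₂, hμ₂, hA2⟩ := hA2 l (Order.succ (2 ^ l)) hl hlam
  refine ⟨max μ₁ μ₂, hμ₁.le.trans (le_max_left _ _), ?_⟩
  intro L _ K hK hT κ hκ hcat κ' hκ'
  obtain ⟨hA11, hA12⟩ := hA1 L K l hK hT
  obtain ⟨R, I, E, _, hM, hR, hE, hE0, hI, hsym⟩ := hS L K hK hT κ ((le_max_left _ _).trans hκ)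
    hcat
  have hlamκ : Order.succ (2 ^ l) < κ := hμ₂.trans_le ((le_max_right _ _).trans hκ)
  have hlI : l ≤ #I := by
    rw [hI]
    exact hlam.trans hlamκ.le
  have hI0 : ℵ₀ ≤ #I := hl.trans hlI
  have hIinf : Infinite I := infinite_iff.2 hI0
  have hMκ : #(R ⊕ (I × E)) = κ := by
    rw [mk_of_coord hl hR hE hlI (Equiv.refl _), hI]
  have hM5 : ∀ Y : Set (R ⊕ (I × E)), Closed (fun x a => cl K x a) Y → #Y = #I →
      ∃ g : R ⊕ (I × E) → R ⊕ (I × E), CEmb L (fun x a => cl K x a) (fun x a => cl K x a) Y g ∧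
        g '' Y = Set.univ := by
    intro Y hY hYc
    have hYne : Y.Nonempty := by
      rw [Set.nonempty_iff_ne_empty]
      rintro rfl
      rw [mk_emptyCollection] at hYc
      exact absurd hYc.symm (aleph0_pos.trans_le hI0).ne'
    obtain ⟨S, hS1, hS2⟩ := (hA11 _ hM).2 Y hYne hY
    have hSc : #S = κ := by
      rw [← hI, ← hYc, ← hS2]
      rfl
    obtain ⟨e⟩ := hcat.2 S (R ⊕ (I × E)) (K.mem_of_le S hS1).1 hM hSc hMκ
    let e' : S ≃[L] (⊤ : L.Substructure (R ⊕ (I × E))) := topEquiv.symm.comp e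
    have hne : Nonempty (R ⊕ (I × E)) := by
      rw [← mk_ne_zero_iff, hMκ, ← hI]
      exact (aleph0_pos.trans_le hI0).ne'
    let g : R ⊕ (I × E) → R ⊕ (I × E) := fun x => if h : x ∈ S then e ⟨x, h⟩ else
      Classical.arbitrary _
    have hg : ∀ a : S, g a = e' a := by
      intro a
      simp only [g, dif_pos a.2]
      rfl
    refine ⟨g, ?_, ?_⟩
    · rw [← hS2]
      exact hA12 _ _ hM hM S ⊤ e' hS1 (K.le_refl hM) g hg
    · rw [← hS2]
      refine Set.eq_univ_of_forall fun y => ⟨e.symm y, (e.symm y).2, ?_⟩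
      simp only [g, dif_pos (e.symm y).2]
      exact e.apply_symm_apply y
  have hN : ∀ (N : Type u) [L.Structure N], K.mem N → #N = κ' → ∃ (J : Type u)
      (ζ : N ≃ R ⊕ (J × E)), #J = κ' ∧ Coord L R I E N J ζ := by
    intro N _ hN hNc
    have hlamκ' : Order.succ (2 ^ l) < #N := by
      rw [hNc]
      exact hμ₂.trans_le ((le_max_right _ _).trans hκ')
    obtain ⟨J, c, hJ, hloc⟩ := hC L R I E N l (fun x a => cl K x a) (fun x a => cl K x a) hl hsym
      hR hE hE0 (by rw [hI]; exact hlamκ) hM5 (fun x S _ hx => hx)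
      (fun x y z hxy hyz S hS hz => hxy S hS (hyz S hS hz)) (hA11 N hN).1 hlamκ'
      (fun P hP hPc => (hA2 L K hK hT ⟨_, _, hM, by
          rw [hMκ]
          exact (le_max_right _ _).trans hκ⟩).2 N _ hN hM (by
          rw [hNc]
          exact (le_max_right _ _).trans hκ') (by rw [hMκ]; exact hlamκ.le) (by
          rw [hMκ]
          exact hcat) P hP hPc)
    obtain ⟨ζ, hζ⟩ := hG L R I E N J l _ hl hsym hE hI0 hJ c hloc
    refine ⟨J, ζ, ?_, hζ⟩
    rw [← hNc, mk_of_coord hl hR hE (hlam.trans hJ) ζ]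
  refine ⟨?_, ?_⟩
  · exact (hA2 L K hK hT ⟨_, _, hM, by
      rw [hMκ]
      exact (le_max_right _ _).trans hκ⟩).1 κ' (hμ₂.le.trans ((le_max_right _ _).trans hκ'))
  · intro N N' _ _ hNm hN'm hNc hN'c
    obtain ⟨J, ζ, hJ, h⟩ := hN N hNm hNc
    obtain ⟨J', ζ', hJ', h'⟩ := hN N' hN'm hN'c
    obtain ⟨τ⟩ := Cardinal.eq.1 (hJ.trans hJ'.symm)
    exact equiv_of_coord ζ ζ' h h' τ

/-- Categoricity transfer in classes with disintegrated closures, from the parts. -/
theorem transfer_of (hG : SpecG.{u}) (hC : SpecC.{u}) (hS : SpecS.{u}) (hA1 : SpecA1.{u})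
    (hA2 : SpecA2.{u}) : ∀ l : Cardinal.{u}, ℵ₀ ≤ l → ∃ μ : Cardinal.{u}, l ≤ μ ∧
      ∀ (L : Language.{u, u}) (K : AEC L), K.LS ≤ l → Disintegrated K →
        ∀ κ, μ ≤ κ → K.CategoricalIn κ → ∀ κ', μ ≤ κ' → K.CategoricalIn κ' := by
  intro l hl
  obtain ⟨μ, hμ, h⟩ := transfer_rel hG hC hS hA1 hA2 l hl
  refine ⟨μ, hμ, fun L K hK hT κ hκ hcat κ' hκ' => ?_⟩
  exact H67.categorical_iff.1 (h (H67.relLang L) (H67.relAEC K)
    (H67.relAEC_isLS (AEC.isLS_of_LS_le hK)) (disintegrated_relAEC hT) κ hκ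
    (H67.categorical_iff.2 hcat) κ' hκ')

end Vale.Agent.P307.Triv
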