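import Vale.Agent.P307.Triv.Spec
import Mathlib.SetTheory.Cardinal.Pigeonhole

/-!
Globalization of local coordinates.
-/

universe u

open FirstOrder Cardinal Set

namespace Vale.Agent.P307.Triv

open Language.Structure

variable {L : Language.{u, u}} {R I E N J : Type u} [L.Structure (R ⊕ (I × E))] [L.Structure N]

/-- The element with shape `p` and index `i`. -/
def bd : R ⊕ E → I → R ⊕ (I × E)
  | Sum.inl s, _ => Sum.inl s
  | Sum.inr e, i => Sum.inr (i, e)

theorem SymM.two {ρ : R ⊕ (I × E) → R ⊕ (I × E) → Prop} (h : SymM L R I E ρ) {n : ℕ}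
    (r : L.Relations n) (p : Fin n → R ⊕ E) (a b : Fin n → I)
    (hab : ∀ k k' e e', p k = Sum.inr e → p k' = Sum.inr e' → (a k = a k' ↔ b k = b k')) :
    RelMap r (fun k => bd (I := I) (p k) (a k)) ↔ RelMap r (fun k => bd (I := I) (p k) (b k)) := by
  classical
  let τ : I → I := fun i => if h : ∃ k, (∃ e, p k = Sum.inr e) ∧ a k = i then b h.choose else i
  have hτ : ∀ k e, p k = Sum.inr e → τ (a k) = b k := by
    intro k e hk
    have h1 : ∃ k', (∃ e, p k' = Sum.inr e) ∧ a k' = a k := ⟨k, ⟨e, hk⟩, rfl⟩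
    have h2 : τ (a k) = b h1.choose := dif_pos h1
    obtain ⟨⟨e', h3⟩, h4⟩ := h1.choose_spec
    rw [h2]
    exact (hab _ _ e' e h3 hk).1 h4
  have hmv : (fun k => mv τ (bd (I := I) (p k) (a k))) = fun k => bd (I := I) (p k) (b k) := by
    funext k
    rcases hk : p k with s | e
    · rfl
    · have h1 : mv τ (bd (I := I) (Sum.inr e : R ⊕ E) (a k)) = Sum.inr (τ (a k), e) := rfl
      rw [h1, hτ k e hk]
      rfl
  have hinj : InjT τ (fun k => bd (I := I) (p k) (a k)) := by
    intro k k' i i' e e' hk hk' hii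
    have key : ∀ k i e, bd (I := I) (p k) (a k) = Sum.inr (i, e) → p k = Sum.inr e ∧ a k = i := by
      intro k i e hk
      rcases hpk : p k with s | e₁
      · rw [hpk] at hk
        cases hk
      · rw [hpk] at hk
        have h1 : (Sum.inr (a k, e₁) : R ⊕ (I × E)) = Sum.inr (i, e) := hk
        have h2 := Sum.inr_injective h1
        have h3 : e₁ = e := congrArg Prod.snd h2
        exact ⟨by rw [h3], congrArg Prod.fst h2⟩
    obtain ⟨h1, h2⟩ := key k i e hk
    obtain ⟨h3, h4⟩ := key k' i' e' hk'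
    rw [← h2, ← h4] at hii ⊢
    rw [hτ k e h1, hτ k' e' h3] at hii
    exact (hab k k' e e' h1 h3).2 hii
  rw [← hmv]
  exact (h.sym n r _ τ hinj).symm

/-- Local coordinates given by shapes. -/
structure PC (L : Language.{u, u}) (R I E : Type u) [L.Structure (R ⊕ (I × E))] {N J : Type u}
    [L.Structure N] (c : N → Option J) (J₁ : Set J) (sh : N → R ⊕ E) : Prop where
  base : ∀ x, c x = none → ∃ s, sh x = Sum.inl s
  base_inj : ∀ x y, c x = none → c y = none → sh x = sh y → x = y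
  base_surj : ∀ s, ∃ x, c x = none ∧ sh x = Sum.inl s
  pc : ∀ j ∈ J₁, ∀ x, c x = some j → ∃ e, sh x = Sum.inr e
  pc_inj : ∀ j ∈ J₁, ∀ x y, c x = some j → c y = some j → sh x = sh y → x = y
  pc_surj : ∀ j ∈ J₁, ∀ e, ∃ x, c x = some j ∧ sh x = Sum.inr e
  rel : ∀ (n : ℕ) (r : L.Relations n) (v : Fin n → N) (a : Fin n → I),
    (∀ k, c (v k) = none ∨ ∃ j ∈ J₁, c (v k) = some j) →
    (∀ k k' j j', c (v k) = some j → c (v k') = some j' → (a k = a k' ↔ j = j')) →
    (RelMap r (fun k => bd (I := I) (sh (v k)) (a k)) ↔ RelMap r v)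

theorem Loc.pc {ρ : R ⊕ (I × E) → R ⊕ (I × E) → Prop} (hS : SymM L R I E ρ) {c : N → Option J}
    {J₁ : Set J} {h : N → R ⊕ (I × E)} (hh : Loc L R I E c J₁ h) :
    PC L R I E c J₁ (fun x => Sum.map id Prod.snd (h x)) := by
  obtain ⟨k, hk1, hk2⟩ := hh.piece
  refine ⟨?_, ?_, ?_, ?_, ?_, ?_, ?_⟩
  · intro x hx
    obtain ⟨s, hs⟩ := hh.base x hx
    exact ⟨s, by rw [hs]; rfl⟩
  · intro x y hx hy hxy
    obtain ⟨s, hs⟩ := hh.base x hx
    obtain ⟨s', hs'⟩ := hh.base y hy
    refine hh.base_inj x y hx hy ?_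
    simp only [hs, hs'] at hxy ⊢
    have h1 : s = s' := Sum.inl_injective hxy
    rw [h1]
  · intro s
    obtain ⟨x, hx, hxs⟩ := hh.base_surj s
    exact ⟨x, hx, by rw [hxs]; rfl⟩
  · intro j hj x hx
    obtain ⟨e, he⟩ := (hk2 j hj).1 x hx
    exact ⟨e, by rw [he]; rfl⟩
  · intro j hj x y hx hy hxy
    obtain ⟨e, he⟩ := (hk2 j hj).1 x hx
    obtain ⟨e', he'⟩ := (hk2 j hj).1 y hy
    refine (hk2 j hj).2.1 x y hx hy ?_
    simp only [he, he'] at hxy ⊢
    have h1 : e = e' := Sum.inr_injective hxy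
    rw [h1]
  · intro j hj e
    obtain ⟨x, hx, hxe⟩ := (hk2 j hj).2.2 e
    exact ⟨x, hx, by rw [hxe]; rfl⟩
  · intro n r v a hv ha
    classical
    rw [← hh.rel n r v hv]
    by_cases hI : ∃ m, ∃ j ∈ J₁, c (v m) = some j
    · obtain ⟨m₀, j₀, hj₀, hm₀⟩ := hI
      let b : Fin n → I := fun m => if h : ∃ j, c (v m) = some j then k h.choose else k j₀
      have hb : ∀ m j, c (v m) = some j → b m = k j := by
        intro m j hm
        have h1 : ∃ j, c (v m) = some j := ⟨j, hm⟩
        have h2 : b m = k h1.choose := dif_pos h1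
        have h3 : h1.choose = j := Option.some_injective _ (h1.choose_spec.symm.trans hm)
        rw [h2, h3]
      have hJ : ∀ m j, c (v m) = some j → j ∈ J₁ := by
        intro m j hm
        rcases hv m with h1 | ⟨j', h1, h2⟩
        · rw [h1] at hm
          cases hm
        · have : j' = j := Option.some_injective _ (h2.symm.trans hm)
          rw [← this]
          exact h1
      have h1 : (fun m => h (v m)) =
          fun m => bd (I := I) (Sum.map id Prod.snd (h (v m))) (b m) := by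
        funext m
        rcases hv m with h1 | ⟨j, h1, h2⟩
        · obtain ⟨s, hs⟩ := hh.base _ h1
          rw [hs]
          rfl
        · obtain ⟨e, he⟩ := (hk2 j h1).1 _ h2
          rw [he, hb m j h2]
          rfl
      rw [h1]
      refine hS.two r _ a b ?_
      intro m m' e e' hm hm'
      have key : ∀ m e, Sum.map id Prod.snd (h (v m)) = (Sum.inr e : R ⊕ E) →
          ∃ j ∈ J₁, c (v m) = some j := by
        intro m e hm
        rcases hv m with h1 | h1
        · obtain ⟨s, hs⟩ := hh.base _ h1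
          rw [hs] at hm
          cases hm
        · exact h1
      obtain ⟨j, hj, hj'⟩ := key m e hm
      obtain ⟨j₂, hj₂, hj₂'⟩ := key m' e' hm'
      rw [ha m m' j j₂ hj' hj₂', hb m j hj', hb m' j₂ hj₂']
      exact ⟨fun h => by rw [h], fun h => hk1 hj hj₂ h⟩
    · have hn : ∀ m, c (v m) = none := by
        intro m
        rcases hv m with h1 | ⟨j, h1, h2⟩
        · exact h1
        · exact absurd ⟨m, j, h1, h2⟩ hI
      have h1 : (fun m => bd (I := I) (Sum.map id Prod.snd (h (v m))) (a m)) =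
          fun m => h (v m) := by
        funext m
        obtain ⟨s, hs⟩ := hh.base _ (hn m)
        rw [hs]
        rfl
      rw [h1]

theorem PC.mono {c : N → Option J} {J₁ J₂ : Set J} (hJ : J₁ ⊆ J₂) {sh : N → R ⊕ E}
    (h : PC L R I E c J₂ sh) : PC L R I E c J₁ sh where
  base := h.base
  base_inj := h.base_inj
  base_surj := h.base_surj
  pc j hj := h.pc j (hJ hj)
  pc_inj j hj := h.pc_inj j (hJ hj)
  pc_surj j hj := h.pc_surj j (hJ hj)
  rel n r v a hv ha := h.rel n r v a (fun k => (hv k).imp id fun ⟨j, hj, hj'⟩ => ⟨j, hJ hj, hj'⟩) ha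

theorem exists_spread {Z : Set J} (hZ : Z.Infinite) (S F : Finset J) :
    ∃ z : J → J, (∀ j ∈ S, z j ∈ Z ∧ z j ∉ F) ∧ ∀ j ∈ S, ∀ j' ∈ S, z j = z j' → j = j' := by
  classical
  have h1 : (Z \ (F : Set J)).Infinite := hZ.diff F.finite_toSet
  let g := h1.natEmbedding
  refine ⟨fun j => if h : j ∈ S then (g (S.equivFin ⟨j, h⟩)).1 else j, ?_, ?_⟩
  · intro j hj
    simp only [dif_pos hj]
    have h2 := (g (S.equivFin ⟨j, hj⟩)).2
    exact ⟨h2.1, fun h => h2.2 (by exact_mod_cast h)⟩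
  · intro j hj j' hj' h
    simp only [dif_pos hj, dif_pos hj'] at h
    have h2 := g.injective (Subtype.ext h)
    have h3 := S.equivFin.injective (Fin.ext h2)
    exact congrArg Subtype.val h3

open Classical in
/-- The indices in `T` which occur in `v`. -/
noncomputable def occ (c : N → Option J) {n : ℕ} (v : Fin n → N) : Finset J :=
  Finset.univ.biUnion fun k => (c (v k)).toFinset

theorem mem_occ {c : N → Option J} {n : ℕ} {v : Fin n → N} {j : J} :
    j ∈ occ c v ↔ ∃ k, c (v k) = some j := by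
  classical
  unfold occ
  simp [Option.mem_toFinset]

/-- Replacing pieces outside of `J₀` by pieces in `J₀`. -/
theorem PC.exists_replace {c : N → Option J} {A : Set J} {sh : N → R ⊕ E}
    (h : PC L R I E c A sh) {Z T : Set J} (hZ : Z.Infinite) (hZA : Z ⊆ A) {n : ℕ}
    (v : Fin n → N) (p : Fin n → R ⊕ E) (hp : ∀ k j, c (v k) = some j → j ∈ T → ∃ e, p k = Sum.inr e)
    (hZT : ∀ j ∈ Z, j ∉ T) (a : Fin n → I)
    (ha : ∀ k k' j j', c (v k) = some j → c (v k') = some j' → (a k = a k' ↔ j = j')) :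
    ∃ v' : Fin n → N,
      (∀ k, (∀ j, c (v k) = some j → j ∉ T) → v' k = v k) ∧
      (∀ k j, c (v k) = some j → j ∈ T → (∃ j' ∈ Z, c (v' k) = some j') ∧ sh (v' k) = p k) ∧
      ∀ k k' j j', c (v' k) = some j → c (v' k') = some j' → (a k = a k' ↔ j = j') := by
  classical
  obtain ⟨z, hz1, hz2⟩ := exists_spread hZ (occ c v) (occ c v)
  have hex : ∀ k, ∃ x, ((∀ j, c (v k) = some j → j ∉ T) → x = v k) ∧
      ∀ j, c (v k) = some j → j ∈ T → c x = some (z j) ∧ sh x = p k := by
    intro k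
    by_cases hk : ∃ j, c (v k) = some j ∧ j ∈ T
    · obtain ⟨j, hj, hjT⟩ := hk
      obtain ⟨e, he⟩ := hp k j hj hjT
      obtain ⟨x, hx1, hx2⟩ := h.pc_surj (z j) (hZA (hz1 j (mem_occ.2 ⟨k, hj⟩)).1) e
      refine ⟨x, fun h1 => absurd hjT (h1 j hj), fun j' hj' _ => ?_⟩
      have : j' = j := Option.some_injective _ (hj'.symm.trans hj)
      rw [this]
      exact ⟨hx1, by rw [hx2, he]⟩
    · push Not at hk
      exact ⟨v k, fun _ => rfl, fun j hj hjT => absurd hjT (hk j hj)⟩
  choose v' hv1 hv2 using hex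
  refine ⟨v', hv1, fun k j hj hjT => ⟨⟨z j, (hz1 j (mem_occ.2 ⟨k, hj⟩)).1, (hv2 k j hj hjT).1⟩,
    (hv2 k j hj hjT).2⟩, ?_⟩
  -- the new indices
  have hnew : ∀ k j, c (v' k) = some j → ∃ i, c (v k) = some i ∧
      ((i ∈ T ∧ j = z i) ∨ (i ∉ T ∧ j = i)) := by
    intro k j hj
    by_cases hk : ∃ i, c (v k) = some i ∧ i ∈ T
    · obtain ⟨i, hi, hiT⟩ := hk
      refine ⟨i, hi, Or.inl ⟨hiT, ?_⟩⟩
      exact Option.some_injective _ (hj.symm.trans (hv2 k i hi hiT).1)
    · push Not at hk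
      have h1 := hv1 k hk
      rw [h1] at hj
      exact ⟨j, hj, Or.inr ⟨hk j hj, rfl⟩⟩
  intro k k' j j' hj hj'
  obtain ⟨i, hi, hij⟩ := hnew k j hj
  obtain ⟨i', hi', hij'⟩ := hnew k' j' hj'
  have ho : i ∈ occ c v := mem_occ.2 ⟨k, hi⟩
  have ho' : i' ∈ occ c v := mem_occ.2 ⟨k', hi'⟩
  rw [ha k k' i i' hi hi']
  rcases hij with ⟨h1, h2⟩ | ⟨h1, h2⟩ <;> rcases hij' with ⟨h3, h4⟩ | ⟨h3, h4⟩
  · rw [h2, h4]
    exact ⟨fun h => by rw [h], fun h => hz2 i ho i' ho' h⟩
  · constructor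
    · intro h5
      rw [h5] at h1
      exact absurd h1 h3
    · intro h5
      rw [h2, h4] at h5
      exact absurd (h5 ▸ ho' : z i ∈ occ c v) (hz1 i ho).2
  · constructor
    · intro h5
      rw [← h5] at h3
      exact absurd h3 h1
    · intro h5
      rw [h2, h4] at h5
      exact absurd (h5 ▸ ho : z i' ∈ occ c v) (hz1 i' ho').2
  · rw [h2, h4]

/-- Extension of coordinates by finitely many pieces. -/
theorem PC.extend {c : N → Option J} {J₀ : Set J} {sh₀ : N → R ⊕ E}
    (h₀ : PC L R I E c J₀ sh₀) (hlt : #(E → E) < #J₀) (hinf : ℵ₀ ≤ #J₀) (J' : Set J)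
    (hdis : ∀ j ∈ J', j ∉ J₀) (hex : ∃ sh' : N → R ⊕ E, PC L R I E c (J₀ ∪ J') sh') :
    ∃ sh : N → R ⊕ E, PC L R I E c (J₀ ∪ J') sh ∧
      ∀ x, (c x = none ∨ ∃ j ∈ J₀, c x = some j) → sh x = sh₀ x := by
  classical
  obtain ⟨sh', h'⟩ := hex
  -- the transition maps
  have hα : ∀ j : J₀, ∃ α : E → E, ∀ x, c x = some j.1 → sh₀ x = Sum.map id α (sh' x) := by
    intro j
    have h1 : ∀ e, ∃ e', ∀ x, c x = some j.1 → sh' x = Sum.inr e → sh₀ x = Sum.inr e' := by
      intro e
      obtain ⟨x, hx, hxe⟩ := h'.pc_surj j.1 (Or.inl j.2) e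
      obtain ⟨e', he'⟩ := h₀.pc j.1 j.2 x hx
      refine ⟨e', fun y hy hye => ?_⟩
      rw [h'.pc_inj j.1 (Or.inl j.2) y x hy hx (by rw [hye, hxe])]
      exact he'
    choose α hα using h1
    refine ⟨α, fun x hx => ?_⟩
    obtain ⟨e, he⟩ := h'.pc j.1 (Or.inl j.2) x hx
    rw [he, hα e x hx he]
    rfl
  choose α hα using hα
  obtain ⟨β, hβ⟩ : ∃ β : E → E, Infinite (α ⁻¹' {β}) := by
    have : Infinite J₀ := infinite_iff.2 hinf
    exact Cardinal.exists_infinite_fiber α hlt
  let Z : Set J := Subtype.val '' (α ⁻¹' {β})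
  have hZinf : Z.Infinite := (Set.infinite_coe_iff.1 hβ).image Subtype.val_injective.injOn
  have hZJ : Z ⊆ J₀ := by
    rintro _ ⟨j, -, rfl⟩
    exact j.2
  have hZβ : ∀ j ∈ Z, ∀ x, c x = some j → sh₀ x = Sum.map id β (sh' x) := by
    rintro _ ⟨j, hj, rfl⟩ x hx
    have h1 : α j = β := hj
    rw [hα j x hx, h1]
  -- the bijectivity of `β`
  obtain ⟨z₀, hz₀⟩ := hZinf.nonempty
  have hβinj : Function.Injective β := by
    intro e e' hee
    obtain ⟨x, hx, hxe⟩ := h'.pc_surj z₀ (Or.inl (hZJ hz₀)) e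
    obtain ⟨y, hy, hye⟩ := h'.pc_surj z₀ (Or.inl (hZJ hz₀)) e'
    have h1 : sh₀ x = sh₀ y := by
      rw [hZβ z₀ hz₀ x hx, hZβ z₀ hz₀ y hy, hxe, hye]
      exact congrArg Sum.inr hee
    have h2 := h₀.pc_inj z₀ (hZJ hz₀) x y hx hy h1
    rw [h2, hye] at hxe
    exact (Sum.inr_injective hxe).symm
  have hβsurj : Function.Surjective β := by
    intro e
    obtain ⟨x, hx, hxe⟩ := h₀.pc_surj z₀ (hZJ hz₀) e
    obtain ⟨e', he'⟩ := h'.pc z₀ (Or.inl (hZJ hz₀)) x hx
    refine ⟨e', ?_⟩
    have h1 := hZβ z₀ hz₀ x hx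
    rw [he', hxe] at h1
    exact (Sum.inr_injective h1).symm
  let sh : N → R ⊕ E := fun x =>
    if ∃ j ∈ J', c x = some j then Sum.map id β (sh' x) else sh₀ x
  have hsh' : ∀ x j, j ∈ J' → c x = some j → sh x = Sum.map id β (sh' x) :=
    fun x j hj hx => if_pos ⟨j, hj, hx⟩
  have hsh₀ : ∀ x, (c x = none ∨ ∃ j ∈ J₀, c x = some j) → sh x = sh₀ x := by
    intro x hx
    refine if_neg ?_
    rintro ⟨j, hj, hj'⟩
    rcases hx with h1 | ⟨j₂, h1, h2⟩
    · rw [h1] at hj'
      cases hj'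
    · have : j₂ = j := Option.some_injective _ (h2.symm.trans hj')
      rw [this] at h1
      exact hdis j hj h1
  refine ⟨sh, ?_, hsh₀⟩
  refine ⟨?_, ?_, ?_, ?_, ?_, ?_, ?_⟩
  · intro x hx
    rw [hsh₀ x (Or.inl hx)]
    exact h₀.base x hx
  · intro x y hx hy hxy
    rw [hsh₀ x (Or.inl hx), hsh₀ y (Or.inl hy)] at hxy
    exact h₀.base_inj x y hx hy hxy
  · intro s
    obtain ⟨x, hx, hxs⟩ := h₀.base_surj s
    exact ⟨x, hx, by rw [hsh₀ x (Or.inl hx), hxs]⟩
  · rintro j (hj | hj) x hx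
    · rw [hsh₀ x (Or.inr ⟨j, hj, hx⟩)]
      exact h₀.pc j hj x hx
    · obtain ⟨e, he⟩ := h'.pc j (Or.inr hj) x hx
      exact ⟨β e, by rw [hsh' x j hj hx, he]; rfl⟩
  · rintro j (hj | hj) x y hx hy hxy
    · rw [hsh₀ x (Or.inr ⟨j, hj, hx⟩), hsh₀ y (Or.inr ⟨j, hj, hy⟩)] at hxy
      exact h₀.pc_inj j hj x y hx hy hxy
    · obtain ⟨e, he⟩ := h'.pc j (Or.inr hj) x hx
      obtain ⟨e', he'⟩ := h'.pc j (Or.inr hj) y hy
      refine h'.pc_inj j (Or.inr hj) x y hx hy ?_
      rw [hsh' x j hj hx, hsh' y j hj hy, he, he'] at hxy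
      rw [he, he', hβinj (Sum.inr_injective hxy)]
  · rintro j (hj | hj) e
    · obtain ⟨x, hx, hxe⟩ := h₀.pc_surj j hj e
      exact ⟨x, hx, by rw [hsh₀ x (Or.inr ⟨j, hj, hx⟩), hxe]⟩
    · obtain ⟨e', he'⟩ := hβsurj e
      obtain ⟨x, hx, hxe⟩ := h'.pc_surj j (Or.inr hj) e'
      exact ⟨x, hx, by rw [hsh' x j hj hx, hxe, ← he']; rfl⟩
  · intro n r v a hv ha
    obtain ⟨v', h1, h2, h3⟩ := h'.exists_replace hZinf (hZJ.trans subset_union_left) v
      (fun k => sh' (v k)) (fun k j hj hjT => h'.pc j (Or.inr hjT) _ hj)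
      (T := J') (fun j hj hjT => hdis j hjT (hZJ hj)) a ha
    have hcase : ∀ k, (v' k = v k ∧ (c (v k) = none ∨ ∃ j ∈ J₀, c (v k) = some j)) ∨
        (∃ j ∈ J', c (v k) = some j) := by
      intro k
      rcases hv k with h4 | ⟨j, hj | hj, h4⟩
      · exact Or.inl ⟨h1 k (fun j hj => by rw [h4] at hj; cases hj), Or.inl h4⟩
      · refine Or.inl ⟨h1 k (fun j' hj' => ?_), Or.inr ⟨j, hj, h4⟩⟩
        have : j' = j := Option.some_injective _ (hj'.symm.trans h4)
        rw [this]
        exact fun hjT => hdis j hjT hj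
      · exact Or.inr ⟨j, hj, h4⟩
    have hv₀ : ∀ k, c (v' k) = none ∨ ∃ j ∈ J₀, c (v' k) = some j := by
      intro k
      rcases hcase k with ⟨h4, h5⟩ | ⟨j, hj, h4⟩
      · rw [h4]
        exact h5
      · obtain ⟨⟨j', hj', hj''⟩, -⟩ := h2 k j h4 hj
        exact Or.inr ⟨j', hZJ hj', hj''⟩
    have hs' : ∀ k, sh' (v' k) = sh' (v k) := by
      intro k
      rcases hcase k with ⟨h4, -⟩ | ⟨j, hj, h4⟩
      · rw [h4]
      · exact (h2 k j h4 hj).2
    have hs₀ : ∀ k, sh₀ (v' k) = sh (v k) := by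
      intro k
      rcases hcase k with ⟨h4, h5⟩ | ⟨j, hj, h4⟩
      · rw [h4, hsh₀ _ h5]
      · obtain ⟨⟨j', hj', hj''⟩, -⟩ := h2 k j h4 hj
        rw [hsh' _ j hj h4, hZβ j' hj' _ hj'', hs' k]
    have e1 := h'.rel n r v a hv ha
    have e2 := h'.rel n r v' a (fun k => (hv₀ k).imp id fun ⟨j, hj, hj'⟩ => ⟨j, Or.inl hj, hj'⟩) h3
    have e3 := h₀.rel n r v' a hv₀ h3
    simp only [hs'] at e2
    simp only [hs₀] at e3
    exact e3.trans (e2.symm.trans e1)

/-- Global coordinates. -/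
theorem PC.global {c : N → Option J} {J₀ : Set J} {sh₀ : N → R ⊕ E}
    (h₀ : PC L R I E c J₀ sh₀) (hlt : #(E → E) < #J₀) (hinf : ℵ₀ ≤ #J₀)
    (hex : ∀ J' : Set J, J'.Finite → ∃ sh' : N → R ⊕ E, PC L R I E c (J₀ ∪ J') sh') :
    ∃ sh : N → R ⊕ E, PC L R I E c Set.univ sh := by
  classical
  have hJinf : (J₀ : Set J).Infinite := Set.infinite_coe_iff.1 (infinite_iff.2 hinf)
  have h1 : ∀ j, ∃ sh : N → R ⊕ E, j ∉ J₀ → PC L R I E c (J₀ ∪ {j}) sh ∧
      ∀ x, (c x = none ∨ ∃ j ∈ J₀, c x = some j) → sh x = sh₀ x := by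
    intro j
    by_cases hj : j ∈ J₀
    · exact ⟨sh₀, fun h => absurd hj h⟩
    · obtain ⟨sh, hsh⟩ := h₀.extend hlt hinf {j} (fun i hi => by
        rw [Set.mem_singleton_iff] at hi
        rw [hi]
        exact hj) (hex {j} (Set.finite_singleton j))
      exact ⟨sh, fun _ => hsh⟩
  choose shj hshj using h1
  let sh : N → R ⊕ E := fun x =>
    match c x with
    | none => sh₀ x
    | some j => if j ∈ J₀ then sh₀ x else shj j x
  have hsh₀ : ∀ x, (c x = none ∨ ∃ j ∈ J₀, c x = some j) → sh x = sh₀ x := by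
    intro x hx
    rcases hx with h1 | ⟨j, hj, h1⟩
    · simp only [sh, h1]
    · simp only [sh, h1, if_pos hj]
  have hshn : ∀ x j, j ∉ J₀ → c x = some j → sh x = shj j x := by
    intro x j hj hx
    simp only [sh, hx, if_neg hj]
  refine ⟨sh, ?_, ?_, ?_, ?_, ?_, ?_, ?_⟩
  · intro x hx
    rw [hsh₀ x (Or.inl hx)]
    exact h₀.base x hx
  · intro x y hx hy hxy
    rw [hsh₀ x (Or.inl hx), hsh₀ y (Or.inl hy)] at hxy
    exact h₀.base_inj x y hx hy hxy
  · intro s
    obtain ⟨x, hx, hxs⟩ := h₀.base_surj s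
    exact ⟨x, hx, by rw [hsh₀ x (Or.inl hx), hxs]⟩
  · intro j _ x hx
    by_cases hj : j ∈ J₀
    · rw [hsh₀ x (Or.inr ⟨j, hj, hx⟩)]
      exact h₀.pc j hj x hx
    · rw [hshn x j hj hx]
      exact (hshj j hj).1.pc j (Or.inr rfl) x hx
  · intro j _ x y hx hy hxy
    by_cases hj : j ∈ J₀
    · rw [hsh₀ x (Or.inr ⟨j, hj, hx⟩), hsh₀ y (Or.inr ⟨j, hj, hy⟩)] at hxy
      exact h₀.pc_inj j hj x y hx hy hxy
    · rw [hshn x j hj hx, hshn y j hj hy] at hxy
      exact (hshj j hj).1.pc_inj j (Or.inr rfl) x y hx hy hxy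
  · intro j _ e
    by_cases hj : j ∈ J₀
    · obtain ⟨x, hx, hxe⟩ := h₀.pc_surj j hj e
      exact ⟨x, hx, by rw [hsh₀ x (Or.inr ⟨j, hj, hx⟩), hxe]⟩
    · obtain ⟨x, hx, hxe⟩ := (hshj j hj).1.pc_surj j (Or.inr rfl) e
      exact ⟨x, hx, by rw [hshn x j hj hx, hxe]⟩
  · intro n r v a _ ha
    let J' : Set J := {j | j ∈ occ c v ∧ j ∉ J₀}
    have hJ'fin : J'.Finite := (occ c v).finite_toSet.subset fun j hj => by exact_mod_cast hj.1
    obtain ⟨sh', hsh', hsh'₀⟩ := h₀.extend hlt hinf J' (fun j hj => hj.2) (hex J' hJ'fin)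
    -- hybrid shapes
    let hy : Finset J → N → R ⊕ E := fun T x => if ∃ j ∈ T, c x = some j then sh x else sh' x
    have hyT : ∀ (T : Finset J) x j, j ∈ T → c x = some j → hy T x = sh x :=
      fun T x j hj hx => if_pos ⟨j, hj, hx⟩
    have hyN : ∀ (T : Finset J) x, (∀ j ∈ T, c x ≠ some j) → hy T x = sh' x := by
      intro T x hx
      refine if_neg ?_
      rintro ⟨j, hj, hj'⟩
      exact hx j hj hj'
    have hvall : ∀ k, c (v k) = none ∨ ∃ j ∈ J₀ ∪ J', c (v k) = some j := by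
      intro k
      rcases hk : c (v k) with _ | j
      · exact Or.inl rfl
      · by_cases hj : j ∈ J₀
        · exact Or.inr ⟨j, Or.inl hj, rfl⟩
        · exact Or.inr ⟨j, Or.inr ⟨mem_occ.2 ⟨k, hk⟩, hj⟩, rfl⟩
    have key : ∀ T : Finset J, (∀ j ∈ T, j ∈ J') →
        (RelMap r (fun k => bd (I := I) (hy T (v k)) (a k)) ↔ RelMap r v) := by
      intro T
      induction T using Finset.induction_on with
      | empty =>
        intro _
        have h2 : ∀ x, hy ∅ x = sh' x := fun x => hyN ∅ x (fun j hj => absurd hj (Finset.notMem_empty j))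
        simp only [h2]
        exact hsh'.rel n r v a hvall ha
      | insert t T ht ih =>
        intro hT
        have htJ : t ∈ J' := hT t (Finset.mem_insert_self _ _)
        have hTJ : ∀ j ∈ T, j ∈ J' := fun j hj => hT j (Finset.mem_insert_of_mem hj)
        refine Iff.trans ?_ (ih hTJ)
        obtain ⟨ht1, ht2⟩ := hshj t htJ.2
        -- shapes of the pieces different from `t` outside of `J₀`
        have hp : ∀ k j, c (v k) = some j → j ∈ J' \ {t} → ∃ e, hy T (v k) = Sum.inr e := by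
          intro k j hj hjT
          by_cases hjT' : j ∈ T
          · rw [hyT T _ j hjT' hj, hshn _ j hjT.1.2 hj]
            exact (hshj j hjT.1.2).1.pc j (Or.inr rfl) _ hj
          · rw [hyN T (v k) (fun i hi h => hjT' (by
              have : j = i := Option.some_injective _ (hj.symm.trans h)
              rw [this]
              exact hi))]
            exact hsh'.pc j (Or.inr hjT.1) _ hj
        obtain ⟨v', h3, h4, h5⟩ := h₀.exists_replace (A := J₀) hJinf Subset.rfl v
          (fun k => hy T (v k)) hp (fun j hj hjT => hjT.1.2 hj) a ha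
        have hcase : ∀ k, (v' k = v k ∧ (c (v k) = none ∨ ∃ j ∈ J₀, c (v k) = some j)) ∨
            (v' k = v k ∧ c (v k) = some t) ∨
            (∃ j ∈ J' \ {t}, c (v k) = some j) := by
          intro k
          rcases hvall k with h6 | ⟨j, hj | hj, h6⟩
          · exact Or.inl ⟨h3 k (fun j hj => by rw [h6] at hj; cases hj), Or.inl h6⟩
          · refine Or.inl ⟨h3 k (fun j' hj' => ?_), Or.inr ⟨j, hj, h6⟩⟩
            have : j' = j := Option.some_injective _ (hj'.symm.trans h6)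
            rw [this]
            exact fun hjT => hjT.1.2 hj
          · by_cases hjt : j = t
            · rw [hjt] at h6
              refine Or.inr (Or.inl ⟨h3 k (fun j' hj' => ?_), h6⟩)
              have : j' = t := Option.some_injective _ (hj'.symm.trans h6)
              rw [this]
              exact fun h => h.2 rfl
            · exact Or.inr (Or.inr ⟨j, ⟨hj, hjt⟩, h6⟩)
        have hv' : ∀ k, c (v' k) = none ∨ ∃ j ∈ J₀ ∪ {t}, c (v' k) = some j := by
          intro k
          rcases hcase k with ⟨h6, h7⟩ | ⟨h6, h7⟩ | ⟨j, hj, h6⟩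
          · rw [h6]
            exact h7.imp id fun ⟨j, hj, hj'⟩ => ⟨j, Or.inl hj, hj'⟩
          · rw [h6]
            exact Or.inr ⟨t, Or.inr rfl, h7⟩
          · obtain ⟨⟨j', hj', hj''⟩, -⟩ := h4 k j h6 hj
            exact Or.inr ⟨j', Or.inl hj', hj''⟩
        have e1 : ∀ k, sh' (v' k) = hy T (v k) := by
          intro k
          rcases hcase k with ⟨h6, h7⟩ | ⟨h6, h7⟩ | ⟨j, hj, h6⟩
          · rw [h6]
            symm
            refine hyN T (v k) fun j hj hj' => ?_
            rcases h7 with h7 | ⟨i, hi, h7⟩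
            · rw [h7] at hj'
              cases hj'
            · have : i = j := Option.some_injective _ (h7.symm.trans hj')
              rw [this] at hi
              exact (hTJ j hj).2 hi
          · rw [h6]
            symm
            refine hyN T (v k) fun j hj hj' => ?_
            have : t = j := Option.some_injective _ (h7.symm.trans hj')
            rw [← this] at hj
            exact ht hj
          · obtain ⟨⟨j', hj', hj''⟩, h8⟩ := h4 k j h6 hj
            rw [hsh'₀ _ (Or.inr ⟨j', hj', hj''⟩), h8]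
        have e2 : ∀ k, shj t (v' k) = hy (insert t T) (v k) := by
          intro k
          rcases hcase k with ⟨h6, h7⟩ | ⟨h6, h7⟩ | ⟨j, hj, h6⟩
          · rw [h6, ht2 _ h7, ← hsh'₀ _ h7]
            symm
            refine hyN _ (v k) fun j hj hj' => ?_
            rcases h7 with h7 | ⟨i, hi, h7⟩
            · rw [h7] at hj'
              cases hj'
            · have : i = j := Option.some_injective _ (h7.symm.trans hj')
              rw [this] at hi
              exact (hT j hj).2 hi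
          · rw [h6, hyT _ _ t (Finset.mem_insert_self _ _) h7, hshn _ t htJ.2 h7]
          · obtain ⟨⟨j', hj', hj''⟩, h8⟩ := h4 k j h6 hj
            rw [ht2 _ (Or.inr ⟨j', hj', hj''⟩), h8]
            by_cases hjT : j ∈ T
            · rw [hyT T _ j hjT h6, hyT _ _ j (Finset.mem_insert_of_mem hjT) h6]
            · rw [hyN T (v k) (fun i hi h => hjT (by
                have : j = i := Option.some_injective _ (h6.symm.trans h)
                rw [this]
                exact hi)), hyN (insert t T) (v k) (fun i hi h => ?_)]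
              have h9 : j = i := Option.some_injective _ (h6.symm.trans h)
              rw [← h9] at hi
              rcases Finset.mem_insert.1 hi with h10 | h10
              · exact hj.2 h10
              · exact hjT h10
        have r1 := (hsh'.mono (J₁ := J₀ ∪ {t}) (by
          rintro j (hj | hj)
          · exact Or.inl hj
          · rw [Set.mem_singleton_iff] at hj
            rw [hj]
            exact Or.inr htJ)).rel n r v' a hv' h5
        have r2 := ht1.rel n r v' a hv' h5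
        simp only [e1] at r1
        simp only [e2] at r2
        exact r2.trans r1.symm
    have hfin := key hJ'fin.toFinset (fun j hj => hJ'fin.mem_toFinset.1 hj)
    have hall : ∀ k, hy hJ'fin.toFinset (v k) = sh (v k) := by
      intro k
      rcases hvall k with h6 | ⟨j, hj | hj, h6⟩
      · rw [hsh₀ _ (Or.inl h6), ← hsh'₀ _ (Or.inl h6)]
        exact hyN _ _ fun j _ hj' => by rw [h6] at hj'; cases hj'
      · rw [hsh₀ _ (Or.inr ⟨j, hj, h6⟩), ← hsh'₀ _ (Or.inr ⟨j, hj, h6⟩)]
        refine hyN _ _ fun i hi hi' => ?_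
        have : j = i := Option.some_injective _ (h6.symm.trans hi')
        rw [this] at hj
        exact (hJ'fin.mem_toFinset.1 hi).2 hj
      · exact hyT _ _ j (hJ'fin.mem_toFinset.2 hj) h6
    simp only [hall] at hfin
    exact hfin

theorem specG : SpecG.{u} := by
  intro L R I E N J _ _ l ρ hl hS hE hI hJ c hloc
  classical
  obtain ⟨J₀, hJ₀⟩ := le_mk_iff_exists_set.1 hJ
  have h2l : ℵ₀ ≤ (2 : Cardinal.{u}) ^ l := hl.trans (cantor l).le
  have hsucc : ℵ₀ ≤ Order.succ ((2 : Cardinal.{u}) ^ l) := h2l.trans (Order.le_succ _)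
  have hEE : #(E → E) ≤ 2 ^ l := by
    have h1 : #(E → E) = #E ^ #E := (power_def _ _).symm
    rw [h1, ← power_self_eq hl]
    by_cases hE0 : #E = 0
    · rw [hE0, power_zero]
      exact one_le_aleph0.trans (hl.trans (by rw [power_self_eq hl]; exact (cantor l).le))
    · exact (power_le_power_left hE0 hE).trans (power_le_power_right hE)
  have hlt : #(E → E) < #J₀ := by
    rw [hJ₀]
    exact hEE.trans_lt (Order.lt_succ _)
  have hinf : ℵ₀ ≤ #J₀ := by
    rw [hJ₀]
    exact hsucc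
  obtain ⟨h, hh⟩ := hloc J₀ hJ₀.le
  obtain ⟨sh, hsh⟩ := (hh.pc hS).global hlt hinf (fun J' hJ' => by
    obtain ⟨h', hh'⟩ := hloc (J₀ ∪ J') (by
      refine (mk_union_le _ _).trans (add_le_of_le hsucc hJ₀.le ?_)
      exact (hJ'.lt_aleph0.le).trans hsucc)
    exact ⟨_, hh'.pc hS⟩)
  -- the coordinates
  have hnone : ∀ x, c x = none ↔ ∃ s, sh x = Sum.inl s := by
    intro x
    refine ⟨hsh.base x, ?_⟩
    rintro ⟨s, hs⟩
    rcases hx : c x with _ | j
    · rfl
    · obtain ⟨e, he⟩ := hsh.pc j trivial x hx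
      rw [hs] at he
      cases he
  have hsome : ∀ x j, c x = some j → ∃ e, sh x = Sum.inr e := fun x j hx => hsh.pc j trivial x hx
  have hJne : ∃ j₀ : J, True := by
    have : Nonempty J := by
      rw [← mk_ne_zero_iff]
      exact ((aleph0_pos.trans_le hsucc).trans_le hJ).ne'
    obtain ⟨j⟩ := this
    exact ⟨j, trivial⟩
  obtain ⟨j₀, -⟩ := hJne
  let f : N → R ⊕ (J × E) := fun x => bd (I := J) (sh x) ((c x).getD j₀)
  have hfn : ∀ x s, sh x = Sum.inl s → f x = Sum.inl s := by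
    intro x s hs
    simp only [f, hs]
    rfl
  have hfs : ∀ x j e, c x = some j → sh x = Sum.inr e → f x = Sum.inr (j, e) := by
    intro x j e hx he
    simp only [f, hx, he]
    rfl
  have hbij : Function.Bijective f := by
    constructor
    · intro x y hxy
      rcases hx : c x with _ | j
      · obtain ⟨s, hs⟩ := hsh.base x hx
        rcases hy : c y with _ | j'
        · obtain ⟨s', hs'⟩ := hsh.base y hy
          rw [hfn x s hs, hfn y s' hs'] at hxy
          exact hsh.base_inj x y hx hy (by rw [hs, hs', Sum.inl_injective hxy])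
        · obtain ⟨e', he'⟩ := hsome y j' hy
          rw [hfn x s hs, hfs y j' e' hy he'] at hxy
          cases hxy
      · obtain ⟨e, he⟩ := hsome x j hx
        rcases hy : c y with _ | j'
        · obtain ⟨s', hs'⟩ := hsh.base y hy
          rw [hfs x j e hx he, hfn y s' hs'] at hxy
          cases hxy
        · obtain ⟨e', he'⟩ := hsome y j' hy
          rw [hfs x j e hx he, hfs y j' e' hy he'] at hxy
          have h1 := Sum.inr_injective hxy
          have h2 : j = j' := congrArg Prod.fst h1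
          have h3 : e = e' := congrArg Prod.snd h1
          rw [← h2] at hy
          exact hsh.pc_inj j trivial x y hx hy (by rw [he, he', h3])
    · rintro (s | ⟨j, e⟩)
      · obtain ⟨x, hx, hxs⟩ := hsh.base_surj s
        exact ⟨x, hfn x s hxs⟩
      · obtain ⟨x, hx, hxe⟩ := hsh.pc_surj j trivial e
        exact ⟨x, hfs x j e hx hxe⟩
  refine ⟨Equiv.ofBijective f hbij, ?_⟩
  intro n r v σ hσ
  have h1 : (fun k => mv σ (Equiv.ofBijective f hbij (v k))) =
      fun k => bd (I := I) (sh (v k)) (σ ((c (v k)).getD j₀)) := by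
    funext k
    have h2 : Equiv.ofBijective f hbij (v k) = f (v k) := rfl
    rw [h2]
    rcases hx : c (v k) with _ | j
    · obtain ⟨s, hs⟩ := hsh.base _ hx
      rw [hfn _ s hs, hs]
      rfl
    · obtain ⟨e, he⟩ := hsome _ j hx
      rw [hfs _ j e hx he, he]
      rfl
  rw [h1]
  refine hsh.rel n r v _ (fun k => ?_) ?_
  · rcases hx : c (v k) with _ | j
    · exact Or.inl rfl
    · exact Or.inr ⟨j, trivial, rfl⟩
  · intro k k' j j' hk hk'
    obtain ⟨e, he⟩ := hsome _ j hk
    obtain ⟨e', he'⟩ := hsome _ j' hk'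
    simp only [hk, hk', Option.getD_some]
    constructor
    · intro h2
      exact hσ k k' j j' e e' (hfs _ j e hk he) (hfs _ j' e' hk' he') h2
    · intro h2
      rw [h2]

end Vale.Agent.P307.Triv
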