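import Vale.Agent.P307.Triv.PDefs
import Vale.Agent.P307.Triv.C

/-!
Part gamma 1: components and local maps, up to `l` pieces.
-/

universe u

open FirstOrder Cardinal Set

namespace Vale.Agent.P307.Triv

open C

namespace G1

variable {L : Language.{u, u}} {R I E N : Type u} [L.Structure (R ⊕ (I × E))]
  [L.Structure N] {l : Cardinal.{u}} {ρ : R ⊕ (I × E) → R ⊕ (I × E) → Prop} {ρN : N → N → Prop}

/-- Elements with many witnesses are mapped to the base or to the exceptional set. -/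
theorem many (hM : SymM L R I E ρ) (hE : #E ≤ l) {P : Set N} {h : N → R ⊕ (I × E)}
    {Q : Set (R ⊕ (I × E))} (hq : QEmb L ρN ρ P h Q) {x : N} (hx : x ∈ P)
    (hw : l < #{a | a ∈ P ∧ ρN x a}) : h x ∈ Q ∨ ∃ s, h x = Sum.inl s := by
  by_contra hcon
  rw [not_or] at hcon
  obtain ⟨h1, h2⟩ := hcon
  rcases h3 : h x with s | p
  · exact h2 ⟨s, h3⟩
  · have h4 : #(h '' {a | a ∈ P ∧ ρN x a}) ≤ l := by
      refine (Cardinal.mk_le_mk_of_subset ?_).trans (inr_wit (p := p) hM hE)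
      rintro _ ⟨a, ⟨ha, ha1⟩, rfl⟩
      rcases hq.down a ha x hx ha1 with h5 | h5
      · exact absurd h5 h1
      · rw [h3] at h5
        exact h5
    rw [Cardinal.mk_image_eq_of_injOn _ _ (hq.inj.mono fun a ha => ha.1)] at h4
    exact absurd h4 (not_le.2 hw)

/-- The points on the base, in `Q`, or on a piece which meets `Q`. -/
def Big2 (Q : Set (R ⊕ (I × E))) : Set (R ⊕ (I × E)) :=
  (Q ∪ Set.range Sum.inl) ∪ ⋃ q : Q, {y | ∃ i e e', q.1 = Sum.inr (i, e) ∧ y = Sum.inr (i, e')}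

theorem mk_big2 (hl : ℵ₀ ≤ l) (hR : #R ≤ l) (hE : #E ≤ l) {Q : Set (R ⊕ (I × E))} (hQ : #Q ≤ l) :
    #(Big2 Q) ≤ l := by
  refine mk_union_le' hl (mk_union_le' hl hQ (Cardinal.mk_range_le.trans hR)) ?_
  refine mk_iUnion_le' hl hQ _ fun q => ?_
  rcases h : q.1 with s | ⟨i, e⟩
  · have : {y : R ⊕ (I × E) | ∃ i e e', (Sum.inl s : R ⊕ (I × E)) = Sum.inr (i, e) ∧
        y = Sum.inr (i, e')} = ∅ := by
      ext y
      simp
    rw [this]
    simp
  · have : {y : R ⊕ (I × E) | ∃ i' e1 e', (Sum.inr (i, e) : R ⊕ (I × E)) = Sum.inr (i', e1) ∧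
        y = Sum.inr (i', e')} ⊆ Set.range fun e' : E => (Sum.inr (i, e') : R ⊕ (I × E)) := by
      rintro _ ⟨i', e1, e', h1, rfl⟩
      have h2 := (Prod.mk.injEq _ _ _ _ ▸ Sum.inr_injective h1).1
      exact ⟨e', by rw [h2]⟩
    exact (Cardinal.mk_le_mk_of_subset this).trans (Cardinal.mk_range_le.trans hE)

end G1

open G1

theorem specG1 : SpecG1.{u} := by
  intro L R I E N _ _ l ρ ρN hl hM hR hE hE0 hrefl htr hd hN hP
  classical
  have hl1 : l ≤ 2 ^ l := (Cardinal.cantor l).le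
  have hl2 : ℵ₀ ≤ (2 : Cardinal.{u}) ^ l := hl.trans hl1
  have hs0 : (2 : Cardinal.{u}) ^ l ≤ Order.succ (2 ^ l) := Order.le_succ _
  have hs1 : l < Order.succ (2 ^ l) := lt_of_le_of_lt hl1 (Order.lt_succ _)
  have hs2 : ℵ₀ ≤ Order.succ ((2 : Cardinal.{u}) ^ l) := hl.trans hs1.le
  have hD : Deco ρN (cc l ρN) := deco htr
  -- the base is small
  have hdn : ∀ S : Set N, #S ≤ Order.succ l → ∃ P : Set N, S ⊆ P ∧ Closed ρN P ∧
      #P ≤ Order.succ (2 ^ l) := by
    intro S hS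
    refine ⟨⋃ a : S, {x | ρN x a}, fun a ha => Set.mem_iUnion.2 ⟨⟨a, ha⟩, hrefl a⟩, ?_, ?_⟩
    · intro a ha x hx
      obtain ⟨b, hb⟩ := Set.mem_iUnion.1 ha
      exact Set.mem_iUnion.2 ⟨b, htr x a b hx hb⟩
    · refine mk_iUnion_le' hs2 (hS.trans ?_) _ fun a => (hd a).trans hs1.le
      exact Order.succ_le_succ hl1
  have hRN : #(RN l ρN) ≤ l := by
    by_contra hcon
    rw [not_le] at hcon
    obtain ⟨A, hA, hAc⟩ := Cardinal.le_mk_iff_exists_subset.1 (Order.succ_le_of_lt hcon)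
    have hW : ∀ x : A, ∃ W ⊆ {a | ρN x.1 a}, #W = Order.succ l := fun x => by
      refine Cardinal.le_mk_iff_exists_subset.1 ?_
      exact (Order.succ_le_succ hl1).trans (Order.succ_le_of_lt (hA x.2))
    choose W hW1 hW2 using hW
    have hsl : ℵ₀ ≤ Order.succ l := hl.trans (Order.le_succ l)
    obtain ⟨P, hP1, hP2, hP3⟩ := hdn (A ∪ ⋃ x, W x)
      (mk_union_le' hsl hAc.le (mk_iUnion_le' hsl hAc.le _ fun x => (hW2 x).le))
    obtain ⟨f, Q, hQ, hf⟩ := hP P hP2 hP3
    have hAf : f '' A ⊆ Q ∪ Set.range Sum.inl := by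
      rintro _ ⟨x, hx, rfl⟩
      have hWP : W ⟨x, hx⟩ ⊆ P := fun a ha => hP1 (Or.inr (Set.mem_iUnion.2 ⟨⟨x, hx⟩, ha⟩))
      rcases many hM hE hf (hP1 (Or.inl hx)) ((Order.lt_succ l).trans_le (by
        rw [← hW2 ⟨x, hx⟩]
        exact Cardinal.mk_le_mk_of_subset fun a ha => ⟨hWP ha, hW1 ⟨x, hx⟩ ha⟩)) with h | ⟨s, h⟩
      · exact Or.inl h
      · exact Or.inr ⟨s, h.symm⟩
    have h2 : #A ≤ l := by
      rw [← Cardinal.mk_image_eq_of_injOn f A (hf.inj.mono fun a ha => hP1 (Or.inl ha))]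
      exact (Cardinal.mk_le_mk_of_subset hAf).trans
        (mk_union_le' hl hQ (Cardinal.mk_range_le.trans hR))
    rw [hAc] at h2
    exact absurd h2 (not_le.2 (Order.lt_succ l))
  have hcn : {x | cc l ρN x = none} = RN l ρN := by
    ext x
    exact cc_none
  have hcov : ∀ J' : Set (Comp l ρN), C.B (cc l ρN) J' ⊆
      RN l ρN ∪ ⋃ j : J', {x | cc l ρN x = some j.1} := by
    intro J' x hx
    rcases h : cc l ρN x with _ | j
    · exact Or.inl (cc_none.1 h)
    · exact Or.inr (Set.mem_iUnion.2 ⟨⟨j, hx j h⟩, h⟩)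
  have hBc : ∀ J' : Set (Comp l ρN), #J' ≤ Order.succ (2 ^ l) →
      #(C.B (cc l ρN) J') ≤ Order.succ (2 ^ l) := fun J' hJ' =>
    (Cardinal.mk_le_mk_of_subset (hcov J')).trans
      (mk_union_le' hs2 (hRN.trans hs1.le)
        (mk_iUnion_le' hs2 hJ' _ fun j => (mk_comp hl hd j.1).trans hs0))
  have hJ : Order.succ (2 ^ l) ≤ #(Comp l ρN) := by
    rw [Order.succ_le_iff]
    by_contra hcon
    rw [not_lt] at hcon
    have h1 : (Set.univ : Set N) ⊆
        RN l ρN ∪ ⋃ j : (Set.univ : Set (Comp l ρN)), {x | cc l ρN x = some j.1} :=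
      fun x _ => hcov Set.univ (fun j _ => trivial)
    have h2 : #N ≤ 2 ^ l := by
      rw [← Cardinal.mk_univ]
      refine (Cardinal.mk_le_mk_of_subset h1).trans (mk_union_le' hl2 (hRN.trans hl1)
        (mk_iUnion_le' hl2 ?_ _ fun j => mk_comp hl hd j.1))
      rw [Cardinal.mk_univ]
      exact hcon
    exact absurd (hN.trans_le (h2.trans hs0)) (lt_irrefl _)
  refine ⟨Comp l ρN, cc l ρN, hJ, by rw [hcn]; exact hRN, mk_comp hl hd, hD.surj, hD.down,
    fun J₁ hJ₁ => ?_⟩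
  have hW : ∀ x : RN l ρN, ∃ W ⊆ {a | ρN x.1 a}, #W = Order.succ (2 ^ l) := fun x =>
    Cardinal.le_mk_iff_exists_subset.1 (Order.succ_le_of_lt x.2)
  choose W hW1 hW2 using hW
  set J2 : Set (Comp l ρN) := ⋃ x : RN l ρN, {j | ∃ a ∈ W x, cc l ρN a = some j} with hJ2
  have hJ2c : #J2 ≤ Order.succ (2 ^ l) := by
    refine mk_iUnion_le' hs2 (hRN.trans hs1.le) _ fun x => ?_
    rw [← hW2 x]
    choose a ha haj using fun j : {j | ∃ a ∈ W x, cc l ρN a = some j} => j.2
    refine Cardinal.mk_le_of_injective (f := fun j => ⟨a j, ha j⟩) ?_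
    intro j j' hjj
    have h1 : a j = a j' := congrArg Subtype.val hjj
    have h2 := haj j
    rw [h1, haj j'] at h2
    exact Subtype.ext (Option.some_injective _ h2).symm
  set J' : Set (Comp l ρN) := J₁ ∪ J2 with hJ'
  have hJ'c : #J' ≤ Order.succ (2 ^ l) := mk_union_le' hs2 hJ₁ hJ2c
  obtain ⟨h, Q, hQ, hq⟩ := hP (C.B (cc l ρN) J') (B_closed hD J') (hBc J' hJ'c)
  -- the base is mapped to the base or to `Q`
  have hbase : ∀ x, cc l ρN x = none → h x ∈ Q ∨ ∃ s, h x = Sum.inl s := by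
    intro x hx
    have hx' : x ∈ RN l ρN := cc_none.1 hx
    refine many hM hE hq (B_none _ hx) (hs1.trans_le ?_)
    rw [← hW2 ⟨x, hx'⟩]
    refine Cardinal.mk_le_mk_of_subset fun a ha => ⟨fun j hj => ?_, hW1 ⟨x, hx'⟩ ha⟩
    exact Or.inr (Set.mem_iUnion.2 ⟨⟨x, hx'⟩, a, ha, hj⟩)
  refine ⟨{j | j ∈ J₁ ∧ ∃ x, cc l ρN x = some j ∧ h x ∈ Big2 Q}, h, fun j hj => hj.1, ?_, ?_⟩
  · refine le_trans ?_ (mk_big2 hl hR hE hQ)
    choose x hx hxQ using
      fun j : {j | j ∈ J₁ ∧ ∃ x, cc l ρN x = some j ∧ h x ∈ Big2 Q} => j.2.2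
    refine Cardinal.mk_le_of_injective (f := fun j => (⟨h (x j), hxQ j⟩ : Big2 Q)) ?_
    intro j j' hjj
    have h1 : x j = x j' := hq.inj (B_some (hx j) (Or.inl j.2.1)) (B_some (hx j') (Or.inl j'.2.1))
      (congrArg Subtype.val hjj)
    have h2 := hx j
    rw [h1, hx j'] at h2
    exact Subtype.ext (Option.some_injective _ h2).symm
  · have hsub : dom (cc l ρN) J₁ ⊆ C.B (cc l ρN) J' := by
      rintro x (hx | ⟨j, hj, hx⟩)
      · exact B_none _ hx
      · exact B_some hx (Or.inl hj)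
    refine ⟨hq.inj.mono hsub, fun n r v hv => hq.rel n r v fun i => hsub (hv i), ?_⟩
    intro j hj hjZ
    have hgood : ∀ x, cc l ρN x = some j → h x ∉ Big2 Q := fun x hx hQx =>
      hjZ ⟨hj, x, hx, hQx⟩
    have hin : ∀ x, cc l ρN x = some j → x ∈ C.B (cc l ρN) J' := fun x hx =>
      B_some hx (Or.inl hj)
    have hnQ : ∀ x, cc l ρN x = some j → h x ∉ Q := fun x hx hQx =>
      hgood x hx (Or.inl (Or.inl hQx))
    have hinr : ∀ x, cc l ρN x = some j → ∃ p, h x = Sum.inr p := by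
      intro x hx
      rcases h1 : h x with s | p
      · exact absurd (Or.inl (Or.inr ⟨s, h1.symm⟩)) (hgood x hx)
      · exact ⟨p, rfl⟩
    obtain ⟨x0, hx0⟩ := hD.surj j
    obtain ⟨⟨i, e0⟩, hi⟩ := hinr x0 hx0
    have hpQ : ∀ e, (Sum.inr (i, e) : R ⊕ (I × E)) ∉ Q := by
      intro e he
      refine hgood x0 hx0 (Or.inr (Set.mem_iUnion.2 ⟨⟨_, he⟩, i, e, e0, rfl, hi⟩))
    refine ⟨i, fun x hx => ?_, fun e => ?_⟩
    · induction hD.conn x0 x j hx0 hx with
      | refl => exact ⟨e0, hi⟩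
      | @tail b d _ h1 ih =>
        obtain ⟨hb, hc, hbc⟩ := h1
        obtain ⟨e1, he1⟩ := ih hb
        obtain ⟨⟨k2, e2⟩, he2⟩ := hinr _ hc
        have h2 : Cmp ρ (h b) (h d) := by
          rcases hbc with hbc | hbc
          · rcases hq.down d (hin d hc) b (hin b hb) hbc with h3 | h3
            · exact absurd h3 (hnQ b hb)
            · exact Or.inl h3
          · rcases hq.down b (hin b hb) d (hin d hc) hbc with h3 | h3
            · exact absurd h3 (hnQ d hc)
            · exact Or.inr h3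
        rw [he1, he2] at h2
        have h3 := cmp_piece hM h2
        simp only at h3
        exact ⟨e2, by rw [he2, h3]⟩
    · have hne : ∀ x e, h x = Sum.inr (i, e) → cc l ρN x ≠ none := by
        intro x e hxe hn
        rcases hbase x hn with h1 | ⟨s, h1⟩
        · rw [hxe] at h1
          exact hpQ e h1
        · rw [hxe] at h1
          exact absurd h1 (by simp)
      have h0 := hM.conn i e0 e
      induction h0 with
      | refl => exact ⟨x0, hx0, hi⟩
      | @tail b d _ h1 ih =>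
        obtain ⟨x, hx, hxb⟩ := ih
        rcases h1 with h1 | h1
        · -- the neighbour above
          rw [← hxb] at h1
          rcases hq.up x (hin x hx) _ h1 with h2 | h2 | ⟨x', hx', hxd⟩
          · exact absurd h2 (hnQ x hx)
          · exact absurd h2 (hpQ d)
          · rw [← hxd] at h1
            rcases hq.lift x' hx' _ h1 with h3 | ⟨x'', hx'', h4, h5⟩
            · exact absurd h3 (hnQ x hx)
            · have h6 : x'' = x := hq.inj hx'' (hin x hx) h5
              rw [h6] at h4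
              refine ⟨x', ?_, hxd⟩
              rw [← hD.comp x x' (by rw [hx]; simp) (hne x' d hxd) (Or.inl h4)]
              exact hx
        · -- the neighbour below
          rw [← hxb] at h1
          rcases hq.lift x (hin x hx) _ h1 with h2 | ⟨x', hx', h4, hxd⟩
          · exact absurd h2 (hpQ d)
          · refine ⟨x', ?_, hxd⟩
            rw [hD.comp x' x (hne x' d hxd) (by rw [hx]; simp) (Or.inl h4)]
            exact hx

end Vale.Agent.P307.Triv
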