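import Vale.Agent.P307.Triv.PDefs

/-!
Classes with disintegrated closures over strong substructures: the exceptional set of indices can
be chosen uniformly.
-/

universe u

open FirstOrder Cardinal Set

namespace Vale.Agent.P307.Triv

/-- Hausdorff: `((2 ^ l)⁺) ^ l = (2 ^ l)⁺`. -/
theorem succ_two_power_power {l : Cardinal.{u}} (hl : ℵ₀ ≤ l) :
    Order.succ ((2 : Cardinal.{u}) ^ l) ^ l = Order.succ (2 ^ l) := by
  have hl1 : l ≤ 2 ^ l := (cantor l).le
  have h2l : ℵ₀ ≤ (2 : Cardinal.{u}) ^ l := hl.trans hl1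
  refine le_antisymm ?_ (self_le_power _ (one_le_aleph0.trans hl))
  have hA : #(SuccTy ((2 : Cardinal.{u}) ^ l)) = Order.succ (2 ^ l) := by
    rw [mk_toType, card_ord]
  have hB : #(Quotient.out l) = l := mk_out l
  have hg : ∀ f : Quotient.out l → SuccTy ((2 : Cardinal.{u}) ^ l), ∃ x, ∀ b, f b < x := by
    intro f
    obtain ⟨x, hx⟩ := exists_gt_of_small h2l (Set.range f) (mk_range_le.trans (hB.le.trans hl1))
    exact ⟨x, fun b => hx _ ⟨b, rfl⟩⟩
  choose g hg using hg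
  have h1 : #(Quotient.out l → SuccTy ((2 : Cardinal.{u}) ^ l)) ≤
      #(Σ x : SuccTy ((2 : Cardinal.{u}) ^ l), (Quotient.out l → Set.Iio x)) := by
    refine mk_le_of_injective
      (f := fun f => (⟨g f, fun b => ⟨f b, hg f b⟩⟩ :
        Σ x : SuccTy ((2 : Cardinal.{u}) ^ l), (Quotient.out l → Set.Iio x))) ?_
    intro f f' h
    exact congrArg (fun s : (Σ x : SuccTy ((2 : Cardinal.{u}) ^ l),
      (Quotient.out l → Set.Iio x)) => fun b => (s.2 b).1) h
  have h2 : #(Quotient.out l → SuccTy ((2 : Cardinal.{u}) ^ l)) = Order.succ (2 ^ l) ^ l := by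
    rw [← power_def, hA, hB]
  rw [← h2]
  refine h1.trans ?_
  rw [mk_sigma]
  calc Cardinal.sum (fun x : SuccTy ((2 : Cardinal.{u}) ^ l) => #(Quotient.out l → Set.Iio x))
      ≤ Cardinal.sum (fun _ : SuccTy ((2 : Cardinal.{u}) ^ l) => (2 : Cardinal.{u}) ^ l) := by
        refine sum_le_sum _ _ fun x => ?_
        rw [← power_def, hB]
        calc #(Set.Iio x) ^ l ≤ ((2 : Cardinal.{u}) ^ l) ^ l :=
              power_le_power_right (mk_Iio_succTy x)
          _ = 2 ^ l := by rw [← power_mul, mul_eq_self hl]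
    _ = Order.succ (2 ^ l) * 2 ^ l := by rw [sum_const', hA]
    _ ≤ Order.succ (2 ^ l) * Order.succ (2 ^ l) := mul_le_mul_right (Order.le_succ _) _
    _ = Order.succ (2 ^ l) := mul_eq_self (h2l.trans (Order.le_succ _))

theorem dom_mono {N J : Type u} {c : N → Option J} {J₁ J₂ : Set J} (h : J₂ ⊆ J₁) :
    dom c J₂ ⊆ dom c J₁ := by
  rintro x (hx | ⟨j, hj, hx⟩)
  · exact Or.inl hx
  · exact Or.inr ⟨j, h hj, hx⟩

theorem PreLoc.mono {L : Language.{u, u}} {R I E N J : Type u} [L.Structure (R ⊕ (I × E))]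
    [L.Structure N] {c : N → Option J} {J₁ J₂ Z : Set J} {h : N → R ⊕ (I × E)}
    (hp : PreLoc L R I E c J₁ Z h) (h12 : J₂ ⊆ J₁) : PreLoc L R I E c J₂ Z h where
  inj := hp.inj.mono (dom_mono h12)
  rel := fun n r v hv => hp.rel n r v fun k => dom_mono h12 (hv k)
  piece := fun j hj hjZ => hp.piece j (h12 hj) hjZ

/-- Part gamma 2. -/
theorem specG2 : SpecG2.{u} := by
  intro L R I E N J _ _ l c hl H
  by_contra hcon
  push Not at hcon
  choose! Φ hΦ1 hΦ2 using hcon
  have h2 : (2 : Cardinal.{u}) ≤ Order.succ (2 ^ l) :=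
    (ofNat_le_aleph0 (n := 2)).trans (hl.trans ((cantor l).le.trans (Order.le_succ _)))
  obtain ⟨W, -, hW1, hW2⟩ := exists_closed hl (succ_two_power_power hl) h2 Φ hΦ1 ∅
    (by simp only [mk_eq_zero, zero_le])
  obtain ⟨Z, h, hZW, hZ, hp⟩ := H W hW1
  exact hΦ2 Z hZ h (hp.mono (Set.union_subset hZW (hW2 Z hZW hZ)))

end Vale.Agent.P307.Triv

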