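import Vale.Agent.P307.Triv.PDefs
import Vale.Agent.P307.Triv.G

/-!
Coordinates over a larger base.
-/

universe u

open FirstOrder Cardinal Set

namespace Vale.Agent.P307.Triv

open Language.Structure

namespace GP

section sym

variable {L : Language.{u, u}} {R I E : Type u} [L.Structure (R ⊕ (I × E))]

/-- An artificial closure relation on a symmetric structure. -/
def rho (R I E : Type u) (x y : R ⊕ (I × E)) : Prop :=
  x = y ∨ (∃ s p, x = Sum.inl s ∧ y = Sum.inr p) ∨
    ∃ i e e', x = Sum.inr (i, e) ∧ y = Sum.inr (i, e')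

theorem symM_of_ix [Nonempty E] (h : IxSym L R I E) : SymM L R I E (rho R I E) where
  sym := h
  refl x := Or.inl rfl
  trans := by
    rintro x y z (rfl | ⟨s, p, rfl, rfl⟩ | ⟨i, e, e', rfl, rfl⟩) hyz
    · exact hyz
    · rcases hyz with rfl | ⟨s', p', h1, rfl⟩ | ⟨i, e, e', h1, rfl⟩
      · exact Or.inr (Or.inl ⟨s, p, rfl, rfl⟩)
      · exact Or.inr (Or.inl ⟨s, p', rfl, rfl⟩)
      · exact Or.inr (Or.inl ⟨s, _, rfl, rfl⟩)
    · rcases hyz with rfl | ⟨s', p', h1, rfl⟩ | ⟨i', e₁, e₂, h1, rfl⟩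
      · exact Or.inr (Or.inr ⟨i, e, e', rfl, rfl⟩)
      · cases h1
      · have h2 := Sum.inr_injective h1
        have h3 : i = i' := congrArg Prod.fst h2
        subst h3
        exact Or.inr (Or.inr ⟨i, e, e₂, rfl, rfl⟩)
  base := by
    rintro x s (rfl | ⟨s', p, rfl, h⟩ | ⟨i, e, e', rfl, h⟩)
    · exact ⟨s, rfl⟩
    · exact ⟨s', rfl⟩
    · cases h
  piece := by
    rintro i e j e' (h | ⟨s, p, h, -⟩ | ⟨i', e₁, e₂, h1, h2⟩)
    · exact congrArg Prod.fst (Sum.inr_injective h)
    · cases h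
    · have h3 : i = i' := congrArg Prod.fst (Sum.inr_injective h1)
      have h4 : j = i' := congrArg Prod.fst (Sum.inr_injective h2)
      rw [h3, h4]
  unif_base s i j e _ := Or.inr (Or.inl ⟨s, (j, e), rfl, rfl⟩)
  unif_piece i j e e' _ := Or.inr (Or.inr ⟨j, e, e', rfl, rfl⟩)
  conn i e e' := Relation.ReflTransGen.single (Or.inl (Or.inr (Or.inr ⟨i, e, e', rfl, rfl⟩)))
  full s := ⟨Classical.arbitrary E, fun i => Or.inr (Or.inl ⟨s, _, rfl, rfl⟩)⟩

/-- Tuples with the same shapes and the same pattern of indices satisfy the same relations. -/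
theorem two' [Nonempty E] (h : IxSym L R I E) {n : ℕ} (r : L.Relations n)
    (w w' : Fin n → R ⊕ (I × E))
    (hsh : ∀ k, Sum.map id Prod.snd (w k) = Sum.map id Prod.snd (w' k))
    (hix : ∀ k k' i i' e e' j j' f f', w k = Sum.inr (i, e) → w k' = Sum.inr (i', e') →
      w' k = Sum.inr (j, f) → w' k' = Sum.inr (j', f') → (i = i' ↔ j = j')) :
    RelMap r w ↔ RelMap r w' := by
  classical
  by_cases hI : Nonempty I
  swap
  · have h1 : w = w' := by
      funext k
      have h2 := hsh k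
      rcases hw : w k with s | ⟨i, e⟩
      · rcases hw' : w' k with s' | ⟨i', e'⟩
        · rw [hw, hw'] at h2
          have h3 : s = s' := Sum.inl_injective h2
          rw [h3]
        · exact absurd ⟨i'⟩ hI
      · exact absurd ⟨i⟩ hI
    rw [h1]
  obtain ⟨i₀⟩ := hI
  let ix : R ⊕ (I × E) → I := fun x => Sum.elim (fun _ => i₀) Prod.fst x
  have hbd : ∀ x : R ⊕ (I × E), bd (I := I) (Sum.map id Prod.snd x) (ix x) = x := by
    rintro (s | ⟨i, e⟩) <;> rfl
  have h1 := (symM_of_ix h).two r (fun k => Sum.map id Prod.snd (w k)) (fun k => ix (w k))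
    (fun k => ix (w' k)) (by
      intro k k' e e' hk hk'
      have key : ∀ (x : R ⊕ (I × E)) (e : E), Sum.map id Prod.snd x = (Sum.inr e : R ⊕ E) →
          x = Sum.inr (ix x, e) := by
        rintro (s | ⟨i, e₁⟩) e hx
        · cases hx
        · have h2 : e₁ = e := Sum.inr_injective hx
          rw [h2]
          rfl
      have hk2 := key (w' k) e ((hsh k).symm.trans hk)
      have hk2' := key (w' k') e' ((hsh k').symm.trans hk')
      exact hix k k' _ _ _ _ _ _ _ _ (key _ _ hk) (key _ _ hk') hk2 hk2')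
  have h2 : (fun k => bd (I := I) (Sum.map id Prod.snd (w k)) (ix (w k))) = w :=
    funext fun k => hbd (w k)
  have h3 : (fun k => bd (I := I) (Sum.map id Prod.snd (w k)) (ix (w' k))) = w' :=
    funext fun k => by
      rw [hsh k]
      exact hbd (w' k)
  rw [h2, h3] at h1
  exact h1

end sym

/-- Part G with coordinates compatible with the pieces. -/
theorem specG' (L : Language.{u, u}) (R I E N J : Type u) [L.Structure (R ⊕ (I × E))]
    [L.Structure N] (l : Cardinal.{u}) (ρ : R ⊕ (I × E) → R ⊕ (I × E) → Prop)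
    (hl : ℵ₀ ≤ l) (hS : SymM L R I E ρ) (hE : #E ≤ l) (hJ : Order.succ (2 ^ l) ≤ #J)
    (c : N → Option J) (hloc : ∀ J₁ : Set J, #J₁ ≤ Order.succ (2 ^ l) → ∃ h, Loc L R I E c J₁ h)
    (hI : ℵ₀ ≤ #I) :
    ∃ ζ : N ≃ R ⊕ (J × E), Coord L R I E N J ζ ∧ (∀ x, c x = none → ∃ s, ζ x = Sum.inl s) ∧
      ∀ x j, c x = some j → ∃ e, ζ x = Sum.inr (j, e) := by
  classical
  obtain ⟨J₀, hJ₀⟩ := le_mk_iff_exists_set.1 hJ
  have h2l : ℵ₀ ≤ (2 : Cardinal.{u}) ^ l := hl.trans (cantor l).le
  have hsucc : ℵ₀ ≤ Order.succ ((2 : Cardinal.{u}) ^ l) := h2l.trans (Order.le_succ _)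
  have hEE : #(E → E) ≤ 2 ^ l := by
    have h1 : #(E → E) = #E ^ #E := (power_def _ _).symm
    rw [h1, ← power_self_eq hl]
    by_cases hE0 : #E = 0
    · rw [hE0, power_zero]
      exact one_le_aleph0.trans (hl.trans (by rw [power_self_eq hl]; exact (cantor l).le))
    · exact (power_le_power_left hE0 hE).trans (power_le_power_right hE)
  have hlt : #(E → E) < #J₀ := by
    rw [hJ₀]
    exact hEE.trans_lt (Order.lt_succ _)
  have hinf : ℵ₀ ≤ #J₀ := by
    rw [hJ₀]
    exact hsucc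
  obtain ⟨h, hh⟩ := hloc J₀ hJ₀.le
  obtain ⟨sh, hsh⟩ := (hh.pc hS).global hlt hinf (fun J' hJ' => by
    obtain ⟨h', hh'⟩ := hloc (J₀ ∪ J') (by
      refine (mk_union_le _ _).trans (add_le_of_le hsucc hJ₀.le ?_)
      exact (hJ'.lt_aleph0.le).trans hsucc)
    exact ⟨_, hh'.pc hS⟩)
  have hsome : ∀ x j, c x = some j → ∃ e, sh x = Sum.inr e := fun x j hx => hsh.pc j trivial x hx
  have hJne : ∃ j₀ : J, True := by
    have : Nonempty J := by
      rw [← mk_ne_zero_iff]
      exact ((aleph0_pos.trans_le hsucc).trans_le hJ).ne'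
    obtain ⟨j⟩ := this
    exact ⟨j, trivial⟩
  obtain ⟨j₀, -⟩ := hJne
  let f : N → R ⊕ (J × E) := fun x => bd (I := J) (sh x) ((c x).getD j₀)
  have hfn : ∀ x s, sh x = Sum.inl s → f x = Sum.inl s := by
    intro x s hs
    simp only [f, hs]
    rfl
  have hfs : ∀ x j e, c x = some j → sh x = Sum.inr e → f x = Sum.inr (j, e) := by
    intro x j e hx he
    simp only [f, hx, he]
    rfl
  have hbij : Function.Bijective f := by
    constructor
    · intro x y hxy
      rcases hx : c x with _ | j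
      · obtain ⟨s, hs⟩ := hsh.base x hx
        rcases hy : c y with _ | j'
        · obtain ⟨s', hs'⟩ := hsh.base y hy
          rw [hfn x s hs, hfn y s' hs'] at hxy
          exact hsh.base_inj x y hx hy (by rw [hs, hs', Sum.inl_injective hxy])
        · obtain ⟨e', he'⟩ := hsome y j' hy
          rw [hfn x s hs, hfs y j' e' hy he'] at hxy
          cases hxy
      · obtain ⟨e, he⟩ := hsome x j hx
        rcases hy : c y with _ | j'
        · obtain ⟨s', hs'⟩ := hsh.base y hy
          rw [hfs x j e hx he, hfn y s' hs'] at hxy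
          cases hxy
        · obtain ⟨e', he'⟩ := hsome y j' hy
          rw [hfs x j e hx he, hfs y j' e' hy he'] at hxy
          have h1 := Sum.inr_injective hxy
          have h2 : j = j' := congrArg Prod.fst h1
          have h3 : e = e' := congrArg Prod.snd h1
          rw [← h2] at hy
          exact hsh.pc_inj j trivial x y hx hy (by rw [he, he', h3])
    · rintro (s | ⟨j, e⟩)
      · obtain ⟨x, hx, hxs⟩ := hsh.base_surj s
        exact ⟨x, hfn x s hxs⟩
      · obtain ⟨x, hx, hxe⟩ := hsh.pc_surj j trivial e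
        exact ⟨x, hfs x j e hx hxe⟩
  refine ⟨Equiv.ofBijective f hbij, ?_, ?_, ?_⟩
  · intro n r v σ hσ
    have h1 : (fun k => mv σ (Equiv.ofBijective f hbij (v k))) =
        fun k => bd (I := I) (sh (v k)) (σ ((c (v k)).getD j₀)) := by
      funext k
      have h2 : Equiv.ofBijective f hbij (v k) = f (v k) := rfl
      rw [h2]
      rcases hx : c (v k) with _ | j
      · obtain ⟨s, hs⟩ := hsh.base _ hx
        rw [hfn _ s hs, hs]
        rfl
      · obtain ⟨e, he⟩ := hsome _ j hx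
        rw [hfs _ j e hx he, he]
        rfl
    rw [h1]
    refine hsh.rel n r v _ (fun k => ?_) ?_
    · rcases hx : c (v k) with _ | j
      · exact Or.inl rfl
      · exact Or.inr ⟨j, trivial, rfl⟩
    · intro k k' j j' hk hk'
      obtain ⟨e, he⟩ := hsome _ j hk
      obtain ⟨e', he'⟩ := hsome _ j' hk'
      simp only [hk, hk', Option.getD_some]
      constructor
      · intro h2
        exact hσ k k' j j' e e' (hfs _ j e hk he) (hfs _ j' e' hk' he') h2
      · intro h2
        rw [h2]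
  · intro x hx
    obtain ⟨s, hs⟩ := hsh.base x hx
    exact ⟨s, hfn x s hs⟩
  · intro x j hx
    obtain ⟨e, he⟩ := hsome x j hx
    exact ⟨e, hfs x j e hx he⟩

section pieces

variable {L : Language.{u, u}} {R I E N J : Type u} [L.Structure (R ⊕ (I × E))] [L.Structure N]
  {c : N → Option J} {Z J₁ : Set J} {h : N → R ⊕ (I × E)}

theorem base_piece (hh : PreLoc L R I E c (Z ∪ J₁) Z h) {j : J} (hj : j ∈ J₁) (hjZ : j ∉ Z)
    {i : I} (hi : ∀ e, ∃ x, c x = some j ∧ h x = Sum.inr (i, e)) {x : N}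
    (hx : c x = none ∨ ∃ j ∈ Z, c x = some j) {i' : I} {e : E} (hxi : h x = Sum.inr (i', e)) :
    i' ≠ i := by
  rintro rfl
  obtain ⟨y, hy, hye⟩ := hi e
  have h1 : x = y := by
    refine hh.inj ?_ (Or.inr ⟨j, Or.inr hj, hy⟩) (hxi.trans hye.symm)
    rcases hx with hx | ⟨j', hj', hx⟩
    · exact Or.inl hx
    · exact Or.inr ⟨j', Or.inl hj', hx⟩
  rw [← h1] at hy
  rcases hx with hx | ⟨j', hj', hx⟩
  · rw [hx] at hy
    cases hy
  · rw [hx] at hy
    rw [Option.some_injective _ hy] at hj'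
    exact hjZ hj'

theorem piece_piece (hh : PreLoc L R I E c (Z ∪ J₁) Z h) {j j' : J} (hj : j ∈ J₁) (hj' : j' ∈ J₁)
    {i : I} (hi : ∀ e, ∃ x, c x = some j ∧ h x = Sum.inr (i, e))
    (hi' : ∀ e, ∃ x, c x = some j' ∧ h x = Sum.inr (i, e)) [Nonempty E] : j = j' := by
  obtain ⟨x, hx, hxe⟩ := hi (Classical.arbitrary E)
  obtain ⟨y, hy, hye⟩ := hi' (Classical.arbitrary E)
  have h1 : x = y := hh.inj (Or.inr ⟨j, Or.inr hj, hx⟩) (Or.inr ⟨j', Or.inr hj', hy⟩)
    (hxe.trans hye.symm)
  rw [h1, hy] at hx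
  exact (Option.some_injective _ hx).symm

end pieces

end GP

end Vale.Agent.P307.Triv
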