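import Vale.Agent.P307.Triv.G3

/-!
Coordinates over a larger base: the proof of part gamma 3.
-/

universe u

open FirstOrder Cardinal Set

namespace Vale.Agent.P307.Triv

open Language.Structure

namespace GP

/-- the structure pulled back along a map -/
@[reducible] def pullStr {L : Language.{u, u}} [L.IsRelational] {A B : Type u} [L.Structure B]
    (θ : A → B) : L.Structure A where
  funMap := fun f _ => isEmptyElim f
  RelMap := fun r v => RelMap r (fun k => θ (v k))

/-- a renaming which is injective on a finite set, with values in an infinite set -/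
theorem exists_inj_on {A B : Type u} (F : Finset A) (Y : Set B) (hY : Y.Infinite) :
    ∃ z : A → B, (∀ a, z a ∈ Y) ∧ ∀ a ∈ F, ∀ a' ∈ F, z a = z a' → a = a' := by
  classical
  have hYi : Infinite Y := hY.to_subtype
  obtain ⟨g⟩ : Nonempty (F ↪ Y) := by
    have h1 : #F ≤ #Y := (lt_aleph0_of_finite _).le.trans (infinite_iff.1 inferInstance)
    exact (Cardinal.le_def _ _).1 h1
  refine ⟨fun a => if h : a ∈ F then (g ⟨a, h⟩ : B) else (Classical.arbitrary Y : Y), ?_, ?_⟩
  · intro a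
    by_cases ha : a ∈ F
    · simp only [dif_pos ha]
      exact (g ⟨a, ha⟩).2
    · simp only [dif_neg ha]
      exact (Classical.arbitrary Y : Y).2
  · intro a ha a' ha' h
    simp only [dif_pos ha, dif_pos ha'] at h
    exact congrArg Subtype.val (g.injective (Subtype.ext h))

section local_map

variable {L : Language.{u, u}} {R I E N J : Type u} [L.Structure (R ⊕ (I × E))] [L.Structure N]
  {c : N → Option J} {Z : Set J}

/-- Comparison of two local maps: the shapes in the new base are read off with `β`. -/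
theorem rel_of_two [Nonempty E] (hS : IxSym L R I E) {J₀ J₁ : Set J} (hJ₀Z : ∀ j ∈ J₀, j ∉ Z)
    (hJ₁Z : ∀ j ∈ J₁, j ∉ Z)
    {h₀ h' : N → R ⊕ (I × E)} (hh₀ : PreLoc L R I E c (Z ∪ J₀) Z h₀)
    (hh' : PreLoc L R I E c (Z ∪ (J₁ ∪ J₀)) Z h')
    {β b : E → E} (hb : ∀ e, β (b e) = e) {Y : Set J} (hY : Y.Infinite) (hYJ : Y ⊆ J₀)
    (hβ : ∀ z ∈ Y, ∀ x i e i' e', c x = some z → h₀ x = Sum.inr (i, e) →
      h' x = Sum.inr (i', e') → e' = β e)
    {σ : I → I} (hσ : Function.Injective σ)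
    (hσ' : ∀ i x i' e, (c x = none ∨ ∃ j ∈ Z, c x = some j) → h₀ x = Sum.inr (i', e) → σ i ≠ i')
    {k : J → I} (hk : Set.InjOn k J₁)
    {w : N → R ⊕ (I × E)}
    (hw : ∀ x, (c x = none ∨ ∃ j ∈ Z, c x = some j) → w x = h₀ x)
    (hw' : ∀ x j i e, c x = some j → j ∈ J₁ → h' x = Sum.inr (i, e) →
      w x = Sum.inr (σ (k j), b e))
    {n : ℕ} (r : L.Relations n) (v : Fin n → N)
    (hv : ∀ m, (c (v m) = none ∨ ∃ j ∈ Z, c (v m) = some j) ∨ ∃ j ∈ J₁, c (v m) = some j) :
    RelMap r (fun m => w (v m)) ↔ RelMap r v := by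
  classical
  -- the pieces of `h₀` and `h'`
  have p₀ : ∀ j ∈ J₀, ∃ i : I, (∀ x, c x = some j → ∃ e, h₀ x = Sum.inr (i, e)) ∧
      ∀ e, ∃ x, c x = some j ∧ h₀ x = Sum.inr (i, e) := fun j hj =>
    hh₀.piece j (Or.inr hj) (hJ₀Z j hj)
  have p' : ∀ j ∈ J₁ ∪ J₀, ∃ i : I, (∀ x, c x = some j → ∃ e, h' x = Sum.inr (i, e)) ∧
      ∀ e, ∃ x, c x = some j ∧ h' x = Sum.inr (i, e) := fun j hj =>
    hh'.piece j (Or.inr hj) (hj.elim (hJ₁Z j) (hJ₀Z j))
  obtain ⟨j₁, hj₁⟩ := hY.nonempty
  obtain ⟨i₁, -⟩ := p₀ j₁ (hYJ hj₁)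
  have hIne : Nonempty I := ⟨i₁⟩
  choose! k₀ hk₀ using p₀
  choose! k' hk' using p'
  -- the indices of the pieces of `v`
  let occ : Finset J := Finset.univ.biUnion fun m => (c (v m)).toFinset
  have hocc : ∀ m j, c (v m) = some j → j ∈ occ := by
    intro m j hj
    refine Finset.mem_biUnion.2 ⟨m, Finset.mem_univ _, ?_⟩
    simp [hj]
  obtain ⟨z, hzY, hzinj⟩ := exists_inj_on occ Y hY
  -- the auxiliary tuple
  have hy : ∀ j (e : E), ∃ x, c x = some (z j) ∧ h₀ x = Sum.inr (k₀ (z j), e) := fun j e =>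
    (hk₀ (z j) (hYJ (hzY j))).2 e
  choose y hyc hyh using hy
  have he' : ∀ m j, c (v m) = some j → j ∈ J₁ → ∃ e, h' (v m) = Sum.inr (k' j, e) := by
    intro m j hm hj
    exact (hk' j (Or.inl hj)).1 _ hm
  let v₁ : Fin n → N := fun m =>
    if hm : ∃ j e, c (v m) = some j ∧ j ∈ J₁ ∧ h' (v m) = Sum.inr (k' j, e) then
      y hm.choose (b hm.choose_spec.choose) else v m
  have hv₁b : ∀ m, (c (v m) = none ∨ ∃ j ∈ Z, c (v m) = some j) → v₁ m = v m := by
    intro m hm
    refine dif_neg ?_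
    rintro ⟨j, e, h1, h2, -⟩
    rcases hm with hm | ⟨j', hj', hm⟩
    · rw [hm] at h1
      cases h1
    · rw [hm] at h1
      rw [Option.some_injective _ h1] at hj'
      exact hJ₁Z j h2 hj'
  have hv₁p : ∀ m j e, c (v m) = some j → j ∈ J₁ → h' (v m) = Sum.inr (k' j, e) →
      v₁ m = y j (b e) := by
    intro m j e h1 h2 h3
    have hm : ∃ j e, c (v m) = some j ∧ j ∈ J₁ ∧ h' (v m) = Sum.inr (k' j, e) := ⟨j, e, h1, h2, h3⟩
    have h4 : v₁ m = y hm.choose (b hm.choose_spec.choose) := dif_pos hm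
    obtain ⟨g1, g2, g3⟩ := hm.choose_spec.choose_spec
    have g4 : hm.choose = j := Option.some_injective _ (g1.symm.trans h1)
    have g5 : hm.choose_spec.choose = e := by
      have := Sum.inr_injective (g3.symm.trans h3)
      exact congrArg Prod.snd this
    rw [h4, g5, g4]
  -- cases
  have hcase : ∀ m, ((c (v m) = none ∨ ∃ j ∈ Z, c (v m) = some j) ∧ v₁ m = v m ∧
      w (v m) = h₀ (v m)) ∨ ∃ j e, c (v m) = some j ∧ j ∈ J₁ ∧ h' (v m) = Sum.inr (k' j, e) ∧
        v₁ m = y j (b e) ∧ w (v m) = Sum.inr (σ (k j), b e) ∧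
        h₀ (v₁ m) = Sum.inr (k₀ (z j), b e) ∧ h' (v₁ m) = Sum.inr (k' (z j), e) := by
    intro m
    rcases hv m with hm | ⟨j, hj, hm⟩
    · exact Or.inl ⟨hm, hv₁b m hm, hw _ hm⟩
    · obtain ⟨e, he⟩ := he' m j hm hj
      have h1 := hv₁p m j e hm hj he
      have h2 := hyh j (b e)
      have h3 := hyc j (b e)
      obtain ⟨e₁, he₁⟩ := (hk' (z j) (Or.inr (hYJ (hzY j)))).1 _ h3
      have h4 := hβ (z j) (hzY j) _ _ _ _ _ h3 h2 he₁
      rw [hb] at h4
      refine Or.inr ⟨j, e, hm, hj, he, h1, hw' _ j _ e hm hj he, ?_, ?_⟩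
      · rw [h1, h2]
      · rw [h1, he₁, h4]
  have hne₀ : ∀ x i e j, (c x = none ∨ ∃ j ∈ Z, c x = some j) → h₀ x = Sum.inr (i, e) →
      j ∈ J₀ → i ≠ k₀ j := fun x i e j hx hi hj =>
    base_piece hh₀ hj (hJ₀Z j hj) (hk₀ j hj).2 hx hi
  have hne' : ∀ x i e j, (c x = none ∨ ∃ j ∈ Z, c x = some j) → h' x = Sum.inr (i, e) →
      j ∈ J₁ ∪ J₀ → i ≠ k' j := fun x i e j hx hi hj =>
    base_piece hh' hj (hj.elim (hJ₁Z j) (hJ₀Z j)) (hk' j hj).2 hx hi
  have hinj₀ : ∀ j ∈ J₀, ∀ j' ∈ J₀, k₀ j = k₀ j' → j = j' := by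
    intro j hj j' hj' h
    refine piece_piece hh₀ hj hj' (hk₀ j hj).2 ?_
    rw [h]
    exact (hk₀ j' hj').2
  have hinj' : ∀ j ∈ J₁ ∪ J₀, ∀ j' ∈ J₁ ∪ J₀, k' j = k' j' → j = j' := by
    intro j hj j' hj' h
    refine piece_piece hh' hj hj' (hk' j hj).2 ?_
    rw [h]
    exact (hk' j' hj').2
  -- step 1
  have s1 : RelMap r (fun m => w (v m)) ↔ RelMap r (fun m => h₀ (v₁ m)) := by
    refine two' hS r _ _ (fun m => ?_) ?_
    · rcases hcase m with ⟨-, h1, h2⟩ | ⟨j, e, -, -, -, -, h2, h3, -⟩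
      · rw [h1, h2]
      · rw [h2, h3]
        rfl
    · intro m m' i i' e e' j j' f f' g1 g2 g3 g4
      rcases hcase m with ⟨hm, h1, h2⟩ | ⟨a, f₁, hm, ha, -, -, h2, h3, -⟩
      · rw [h2] at g1
        rw [h1, g1] at g3
        have hij : i = j := congrArg Prod.fst (Sum.inr_injective g3)
        rcases hcase m' with ⟨hm', h1', h2'⟩ | ⟨a', f₁', hm', ha', -, -, h2', h3', -⟩
        · rw [h2'] at g2
          rw [h1', g2] at g4
          have hij' : i' = j' := congrArg Prod.fst (Sum.inr_injective g4)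
          rw [hij, hij']
        · have e1 : σ (k a') = i' := congrArg Prod.fst (Sum.inr_injective (h2'.symm.trans g2))
          have e2 : k₀ (z a') = j' := congrArg Prod.fst (Sum.inr_injective (h3'.symm.trans g4))
          rw [← e1, ← e2, ← hij]
          constructor
          · intro h
            exact absurd h.symm (hσ' _ _ _ _ hm g1)
          · intro h
            exact absurd h (hne₀ _ _ _ _ hm g1 (hYJ (hzY a')))
      · have e1 : σ (k a) = i := congrArg Prod.fst (Sum.inr_injective (h2.symm.trans g1))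
        have e2 : k₀ (z a) = j := congrArg Prod.fst (Sum.inr_injective (h3.symm.trans g3))
        rcases hcase m' with ⟨hm', h1', h2'⟩ | ⟨a', f₁', hm', ha', -, -, h2', h3', -⟩
        · rw [h2'] at g2
          rw [h1', g2] at g4
          have hij' : i' = j' := congrArg Prod.fst (Sum.inr_injective g4)
          rw [← e1, ← e2, ← hij']
          constructor
          · intro h
            exact absurd h (hσ' _ _ _ _ hm' g2)
          · intro h
            exact absurd h.symm (hne₀ _ _ _ _ hm' g2 (hYJ (hzY a)))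
        · have e1' : σ (k a') = i' := congrArg Prod.fst (Sum.inr_injective (h2'.symm.trans g2))
          have e2' : k₀ (z a') = j' := congrArg Prod.fst (Sum.inr_injective (h3'.symm.trans g4))
          rw [← e1, ← e2, ← e1', ← e2']
          constructor
          · intro h
            rw [hk ha ha' (hσ h)]
          · intro h
            rw [hzinj a (hocc _ _ hm) a' (hocc _ _ hm')
              (hinj₀ _ (hYJ (hzY a)) _ (hYJ (hzY a')) h)]
  -- step 2, 3
  have hv₁d₀ : ∀ m, v₁ m ∈ dom c (Z ∪ J₀) := by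
    intro m
    rcases hcase m with ⟨hm, h1, -⟩ | ⟨j, e, -, -, -, h1, -, -, -⟩
    · rw [h1]
      rcases hm with hm | ⟨j, hj, hm⟩
      · exact Or.inl hm
      · exact Or.inr ⟨j, Or.inl hj, hm⟩
    · rw [h1]
      exact Or.inr ⟨z j, Or.inr (hYJ (hzY j)), hyc j (b e)⟩
  have hv₁d' : ∀ m, v₁ m ∈ dom c (Z ∪ (J₁ ∪ J₀)) := by
    intro m
    rcases hv₁d₀ m with hm | ⟨j, hj, hm⟩
    · exact Or.inl hm
    · exact Or.inr ⟨j, hj.elim Or.inl (fun h => Or.inr (Or.inr h)), hm⟩
  have hvd' : ∀ m, v m ∈ dom c (Z ∪ (J₁ ∪ J₀)) := by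
    intro m
    rcases hv m with (hm | ⟨j, hj, hm⟩) | ⟨j, hj, hm⟩
    · exact Or.inl hm
    · exact Or.inr ⟨j, Or.inl hj, hm⟩
    · exact Or.inr ⟨j, Or.inr (Or.inl hj), hm⟩
  have s2 := hh₀.rel n r v₁ hv₁d₀
  have s3 := hh'.rel n r v₁ hv₁d'
  have s5 := hh'.rel n r v hvd'
  -- step 4
  have s4 : RelMap r (fun m => h' (v₁ m)) ↔ RelMap r (fun m => h' (v m)) := by
    refine two' hS r _ _ (fun m => ?_) ?_
    · rcases hcase m with ⟨-, h1, -⟩ | ⟨j, e, -, -, h2, -, -, -, h3⟩
      · rw [h1]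
      · rw [h2, h3]
        rfl
    · intro m m' i i' e e' j j' f f' g1 g2 g3 g4
      rcases hcase m with ⟨hm, h1, -⟩ | ⟨a, f₁, hm, ha, h2, -, -, -, h3⟩
      · rw [h1] at g1
        have hij : i = j := congrArg Prod.fst (Sum.inr_injective (g1.symm.trans g3))
        rcases hcase m' with ⟨hm', h1', -⟩ | ⟨a', f₁', hm', ha', h2', -, -, -, h3'⟩
        · rw [h1'] at g2
          have hij' : i' = j' := congrArg Prod.fst (Sum.inr_injective (g2.symm.trans g4))
          rw [hij, hij']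
        · have e1 : k' (z a') = i' := congrArg Prod.fst (Sum.inr_injective (h3'.symm.trans g2))
          have e2 : k' a' = j' := congrArg Prod.fst (Sum.inr_injective (h2'.symm.trans g4))
          rw [← e1, ← e2, ← hij]
          constructor
          · intro h
            exact absurd h (hne' _ _ _ _ hm g1 (Or.inr (hYJ (hzY a'))))
          · intro h
            exact absurd h (hne' _ _ _ _ hm g1 (Or.inl ha'))
      · have e1 : k' (z a) = i := congrArg Prod.fst (Sum.inr_injective (h3.symm.trans g1))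
        have e2 : k' a = j := congrArg Prod.fst (Sum.inr_injective (h2.symm.trans g3))
        rcases hcase m' with ⟨hm', h1', -⟩ | ⟨a', f₁', hm', ha', h2', -, -, -, h3'⟩
        · rw [h1'] at g2
          have hij' : i' = j' := congrArg Prod.fst (Sum.inr_injective (g2.symm.trans g4))
          rw [← e1, ← e2, ← hij']
          constructor
          · intro h
            exact absurd h.symm (hne' _ _ _ _ hm' g2 (Or.inr (hYJ (hzY a))))
          · intro h
            exact absurd h.symm (hne' _ _ _ _ hm' g2 (Or.inl ha))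
        · have e1' : k' (z a') = i' := congrArg Prod.fst (Sum.inr_injective (h3'.symm.trans g2))
          have e2' : k' a' = j' := congrArg Prod.fst (Sum.inr_injective (h2'.symm.trans g4))
          rw [← e1, ← e2, ← e1', ← e2']
          constructor
          · intro h
            rw [hzinj a (hocc _ _ hm) a' (hocc _ _ hm')
              (hinj' _ (Or.inr (hYJ (hzY a))) _ (Or.inr (hYJ (hzY a'))) h)]
          · intro h
            rw [hinj' _ (Or.inl ha) _ (Or.inl ha') h]
  exact s1.trans (s2.trans (s3.symm.trans (s4.trans s5)))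

end local_map

end GP

end Vale.Agent.P307.Triv
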