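import Vale.Agent.P307.Triv.G3b

/-!
Part gamma 3.
-/

universe u

open FirstOrder Cardinal Set

namespace Vale.Agent.P307.Triv

open Language.Structure

namespace GP

section prep

variable {N J : Type u}

/-- the points of the base -/
def bz (c : N → Option J) (Z : Set J) : Set N := {x | c x = none ∨ ∃ j ∈ Z, c x = some j}

theorem mk_bz_le {l : Cardinal.{u}} (hl : ℵ₀ ≤ l) {c : N → Option J} {Z : Set J}
    (hc0 : #{x | c x = none} ≤ l) (hcj : ∀ j, #{x | c x = some j} ≤ 2 ^ l) (hZ : #Z ≤ l) :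
    #(bz c Z) ≤ 2 ^ l := by
  have hχ : ℵ₀ ≤ (2 : Cardinal.{u}) ^ l := hl.trans (cantor l).le
  have h1 : bz c Z ⊆ {x | c x = none} ∪ ⋃ j : Z, {x | c x = some j.1} := by
    rintro x (hx | ⟨j, hj, hx⟩)
    · exact Or.inl hx
    · exact Or.inr (mem_iUnion.2 ⟨⟨j, hj⟩, hx⟩)
  have h2 : #(⋃ j : Z, {x | c x = some j.1}) ≤ 2 ^ l := by
    refine (mk_iUnion_le _).trans ?_
    have h3 : (⨆ j : Z, #{x | c x = some j.1}) ≤ 2 ^ l := ciSup_le' fun j => hcj j.1
    exact (mul_le_mul' (hZ.trans (cantor l).le) h3).trans (mul_eq_self hχ).le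
  exact (mk_le_mk_of_subset h1).trans ((mk_union_le _ _).trans
    (add_le_of_le hχ (hc0.trans (cantor l).le) h2))

open Classical in
/-- the new pieces -/
noncomputable def cz (c : N → Option J) (Z : Set J) (x : N) : Option (Zᶜ : Set J) :=
  (c x).bind fun j => if h : j ∈ Z then none else some ⟨j, h⟩

theorem cz_some (c : N → Option J) (Z : Set J) (x : N) (j : (Zᶜ : Set J)) :
    cz c Z x = some j ↔ c x = some j.1 := by
  classical
  rcases hx : c x with _ | a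
  · simp [cz, hx]
  · by_cases ha : a ∈ Z
    · simp only [cz, hx, Option.bind_some, dif_pos ha]
      constructor
      · intro h
        cases h
      · intro h
        exact absurd ha (by rw [Option.some_injective _ h]; exact j.2)
    · simp only [cz, hx, Option.bind_some, dif_neg ha]
      constructor
      · intro h
        rw [← Option.some_injective _ h]
      · intro h
        exact congrArg some (Subtype.ext (Option.some_injective _ h))

theorem cz_none (c : N → Option J) (Z : Set J) (x : N) : cz c Z x = none ↔ x ∈ bz c Z := by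
  classical
  rcases hx : c x with _ | a
  · constructor
    · intro _
      exact Or.inl hx
    · intro _
      simp [cz, hx]
  · by_cases ha : a ∈ Z
    · constructor
      · intro _
        exact Or.inr ⟨a, ha, hx⟩
      · intro _
        simp only [cz, hx, Option.bind_some, dif_pos ha]
    · constructor
      · intro h
        have h1 := (cz_some c Z x ⟨a, ha⟩).2 hx
        rw [h] at h1
        cases h1
      · rintro (h | ⟨j, hj, h⟩)
        · rw [hx] at h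
          cases h
        · rw [hx] at h
          rw [Option.some_injective _ h] at ha
          exact absurd hj ha

theorem mk_compl_ge {l : Cardinal.{u}} (hl : ℵ₀ ≤ l) {Z : Set J} (hZ : #Z ≤ l)
    (hJ : Order.succ (2 ^ l) ≤ #J) : Order.succ ((2 : Cardinal.{u}) ^ l) ≤ #(Zᶜ : Set J) := by
  have hχ : ℵ₀ ≤ (2 : Cardinal.{u}) ^ l := hl.trans (cantor l).le
  by_contra hcon
  rw [not_le] at hcon
  have h1 : #J ≤ 2 ^ l := by
    rw [← mk_sum_compl Z]
    exact add_le_of_le hχ (hZ.trans (cantor l).le) (Order.lt_succ_iff.1 hcon)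
  exact absurd (Order.succ_le_iff.1 (hJ.trans h1)) (lt_irrefl _)

end prep

section new_str

variable {L : Language.{u, u}} {R I E N J : Type u} [L.Structure (R ⊕ (I × E))] [L.Structure N]
  {c : N → Option J} {Z : Set J}

/-- a renaming which avoids the indices of the base -/
theorem exists_sigma {h₀ : N → R ⊕ (I × E)} (hI : #(bz c Z) < #I) [Infinite I] :
    ∃ σ : I → I, Function.Injective σ ∧ ∀ i x i' e, x ∈ bz c Z → h₀ x = Sum.inr (i', e) →
      σ i ≠ i' := by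
  let I₀ : Set I := {i | ∃ x ∈ bz c Z, ∃ e, h₀ x = Sum.inr (i, e)}
  have hI₀ : #I₀ ≤ #(bz c Z) := by
    refine mk_le_of_injective (f := fun i : I₀ => (⟨i.2.choose, i.2.choose_spec.1⟩ : bz c Z)) ?_
    intro i i' h
    have h1 : i.2.choose = i'.2.choose := congrArg Subtype.val h
    obtain ⟨e, he⟩ := i.2.choose_spec.2
    obtain ⟨e', he'⟩ := i'.2.choose_spec.2
    rw [h1] at he
    exact Subtype.ext (congrArg Prod.fst (Sum.inr_injective (he.symm.trans he')))
  obtain ⟨σe⟩ : Nonempty (I ≃ (I₀ᶜ : Set I)) := Cardinal.eq.1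
    (mk_compl_of_infinite I₀ (hI₀.trans_lt hI)).symm
  refine ⟨fun i => (σe i).1, fun i i' h => σe.injective (Subtype.ext h), ?_⟩
  intro i x i' e hx hxi h
  exact (σe i).2 ⟨x, hx, e, by rw [hxi, ← h]⟩

/-- the map of the new symmetric structure into the old one -/
def theta (c : N → Option J) (Z : Set J) (h₀ : N → R ⊕ (I × E)) (σ : I → I) :
    (bz c Z) ⊕ (I × E) → R ⊕ (I × E) :=
  Sum.elim (fun x => h₀ x.1) (fun p => Sum.inr (σ p.1, p.2))

theorem ixSym_pull [L.IsRelational] [Nonempty E] (hS : IxSym L R I E) {h₀ : N → R ⊕ (I × E)}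
    {σ : I → I} (hσ : Function.Injective σ)
    (hσ' : ∀ i x i' e, x ∈ bz c Z → h₀ x = Sum.inr (i', e) → σ i ≠ i') :
    letI := pullStr (L := L) (theta c Z h₀ σ)
    IxSym L (bz c Z) I E := by
  letI := pullStr (L := L) (theta c Z h₀ σ)
  intro n r v τ hτ
  change RelMap r (fun k => theta c Z h₀ σ (mv τ (v k))) ↔
    RelMap r (fun k => theta c Z h₀ σ (v k))
  refine two' hS r _ _ (fun k => ?_) ?_
  · rcases v k with x | ⟨i, e⟩ <;> rfl
  · intro k k' i i' e e' j j' f f' g1 g2 g3 g4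
    rcases hk : v k with x | ⟨a, e₁⟩
    · rw [hk] at g1 g3
      have g1' : h₀ x.1 = Sum.inr (i, e) := g1
      have g3' : h₀ x.1 = Sum.inr (j, f) := g3
      have hij : i = j := congrArg Prod.fst (Sum.inr_injective (g1'.symm.trans g3'))
      rcases hk' : v k' with x' | ⟨a', e₁'⟩
      · rw [hk'] at g2 g4
        have g2' : h₀ x'.1 = Sum.inr (i', e') := g2
        have g4' : h₀ x'.1 = Sum.inr (j', f') := g4
        have hij' : i' = j' := congrArg Prod.fst (Sum.inr_injective (g2'.symm.trans g4'))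
        rw [hij, hij']
      · rw [hk'] at g2 g4
        have e1 : σ (τ a') = i' := congrArg Prod.fst (Sum.inr_injective g2)
        have e2 : σ a' = j' := congrArg Prod.fst (Sum.inr_injective g4)
        rw [← e1, ← e2, ← hij]
        constructor
        · intro h
          exact absurd h.symm (hσ' _ _ _ _ x.2 g1')
        · intro h
          exact absurd h.symm (hσ' _ _ _ _ x.2 g1')
    · rw [hk] at g1 g3
      have e1 : σ (τ a) = i := congrArg Prod.fst (Sum.inr_injective g1)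
      have e2 : σ a = j := congrArg Prod.fst (Sum.inr_injective g3)
      rcases hk' : v k' with x' | ⟨a', e₁'⟩
      · rw [hk'] at g2 g4
        have g2' : h₀ x'.1 = Sum.inr (i', e') := g2
        have g4' : h₀ x'.1 = Sum.inr (j', f') := g4
        have hij' : i' = j' := congrArg Prod.fst (Sum.inr_injective (g2'.symm.trans g4'))
        rw [← e1, ← e2, ← hij']
        constructor
        · intro h
          exact absurd h (hσ' _ _ _ _ x'.2 g2')
        · intro h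
          exact absurd h (hσ' _ _ _ _ x'.2 g2')
      · rw [hk'] at g2 g4
        have e1' : σ (τ a') = i' := congrArg Prod.fst (Sum.inr_injective g2)
        have e2' : σ a' = j' := congrArg Prod.fst (Sum.inr_injective g4)
        rw [← e1, ← e2, ← e1', ← e2']
        constructor
        · intro h
          rw [hτ k k' a a' e₁ e₁' hk hk' (hσ h)]
        · intro h
          rw [hσ h]

/-- The comparison of two local maps is constant on infinitely many pieces. -/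
theorem exists_beta [Nonempty E] {l : Cardinal.{u}} (hl : ℵ₀ ≤ l) (hE : #E ≤ l) {J₀ J₁ : Set J}
    (hJ₀Z : ∀ j ∈ J₀, j ∉ Z) (hJ₁Z : ∀ j ∈ J₁, j ∉ Z) (hJ₀ : #J₀ = Order.succ (2 ^ l))
    {h₀ h' : N → R ⊕ (I × E)} (hh₀ : PreLoc L R I E c (Z ∪ J₀) Z h₀)
    (hh' : PreLoc L R I E c (Z ∪ (J₁ ∪ J₀)) Z h') :
    ∃ β b : E → E, (∀ e, β (b e) = e) ∧ (∀ e, b (β e) = e) ∧ ∃ Y : Set J, Y.Infinite ∧ Y ⊆ J₀ ∧
      ∀ z ∈ Y, ∀ x i e i' e', c x = some z → h₀ x = Sum.inr (i, e) →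
        h' x = Sum.inr (i', e') → e' = β e := by
  have hχ : ℵ₀ ≤ (2 : Cardinal.{u}) ^ l := hl.trans (cantor l).le
  have p₀ : ∀ j ∈ J₀, ∃ i : I, (∀ x, c x = some j → ∃ e, h₀ x = Sum.inr (i, e)) ∧
      ∀ e, ∃ x, c x = some j ∧ h₀ x = Sum.inr (i, e) := fun j hj =>
    hh₀.piece j (Or.inr hj) (hJ₀Z j hj)
  have p' : ∀ j ∈ J₁ ∪ J₀, ∃ i : I, (∀ x, c x = some j → ∃ e, h' x = Sum.inr (i, e)) ∧
      ∀ e, ∃ x, c x = some j ∧ h' x = Sum.inr (i, e) := fun j hj =>
    hh'.piece j (Or.inr hj) (hj.elim (hJ₁Z j) (hJ₀Z j))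
  have hα : ∀ j : J₀, ∀ e, ∃ e', ∃ x i i', c x = some j.1 ∧ h₀ x = Sum.inr (i, e) ∧
      h' x = Sum.inr (i', e') := by
    intro j e
    obtain ⟨i, -, h2⟩ := p₀ j.1 j.2
    obtain ⟨i', h1', -⟩ := p' j.1 (Or.inr j.2)
    obtain ⟨x, hx, hxe⟩ := h2 e
    obtain ⟨e', he'⟩ := h1' x hx
    exact ⟨e', x, i, i', hx, hxe, he'⟩
  choose α hα using hα
  have hdom₀ : ∀ j ∈ J₀, ∀ x, c x = some j → x ∈ dom c (Z ∪ J₀) := fun j hj x hx =>
    Or.inr ⟨j, Or.inr hj, hx⟩
  have hdom' : ∀ j ∈ J₁ ∪ J₀, ∀ x, c x = some j → x ∈ dom c (Z ∪ (J₁ ∪ J₀)) := fun j hj x hx =>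
    Or.inr ⟨j, Or.inr hj, hx⟩
  have hαu : ∀ (j : J₀) x i e i' e', c x = some j.1 → h₀ x = Sum.inr (i, e) →
      h' x = Sum.inr (i', e') → e' = α j e := by
    intro j x i e i' e' hx h1 h2
    obtain ⟨y, a, a', hy, h3, h4⟩ := hα j e
    obtain ⟨i₁, g1, -⟩ := p₀ j.1 j.2
    obtain ⟨ex, hex⟩ := g1 x hx
    obtain ⟨ey, hey⟩ := g1 y hy
    have h5 : i = i₁ := congrArg Prod.fst (Sum.inr_injective (h1.symm.trans hex))
    have h6 : a = i₁ := congrArg Prod.fst (Sum.inr_injective (h3.symm.trans hey))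
    have h7 : x = y := by
      refine hh₀.inj (hdom₀ _ j.2 x hx) (hdom₀ _ j.2 y hy) ?_
      rw [h1, h3, h5, h6]
    rw [← h7, h2] at h4
    exact congrArg Prod.snd (Sum.inr_injective h4)
  have hαi : ∀ (j : J₀), Function.Injective (α j) := by
    intro j e₁ e₂ h
    obtain ⟨y₁, a₁, a₁', hy₁, h3₁, h4₁⟩ := hα j e₁
    obtain ⟨y₂, a₂, a₂', hy₂, h3₂, h4₂⟩ := hα j e₂
    obtain ⟨i', g1, -⟩ := p' j.1 (Or.inr j.2)
    obtain ⟨f₁, hf₁⟩ := g1 y₁ hy₁
    obtain ⟨f₂, hf₂⟩ := g1 y₂ hy₂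
    have h5 : a₁' = i' := congrArg Prod.fst (Sum.inr_injective (h4₁.symm.trans hf₁))
    have h6 : a₂' = i' := congrArg Prod.fst (Sum.inr_injective (h4₂.symm.trans hf₂))
    have h7 : y₁ = y₂ := by
      refine hh'.inj (hdom' _ (Or.inr j.2) y₁ hy₁) (hdom' _ (Or.inr j.2) y₂ hy₂) ?_
      rw [h4₁, h4₂, h5, h6, h]
    rw [h7] at h3₁
    exact congrArg Prod.snd (Sum.inr_injective (h3₁.symm.trans h3₂))
  have hαs : ∀ (j : J₀), Function.Surjective (α j) := by
    intro j e'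
    obtain ⟨i', -, g2⟩ := p' j.1 (Or.inr j.2)
    obtain ⟨x, hx, hxe⟩ := g2 e'
    obtain ⟨i, g1, -⟩ := p₀ j.1 j.2
    obtain ⟨e, he⟩ := g1 x hx
    exact ⟨e, (hαu j x i e i' e' hx he hxe).symm⟩
  have hEE : #(E → E) ≤ 2 ^ l := by
    have h1 : #(E → E) = #E ^ #E := (power_def _ _).symm
    rw [h1, ← power_self_eq hl]
    exact (power_le_power_left (mk_ne_zero E) hE).trans (power_le_power_right hE)
  have hJ₀inf : Infinite J₀ := infinite_iff.2 (by
    rw [hJ₀]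
    exact hχ.trans (Order.le_succ _))
  obtain ⟨β, hβinf⟩ := Cardinal.exists_infinite_fiber α (by
    rw [hJ₀]
    exact hEE.trans_lt (Order.lt_succ _))
  obtain ⟨jβ, hjβ⟩ : ∃ j : J₀, α j = β := by
    obtain ⟨⟨j, hj⟩⟩ : Nonempty (α ⁻¹' {β}) := inferInstance
    exact ⟨j, hj⟩
  have hβi : Function.Injective β := by
    rw [← hjβ]
    exact hαi jβ
  have hβs : Function.Surjective β := by
    rw [← hjβ]
    exact hαs jβ
  choose b hb using hβs
  refine ⟨β, b, hb, fun e => hβi (hb (β e)), Subtype.val '' (α ⁻¹' {β}), ?_, ?_, ?_⟩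
  · exact (Set.infinite_coe_iff.1 hβinf).image Subtype.val_injective.injOn
  · rintro _ ⟨j, -, rfl⟩
    exact j.2
  · rintro _ ⟨j, hj, rfl⟩ x i e i' e' hx h1 h2
    rw [← (show α j = β from hj)]
    exact hαu j x i e i' e' hx h1 h2

/-- The local maps into the new structure. -/
theorem exists_loc [L.IsRelational] [Nonempty E] {l : Cardinal.{u}} (hl : ℵ₀ ≤ l) (hE : #E ≤ l)
    (hS : IxSym L R I E) {J₀ : Set J} (hJ₀Z : ∀ j ∈ J₀, j ∉ Z) (hJ₀ : #J₀ = Order.succ (2 ^ l))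
    {h₀ : N → R ⊕ (I × E)} (hh₀ : PreLoc L R I E c (Z ∪ J₀) Z h₀)
    {σ : I → I} (hσ : Function.Injective σ)
    (hσ' : ∀ i x i' e, x ∈ bz c Z → h₀ x = Sum.inr (i', e) → σ i ≠ i')
    (J₁' : Set (Zᶜ : Set J)) (hJ₁' : #J₁' ≤ #I) [Nonempty I]
    {h' : N → R ⊕ (I × E)}
    (hh' : PreLoc L R I E c (Z ∪ (Subtype.val '' J₁' ∪ J₀)) Z h') :
    letI := pullStr (L := L) (theta c Z h₀ σ)
    ∃ w, Loc L (bz c Z) I E (cz c Z) J₁' w := by
  classical
  letI := pullStr (L := L) (theta c Z h₀ σ)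
  let J₁ : Set J := Subtype.val '' J₁'
  have hJ₁Z : ∀ j ∈ J₁, j ∉ Z := by
    rintro _ ⟨j, -, rfl⟩
    exact j.2
  obtain ⟨β, b, hb, hβb, Y, hY, hYJ, hβY⟩ := exists_beta hl hE hJ₀Z hJ₁Z hJ₀ hh₀ hh'
  have p' : ∀ j ∈ J₁, ∃ i : I, (∀ x, c x = some j → ∃ e, h' x = Sum.inr (i, e)) ∧
      ∀ e, ∃ x, c x = some j ∧ h' x = Sum.inr (i, e) := fun j hj =>
    hh'.piece j (Or.inr (Or.inl hj)) (hJ₁Z j hj)
  have hdom' : ∀ j ∈ J₁, ∀ x, c x = some j → x ∈ dom c (Z ∪ (J₁ ∪ J₀)) := fun j hj x hx =>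
    Or.inr ⟨j, Or.inr (Or.inl hj), hx⟩
  obtain ⟨ke⟩ : Nonempty (J₁ ↪ I) := (Cardinal.le_def _ _).1 (mk_image_le.trans hJ₁')
  let k : J → I := fun j => if hj : j ∈ J₁ then ke ⟨j, hj⟩ else Classical.arbitrary I
  have hk : Set.InjOn k J₁ := by
    intro j hj j' hj' h
    simp only [k, dif_pos hj, dif_pos hj'] at h
    exact congrArg Subtype.val (ke.injective h)
  let w : N → (bz c Z) ⊕ (I × E) := fun x =>
    if hx : x ∈ bz c Z then Sum.inl ⟨x, hx⟩ else
      Sum.inr (Sum.elim (fun _ => Classical.arbitrary I) k (Option.elim (c x) (Sum.inl ()) Sum.inr),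
        b (Sum.elim (fun _ => Classical.arbitrary E) Prod.snd (h' x)))
  have hwb : ∀ x (hx : x ∈ bz c Z), w x = Sum.inl ⟨x, hx⟩ := fun x hx => dif_pos hx
  have hwp : ∀ x j i e, c x = some j → j ∈ J₁ → h' x = Sum.inr (i, e) →
      w x = Sum.inr (k j, b e) := by
    intro x j i e hx hj hxe
    have h1 : x ∉ bz c Z := by
      rintro (h | ⟨j', hj', h⟩)
      · rw [hx] at h
        cases h
      · rw [hx] at h
        rw [← Option.some_injective _ h] at hj'
        exact hJ₁Z j hj hj'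
    have h2 : w x = Sum.inr
      (Sum.elim (fun _ => Classical.arbitrary I) k (Option.elim (c x) (Sum.inl ()) Sum.inr),
        b (Sum.elim (fun _ => Classical.arbitrary E) Prod.snd (h' x))) := dif_neg h1
    rw [h2, hx, hxe]
    rfl
  refine ⟨w, ?_, ?_, ?_, ?_, ?_⟩
  · intro n r v hv
    change RelMap r (fun k => theta c Z h₀ σ (w (v k))) ↔ _
    refine rel_of_two hS hJ₀Z hJ₁Z hh₀ hh' hb hY hYJ hβY hσ hσ' hk
      (w := fun x => theta c Z h₀ σ (w x)) ?_ ?_ r v ?_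
    · intro x hx
      change theta c Z h₀ σ (w x) = h₀ x
      rw [hwb x hx]
      rfl
    · intro x j i e hx hj hxe
      change theta c Z h₀ σ (w x) = _
      rw [hwp x j i e hx hj hxe]
      rfl
    · intro m
      rcases hv m with hm | ⟨j, hj, hm⟩
      · exact Or.inl ((cz_none _ _ _).1 hm)
      · exact Or.inr ⟨j.1, ⟨j, hj, rfl⟩, (cz_some _ _ _ j).1 hm⟩
  · intro x hx
    exact ⟨_, hwb x ((cz_none _ _ x).1 hx)⟩
  · intro x y hx hy hxy
    rw [hwb x ((cz_none _ _ x).1 hx), hwb y ((cz_none _ _ y).1 hy)] at hxy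
    exact congrArg Subtype.val (Sum.inl_injective hxy)
  · intro s
    exact ⟨s.1, (cz_none _ _ _).2 s.2, hwb _ s.2⟩
  · refine ⟨fun j => k j.1, ?_, ?_⟩
    · intro j hj j' hj' h
      exact Subtype.ext (hk ⟨j, hj, rfl⟩ ⟨j', hj', rfl⟩ h)
    · intro j hj
      have hj1 : j.1 ∈ J₁ := ⟨j, hj, rfl⟩
      obtain ⟨i', g1, g2⟩ := p' j.1 hj1
      refine ⟨?_, ?_, ?_⟩
      · intro x hx
        obtain ⟨e, he⟩ := g1 x ((cz_some _ _ x j).1 hx)
        exact ⟨b e, hwp x j.1 i' e ((cz_some _ _ x j).1 hx) hj1 he⟩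
      · intro x y hx hy hxy
        obtain ⟨e, he⟩ := g1 x ((cz_some _ _ x j).1 hx)
        obtain ⟨e', he'⟩ := g1 y ((cz_some _ _ y j).1 hy)
        rw [hwp x j.1 i' e ((cz_some _ _ x j).1 hx) hj1 he,
          hwp y j.1 i' e' ((cz_some _ _ y j).1 hy) hj1 he'] at hxy
        have h1 : b e = b e' := congrArg Prod.snd (Sum.inr_injective hxy)
        have h2 : e = e' := by rw [← hb e, ← hb e', h1]
        refine hh'.inj (hdom' _ hj1 x ((cz_some _ _ x j).1 hx))
          (hdom' _ hj1 y ((cz_some _ _ y j).1 hy)) ?_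
        rw [he, he', h2]
      · intro e
        obtain ⟨x, hx, hxe⟩ := g2 (β e)
        refine ⟨x, (cz_some _ _ x j).2 hx, ?_⟩
        rw [hwp x j.1 i' (β e) hx hj1 hxe, hβb]

end new_str

end GP

open GP in
theorem specG3 : SpecG3.{u} := by
  intro L _ R I E N J _ _ l c Z hl hS hR hE hE0 hI hJ hc0 hcj hZ hloc
  have hχ : ℵ₀ ≤ (2 : Cardinal.{u}) ^ l := hl.trans (cantor l).le
  have hlam : ℵ₀ ≤ Order.succ ((2 : Cardinal.{u}) ^ l) := hχ.trans (Order.le_succ _)
  have hIinf : Infinite I := infinite_iff.2 (hlam.trans hI.le)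
  have hBZ := mk_bz_le hl hc0 hcj hZ
  have hJ' := mk_compl_ge hl hZ hJ
  obtain ⟨J₀', hJ₀'⟩ := le_mk_iff_exists_set.1 hJ'
  have hJ₀ : #(Subtype.val '' J₀' : Set J) = Order.succ ((2 : Cardinal.{u}) ^ l) := by
    rw [← hJ₀']
    exact mk_image_eq Subtype.val_injective
  have hJ₀Z : ∀ j ∈ (Subtype.val '' J₀' : Set J), j ∉ Z := by
    rintro _ ⟨j, -, rfl⟩
    exact j.2
  obtain ⟨h₀, hh₀⟩ := hloc _ hJ₀.le
  obtain ⟨σ, hσ, hσ'⟩ := exists_sigma (c := c) (Z := Z) (h₀ := h₀)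
    (hBZ.trans_lt ((Order.lt_succ _).trans hI))
  letI strM : L.Structure ((bz c Z) ⊕ (I × E)) := pullStr (L := L) (theta c Z h₀ σ)
  have hIx : IxSym L (bz c Z) I E := ixSym_pull hS hσ hσ'
  have hLoc : ∀ J₁' : Set (Zᶜ : Set J), #J₁' ≤ Order.succ (2 ^ l) →
      ∃ h, Loc L (bz c Z) I E (cz c Z) J₁' h := by
    intro J₁' hJ₁'
    obtain ⟨h', hh'⟩ := hloc (Subtype.val '' J₁' ∪ Subtype.val '' J₀')
      ((mk_union_le _ _).trans (add_le_of_le hlam (mk_image_le.trans hJ₁') hJ₀.le))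
    exact exists_loc hl hE hS hJ₀Z hJ₀ hh₀ hσ hσ' J₁' (hJ₁'.trans hI.le) hh'
  obtain ⟨ζ, h1, h2, h3⟩ := specG' L (bz c Z) I E N (Zᶜ : Set J) l (rho (bz c Z) I E) hl
    (symM_of_ix hIx) hE hJ' (cz c Z) hLoc (infinite_iff.1 hIinf)
  refine ⟨bz c Z, (Zᶜ : Set J), strM, ζ, hBZ, hIx, h1, ?_⟩
  have hin : ∀ x s, ζ x = Sum.inl s → cz c Z x = none := by
    intro x s hs
    rcases hx : cz c Z x with _ | j
    · rfl
    · obtain ⟨e, he⟩ := h3 x j hx
      rw [hs] at he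
      cases he
  have his : ∀ x j e, ζ x = Sum.inr (j, e) → cz c Z x = some j := by
    intro x j e hs
    rcases hx : cz c Z x with _ | j'
    · obtain ⟨s, hs'⟩ := h2 x hx
      rw [hs] at hs'
      cases hs'
    · obtain ⟨e', he⟩ := h3 x j' hx
      rw [hs] at he
      have h4 : j = j' := congrArg Prod.fst (Sum.inr_injective he)
      rw [h4]
  intro x a hxa
  rcases hxa with hx | hxa
  · have h4 : ∃ s', ζ x = Sum.inl s' := h2 x ((cz_none _ _ x).2 (Or.inl hx))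
    exact ⟨fun _ _ => h4, fun _ _ _ => Or.inl h4⟩
  · have h4 : cz c Z x = cz c Z a := by simp only [cz, hxa]
    refine ⟨fun s hs => ?_, fun j e hs => ?_⟩
    · exact h2 x (h4.trans (hin a s hs))
    · exact Or.inr (h3 x j (h4.trans (his a j e hs)))

end Vale.Agent.P307.Triv
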