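import Vale.Agent.P307.Triv.LocDefs
import Vale.Agent.P307.Triv.A

/-!
Closed sets and strong embeddings, local versions.
-/

universe u

open FirstOrder Cardinal Set

namespace Vale.Agent.P307.Triv.LA

open Language.Structure Language.Substructure

variable {L : Language.{u, u}} {K : AEC L} {N N' : Type u} [L.Structure N] [L.Structure N']

/-! ### Strong embeddings -/

theorem le_map_emb (h : N ↪[L] N') (hh : K.Emb h) {T : L.Substructure N} (hT : K.le T) :
    K.le (T.map h.toHom) := by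
  have h1 := K.le_iso h.equivRange T hT
  have h2 := K.le_trans _ _ h1 hh
  convert h2 using 1
  ext x
  constructor
  · rintro ⟨y, hy, rfl⟩
    exact ⟨h.equivRange y, ⟨y, hy, rfl⟩, rfl⟩
  · rintro ⟨y, ⟨z, hz, hzy⟩, hyx⟩
    refine ⟨z, hz, ?_⟩
    rw [← hyx, ← hzy]
    rfl

theorem le_comap_emb (h : N ↪[L] N') (hh : K.Emb h) {U : L.Substructure N'} (hU : K.le U)
    (hr : U ≤ h.toHom.range) : K.le (U.comap h.toHom) := by
  have h1 := K.coherence U _ hr hU hh
  have h2 := K.le_iso h.equivRange.symm _ h1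
  convert h2 using 1
  ext x
  constructor
  · intro hx
    exact ⟨h.equivRange x, hx, h.equivRange.symm_apply_apply x⟩
  · rintro ⟨y, hy, hyx⟩
    have h3 : y = h.equivRange x := by
      rw [← hyx]
      exact (h.equivRange.apply_symm_apply y).symm
    rw [h3] at hy
    exact hy

/-- Disintegrated closures pass to strong substructures and isomorphic copies. -/
theorem disIn_of_emb (h : N ↪[L] N') (hh : K.Emb h) (hN' : DisIn K N') : DisIn K N := by
  constructor
  · intro a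
    obtain ⟨T, hT, haT, hmin⟩ := hN'.1 (h a)
    have h1 : T ≤ h.toHom.range := hmin _ hh ⟨a, rfl⟩
    refine ⟨T.comap h.toHom, le_comap_emb h hh hT h1, haT, fun T' hT' haT' x hx => ?_⟩
    obtain ⟨y, hy, hyx⟩ := hmin _ (le_map_emb h hh hT') ⟨a, haT', rfl⟩ hx
    have h2 : y = x := h.injective hyx
    rwa [← h2]
  · intro S T hS hT
    obtain ⟨U, hU, hUe⟩ := hN'.2 _ _ (le_map_emb h hh hS) (le_map_emb h hh hT)
    have h1 : U ≤ h.toHom.range := by
      intro x hx
      have hx' : x ∈ (U : Set N') := hx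
      rw [hUe] at hx'
      rcases hx' with ⟨y, -, rfl⟩ | ⟨y, -, rfl⟩ <;> exact ⟨y, rfl⟩
    refine ⟨U.comap h.toHom, le_comap_emb h hh hU h1, ?_⟩
    ext x
    have h2 : x ∈ (U.comap h.toHom : Set N) ↔ h x ∈ (U : Set N') := Iff.rfl
    rw [h2, hUe]
    constructor
    · rintro (⟨y, hy, hyx⟩ | ⟨y, hy, hyx⟩)
      · exact Or.inl (by rwa [← h.injective hyx])
      · exact Or.inr (by rwa [← h.injective hyx])
    · rintro (hx | hx)
      · exact Or.inl ⟨x, hx, rfl⟩
      · exact Or.inr ⟨x, hx, rfl⟩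

/-! ### Closed sets -/

theorem exists_least (hT : DisIn K N) (a : N) :
    ∃ S : L.Substructure N, K.le S ∧ (S : Set N) = {x | cl K x a} := by
  obtain ⟨S, h1, h2, h3⟩ := hT.1 a
  refine ⟨S, h1, ?_⟩
  ext x
  exact ⟨fun hx T hT' ha => h3 T hT' ha hx, fun hx => hx S h1 h2⟩

/-- Closed sets are strong if least strong substructures exist, and finite unions of them are
strong. -/
theorem exists_closed_of [L.IsRelational] {l : Cardinal.{u}} (hl : ℵ₀ ≤ l)
    (hcl : ∀ a : N, ∃ S : L.Substructure N, K.le S ∧ #S ≤ l ∧ (S : Set N) = {x | cl K x a})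
    (hun : ∀ S T : L.Substructure N, K.le S → K.le T → #S ≤ l → #T ≤ l →
      ∃ U : L.Substructure N, K.le U ∧ (U : Set N) = (S : Set N) ∪ T) {X : Set N}
    (hne : X.Nonempty) (hX : Closed (fun x a => cl K x a) X) :
    ∃ S : L.Substructure N, K.le S ∧ (S : Set N) = X := by
  classical
  obtain ⟨a₀, ha₀⟩ := hne
  have key : ∀ b : Finset X, ∃ U : L.Substructure N, K.le U ∧ #U ≤ l ∧
      (U : Set N) = {x | cl K x a₀ ∨ ∃ a ∈ b, cl K x a.1} := by
    intro b
    induction b using Finset.induction_on with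
    | empty =>
      obtain ⟨S, h1, h1', h2⟩ := hcl a₀
      refine ⟨S, h1, h1', ?_⟩
      rw [h2]
      ext x
      simp
    | insert a b _ ih =>
      obtain ⟨U, hU1, hU1', hU2⟩ := ih
      obtain ⟨S, h1, h1', h2⟩ := hcl a.1
      obtain ⟨V, hV1, hV2⟩ := hun U S hU1 h1 hU1' h1'
      refine ⟨V, hV1, ?_, ?_⟩
      · have h3 : #V = #(((U : Set N) ∪ S : Set N)) := by rw [← hV2]; rfl
        rw [h3]
        exact (mk_union_le _ _).trans (add_le_of_le hl hU1' h1')
      · rw [hV2, hU2, h2]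
        ext x
        simp only [Set.mem_union, Set.mem_setOf_eq, Finset.mem_insert, exists_eq_or_imp]
        rw [or_assoc, or_comm (b := cl K x a.1)]
  choose F hF1 _ hF2 using key
  have hm : Monotone F := by
    intro b b' hb x hx
    have hx' : x ∈ (F b : Set N) := hx
    rw [hF2] at hx'
    change x ∈ (F b' : Set N)
    rw [hF2]
    rcases hx' with h | ⟨a, ha, h⟩
    · exact Or.inl h
    · exact Or.inr ⟨a, hb ha, h⟩
  refine ⟨⨆ b, F b, AEC.le_iSup_finset F hm hF1, ?_⟩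
  let T : L.Substructure N := ⟨X, fun f => isEmptyElim f⟩
  have h1 : ⨆ b, F b ≤ T := by
    refine iSup_le fun b x hx => ?_
    have hx' : x ∈ (F b : Set N) := hx
    rw [hF2] at hx'
    rcases hx' with h | ⟨a, ha, h⟩
    · exact hX a₀ ha₀ x h
    · exact hX a.1 a.2 x h
  refine Set.Subset.antisymm h1 fun x hx => ?_
  have h2 : x ∈ F {⟨x, hx⟩} := by
    change x ∈ (F {⟨x, hx⟩} : Set N)
    rw [hF2]
    exact Or.inr ⟨⟨x, hx⟩, by simp, cl_refl K x⟩
  exact (le_iSup F {⟨x, hx⟩}) h2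

theorem exists_closed [L.IsRelational] {l : Cardinal.{u}} (hK : K.IsLS l) (hN : K.mem N)
    (hT : DisIn K N) {X : Set N} (hne : X.Nonempty) (hX : Closed (fun x a => cl K x a) X) :
    ∃ S : L.Substructure N, K.le S ∧ (S : Set N) = X := by
  refine exists_closed_of hK.1 (fun a => ?_) (fun S T hS hT' _ _ => hT.2 S T hS hT') hne hX
  obtain ⟨S, h1, h2⟩ := exists_least hT a
  refine ⟨S, h1, ?_, h2⟩
  have h3 : #S = #{x : N | cl K x a} := by rw [← h2]; rfl
  rw [h3]
  exact mk_cl_le hK hN a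

theorem cl_map (hT' : DisIn K N') {S : L.Substructure N} {S' : L.Substructure N'}
    (e : S ≃[L] S') (hS : K.le S) (hS' : K.le S') {x a : S} (h : cl K (x : N) a) :
    cl K (e x : N') (e a) := by
  intro T' hTl haT'
  obtain ⟨T, h1, h2, h3⟩ := hT'.1 (e a)
  have h4 := K.coherence T S' (h3 S' hS' (e a).2) h1 hS'
  have h5 := K.le_trans S _ (K.le_iso e.symm _ h4) hS
  have h6 := h _ h5 ⟨a, ⟨e a, h2, e.symm_apply_apply a⟩, rfl⟩
  obtain ⟨y, ⟨z, hz, hzy⟩, hyx⟩ := h6
  have h7 : y = x := Subtype.ext hyx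
  subst h7
  have h8 : e y = z := by
    rw [← hzy]
    exact e.apply_symm_apply z
  rw [h8]
  exact h3 T' hTl haT' hz

theorem cEmb_of_equiv (hT : DisIn K N) (hT' : DisIn K N') {S : L.Substructure N}
    {S' : L.Substructure N'} (e : S ≃[L] S') (hS : K.le S) (hS' : K.le S') (f : N → N')
    (hf : ∀ a : S, f a = e a) :
    CEmb L (fun x a => cl K x a) (fun x a => cl K x a) (S : Set N) f where
  inj x hx y hy h := by
    have h1 := hf ⟨x, hx⟩
    have h2 := hf ⟨y, hy⟩
    have h3 : e ⟨x, hx⟩ = e ⟨y, hy⟩ := Subtype.ext (h1.symm.trans (h.trans h2))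
    exact congrArg Subtype.val (e.injective h3)
  rel n r v hv := by
    have h1 := e.map_rel r (fun i => (⟨v i, hv i⟩ : S))
    have h2 : (fun i => f (v i)) = fun i => ((e ⟨v i, hv i⟩ : S') : N') :=
      funext fun i => hf ⟨v i, hv i⟩
    rw [h2]
    exact h1
  cl a ha x hx := by
    rw [hf ⟨a, ha⟩, hf ⟨x, hx⟩]
    constructor
    · intro h
      have h1 := cl_map hT e.symm hS' hS h
      rwa [e.symm_apply_apply, e.symm_apply_apply] at h1
    · intro h
      exact cl_map hT' e hS hS' (x := ⟨x, hx⟩) (a := ⟨a, ha⟩) h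
  closed a ha y hy := by
    rw [hf ⟨a, ha⟩] at hy
    have h1 : y ∈ S' := hy S' hS' (e ⟨a, ha⟩).2
    refine ⟨e.symm ⟨y, h1⟩, (e.symm ⟨y, h1⟩).2, ?_⟩
    rw [hf, e.apply_symm_apply]

/-! ### Disintegrated closures from small substructures -/

/-- The relative form for a strong substructure `B` of `N`. -/
def DisRel (K : AEC L) (B : L.Substructure N) : Prop :=
  (∀ a ∈ B, ∃ T : L.Substructure N, K.le T ∧ T ≤ B ∧ a ∈ T ∧
    ∀ T' : L.Substructure N, K.le T' → T' ≤ B → a ∈ T' → T ≤ T') ∧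
  ∀ S T : L.Substructure N, K.le S → K.le T → S ≤ B → T ≤ B →
    ∃ U : L.Substructure N, K.le U ∧ (U : Set N) = (S : Set N) ∪ T

theorem DisRel.mono {B S : L.Substructure N} (h : DisRel K S) (hB : K.le B) (hBS : B ≤ S) :
    DisRel K B := by
  refine ⟨fun a ha => ?_, fun U V hU hV h1 h2 => h.2 U V hU hV (h1.trans hBS) (h2.trans hBS)⟩
  obtain ⟨T, h1, h2, h3, h4⟩ := h.1 a (hBS ha)
  exact ⟨T, h1, h4 B hB hBS ha, h3, fun T' hT' hT'B haT' => h4 T' hT' (hT'B.trans hBS) haT'⟩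

theorem disRel_of {S : L.Substructure N} (hS : K.le S) (h : DisIn K S) : DisRel K S := by
  have hemb : K.Emb S.subtype := by
    unfold AEC.Emb
    rw [range_subtype]
    exact hS
  constructor
  · intro a ha
    obtain ⟨T, h1, h2, h3⟩ := h.1 ⟨a, ha⟩
    refine ⟨T.map S.subtype.toHom, K.le_trans S T h1 hS, ?_, ⟨⟨a, ha⟩, h2, rfl⟩, ?_⟩
    · rintro x ⟨y, -, rfl⟩
      exact y.2
    · intro T' hT' hT'S haT'
      have h4 := h3 _ (K.coherence T' S hT'S hT' hS) haT'
      rintro x ⟨y, hy, rfl⟩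
      exact h4 hy
  · intro U V hU hV hUS hVS
    obtain ⟨W, hW, hWe⟩ := h.2 _ _ (K.coherence U S hUS hU hS) (K.coherence V S hVS hV hS)
    refine ⟨W.map S.subtype.toHom, K.le_trans S W hW hS, ?_⟩
    ext x
    constructor
    · rintro ⟨y, hy, rfl⟩
      have hy' : y ∈ (W : Set S) := hy
      rw [hWe] at hy'
      exact hy'
    · intro hx
      have hxS : x ∈ S := by
        rcases hx with hx | hx
        · exact hUS hx
        · exact hVS hx
      refine ⟨⟨x, hxS⟩, ?_, rfl⟩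
      change (⟨x, hxS⟩ : S) ∈ (W : Set S)
      rw [hWe]
      exact hx

/-- A member whose small strong substructures are disintegrated is disintegrated. -/
theorem disIn_of_small [L.IsRelational] {l : Cardinal.{u}} (hK : K.IsLS l) (hN : K.mem N)
    (h : ∀ B : L.Substructure N, K.le B → #B ≤ l → DisRel K B) : DisIn K N := by
  classical
  have hl := hK.1
  have hull : ∀ A : Set N, #A ≤ l → ∃ B : L.Substructure N, K.le B ∧ A ⊆ B ∧ #B ≤ l := by
    intro A hA
    obtain ⟨B, h1, h2, h3⟩ := hK.2.2 N hN A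
    exact ⟨B, h1, h2, h3.trans (add_le_of_le hl hA le_rfl)⟩
  have hsm : ∀ (S : L.Substructure N) (a : N), K.le S → a ∈ S →
      ∃ S' : L.Substructure N, K.le S' ∧ S' ≤ S ∧ a ∈ S' ∧ #S' ≤ l := by
    intro S a hS ha
    obtain ⟨S₁, h1, h2, h3⟩ := hK.2.2 S (K.mem_of_le S hS).1 {⟨a, ha⟩}
    refine ⟨S₁.map S.subtype.toHom, K.le_trans S S₁ h1 hS, ?_, ⟨⟨a, ha⟩, h2 rfl, rfl⟩, ?_⟩
    · rintro x ⟨y, -, rfl⟩
      exact y.2
    · refine le_trans ?_ (h3.trans ?_)
      · exact mk_le_of_surjective (f := fun y : S₁ =>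
          (⟨S.subtype.toHom y.1, ⟨y.1, y.2, rfl⟩⟩ : S₁.map S.subtype.toHom)) (by
            rintro ⟨x, y, hy, rfl⟩
            exact ⟨⟨y, hy⟩, rfl⟩)
      · rw [mk_singleton]
        exact add_le_of_le hl (one_le_aleph0.trans hl) le_rfl
  have T1 : ∀ a : N, ∃ S : L.Substructure N, K.le S ∧ a ∈ S ∧
      ∀ T : L.Substructure N, K.le T → a ∈ T → S ≤ T := by
    intro a
    obtain ⟨B₀, hB₀, haB₀, hB₀l⟩ := hull {a} (by
      rw [mk_singleton]
      exact one_le_aleph0.trans hl)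
    obtain ⟨T, hT, hTB₀, haT, hmin⟩ := (h B₀ hB₀ hB₀l).1 a (haB₀ rfl)
    refine ⟨T, hT, haT, fun S hS haS => ?_⟩
    obtain ⟨S', hS', hS'S, haS', hS'l⟩ := hsm S a hS haS
    obtain ⟨B', hB', hsub, hB'l⟩ := hull ((B₀ : Set N) ∪ S')
      ((mk_union_le _ _).trans (add_le_of_le hl hB₀l hS'l))
    have hB₀B' : B₀ ≤ B' := fun x hx => hsub (Or.inl hx)
    have hS'B' : S' ≤ B' := fun x hx => hsub (Or.inr hx)
    obtain ⟨T', hT', -, haT', hmin'⟩ := (h B' hB' hB'l).1 a (hB₀B' (haB₀ rfl))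
    have h1 : T' ≤ T := hmin' T hT (hTB₀.trans hB₀B') haT
    have h2 : T ≤ T' := hmin T' hT' (h1.trans hTB₀) haT'
    exact h2.trans ((hmin' S' hS' hS'B' haS').trans hS'S)
  have hcl : ∀ a : N, ∃ S : L.Substructure N, K.le S ∧ #S ≤ l ∧
      (S : Set N) = {x | cl K x a} := by
    intro a
    obtain ⟨S, h1, h2, h3⟩ := T1 a
    have h4 : (S : Set N) = {x | cl K x a} := by
      ext x
      exact ⟨fun hx T hT' ha => h3 T hT' ha hx, fun hx => hx S h1 h2⟩
    refine ⟨S, h1, ?_, h4⟩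
    have h5 : #S = #{x : N | cl K x a} := by rw [← h4]; rfl
    rw [h5]
    exact mk_cl_le hK hN a
  have hun : ∀ S T : L.Substructure N, K.le S → K.le T → #S ≤ l → #T ≤ l →
      ∃ U : L.Substructure N, K.le U ∧ (U : Set N) = (S : Set N) ∪ T := by
    intro S T hS hT hSl hTl
    obtain ⟨B', hB', hsub, hB'l⟩ := hull ((S : Set N) ∪ T)
      ((mk_union_le _ _).trans (add_le_of_le hl hSl hTl))
    exact (h B' hB' hB'l).2 S T hS hT (fun x hx => hsub (Or.inl hx)) (fun x hx => hsub (Or.inr hx))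
  refine ⟨T1, fun S T hS hT => ?_⟩
  by_cases hne : ((S : Set N) ∪ T).Nonempty
  · refine exists_closed_of hl hcl hun hne ?_
    rintro a (ha | ha) x hx
    · exact Or.inl (hx S hS ha)
    · exact Or.inr (hx T hT ha)
  · refine ⟨S, hS, ?_⟩
    rw [Set.not_nonempty_iff_eq_empty] at hne
    rw [hne]
    rw [Set.union_empty_iff] at hne
    exact hne.1

/-- If the model of cardinality `κ` has disintegrated closures, then so have all large members. -/
theorem disIn_of_cat [L.IsRelational] {l κ : Cardinal.{u}} (hK : K.IsLS l) (hlκ : l ≤ κ)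
    (hκ : ∀ (M : Type u) [L.Structure M], K.mem M → #M = κ → DisIn K M) (hN : K.mem N)
    (hμ : hanf (2 ^ l) ≤ #N) (hμ' : l < #N) : DisIn K N := by
  refine disIn_of_small hK hN fun B hB hBl => ?_
  obtain ⟨N₁, _, h1, h2, S, h, hS, hBS, hemb⟩ := exists_em hK hN hμ hμ' B hBl κ hlκ
  exact (disRel_of hS (disIn_of_emb h hemb (hκ N₁ h1 h2))).mono hB hBS

end Vale.Agent.P307.Triv.LA
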