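import Vale.Agent.P307.Triv.Spec

/-!
The local form of the condition on closures.
-/

universe u

open FirstOrder Cardinal Set

namespace Vale.Agent.P307.Triv

/-- The member `N` of `K` has disintegrated closures: each element of `N` belongs to a least strong
substructure, and the union of any two strong substructures of `N` is a strong substructure. -/
def DisIn {L : Language.{u, u}} (K : AEC L) (N : Type u) [L.Structure N] : Prop :=
  (∀ a : N, ∃ S : L.Substructure N, K.le S ∧ a ∈ S ∧
    ∀ T : L.Substructure N, K.le T → a ∈ T → S ≤ T) ∧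
  ∀ S T : L.Substructure N, K.le S → K.le T →
    ∃ U : L.Substructure N, K.le U ∧ (U : Set N) = (S : Set N) ∪ T

/-- Part S for the model of cardinality `κ`. -/
def SpecSL : Prop := ∀ l : Cardinal.{u}, ℵ₀ ≤ l → ∃ μ : Cardinal.{u}, l < μ ∧
  ∀ (L : Language.{u, u}) [L.IsRelational] (K : AEC L), K.IsLS l → ∀ κ, μ ≤ κ →
    K.CategoricalIn κ → (∀ (N : Type u) [L.Structure N], K.mem N → #N = κ → DisIn K N) →
    ∃ (R I E : Type u) (_ : L.Structure (R ⊕ (I × E))),
      K.mem (R ⊕ (I × E)) ∧ #R ≤ l ∧ #E ≤ l ∧ Nonempty E ∧ #I = κ ∧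
      SymM L R I E (fun x a => cl K x a)

end Vale.Agent.P307.Triv
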