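import Vale.Agent.P307.Triv.OneS
import Vale.Agent.P307.Triv.LocDefs

/-!
Part S in the local form.
-/

universe u

namespace Vale.Agent.P307.Triv

theorem specSL : SpecSL.{u} := fun l hl => specSO l hl

end Vale.Agent.P307.Triv
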