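import Vale.Agent.P307.Triv.OneS
import Vale.Agent.P307.Triv.Final
import Vale.Agent.P307.Triv.C
import Vale.Agent.P307.Triv.G

/-!
Categoricity transfer from one member with disintegrated closures.
-/

universe u

open FirstOrder Cardinal Set

namespace Vale.Agent.P307.Triv

open Language.Structure Language.Substructure

section rel

variable {L : Language.{u, u}} {K : AEC L}

theorem DisModel.rel {N₀ N : Type u} [L.Structure N₀] [(H67.relLang L).Structure N]
    (h : DisModel K N₀) (e : N₀ ≃[H67.relLang L] N) : DisModel (H67.relAEC K) N := by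
  obtain ⟨h1, h2⟩ := h
  have hup : ∀ T : L.Substructure N₀, K.le T → ∃ S : (H67.relLang L).Substructure N,
      H67.leR K S ∧ ∀ x, x ∈ T ↔ e x ∈ S := by
    intro T hT
    let S : (H67.relLang L).Substructure N :=
      { carrier := {y | e.symm y ∈ T}
        fun_mem := fun f => PEmpty.elim f }
    have hmem : ∀ x, x ∈ T ↔ e x ∈ S := by
      intro x
      change x ∈ T ↔ e.symm (e x) ∈ T
      rw [e.symm_apply_apply]
    exact ⟨S, ⟨N₀, inferInstance, e, T, hT, hmem⟩, hmem⟩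
  constructor
  · intro a
    obtain ⟨T, hT, haT, hmin⟩ := h1 (e.symm a)
    obtain ⟨S, hS, hmem⟩ := hup T hT
    refine ⟨S, hS, ?_, ?_⟩
    · have := (hmem (e.symm a)).1 haT
      rwa [e.apply_symm_apply] at this
    · intro T' hT' haT'
      obtain ⟨T₁, hT₁, hmem₁⟩ := (show H67.leR K T' from hT').pres e
      have h3 := hmin T₁ hT₁ ((hmem₁ _).2 (by rwa [e.apply_symm_apply]))
      intro y hy
      obtain ⟨x, rfl⟩ := e.surjective y
      exact (hmem₁ x).1 (h3 ((hmem x).2 hy))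
  · intro S T hS hT
    obtain ⟨S₁, hS₁, hmS⟩ := (show H67.leR K S from hS).pres e
    obtain ⟨T₁, hT₁, hmT⟩ := (show H67.leR K T from hT).pres e
    obtain ⟨U₁, hU₁, hU⟩ := h2 S₁ T₁ hS₁ hT₁
    obtain ⟨U, hU', hmU⟩ := hup U₁ hU₁
    refine ⟨U, hU', ?_⟩
    ext y
    obtain ⟨x, rfl⟩ := e.surjective y
    have h3 : x ∈ (U₁ : Set N₀) ↔ x ∈ (S₁ : Set N₀) ∪ T₁ := by rw [hU]
    change e x ∈ U ↔ e x ∈ S ∨ e x ∈ T
    rw [← hmU, ← hmS, ← hmT]
    exact h3

end rel

section large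

variable {L : Language.{u, u}} {K : AEC L}

/-- all members of the categoricity cardinal have disintegrated closures if one member of at least
that cardinality has -/
theorem dis_card {l κ : Cardinal.{u}} (hK : K.IsLS l) (hlκ : l ≤ κ) (hcat : K.CategoricalIn κ)
    (hex : ∃ (M : Type u) (_ : L.Structure M), K.mem M ∧ κ ≤ #M ∧ DisModel K M) :
    ∀ (N : Type u) [L.Structure N], K.mem N → #N = κ → DisModel K N := by
  obtain ⟨M, _, hM, hMc, hD⟩ := hex
  intro N _ hN hNc
  have hκ0 : ℵ₀ ≤ κ := hK.1.trans hlκ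
  obtain ⟨A, hA⟩ := le_mk_iff_exists_set.1 hMc
  obtain ⟨S, h1, h2, h3⟩ := hK.2.2 M hM A
  have hSc : #S = κ := by
    apply le_antisymm
    · refine h3.trans ?_
      rw [hA]
      exact add_le_of_le hκ0 le_rfl hlκ
    · rw [← hA]
      exact mk_le_mk_of_subset h2
  obtain ⟨e⟩ := hcat.2 S N (K.mem_of_le S h1).1 hN hSc hNc
  exact (hD.sub h1).iso e

/-- then all large members have disintegrated closures -/
theorem dis_large [L.IsRelational] {l κ : Cardinal.{u}} (hK : K.IsLS l) (hlκ : l ≤ κ)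
    (hD : ∀ (N : Type u) [L.Structure N], K.mem N → #N = κ → DisModel K N) {N : Type u}
    [L.Structure N] (hN : K.mem N) (h1 : hanf (2 ^ l) ≤ #N) (h2 : l < #N) : DisModel K N := by
  refine DisModel.of_local hK hN fun P hP => ?_
  obtain ⟨N₁, _, g1, g2, S, h, g3, g4, g5⟩ := exists_em hK hN h1 h2 P hP κ hlκ
  have g5' : K.le h.toHom.range := g5
  exact ⟨S, g3, g4, ((hD N₁ g1 g2).sub g5').iso h.equivRange.symm⟩

end large

/-- small closed subsets of large members embed in the model of cardinality `κ` -/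
theorem specA2O : ∀ l lam : Cardinal.{u}, ℵ₀ ≤ l → l ≤ lam → ∃ μ : Cardinal.{u}, lam < μ ∧
  ∀ (L : Language.{u, u}) [L.IsRelational] (K : AEC L), K.IsLS l →
    (∃ (N : Type u) (_ : L.Structure N), K.mem N ∧ μ ≤ #N) →
      (∀ κ, lam ≤ κ → ∃ (N : Type u) (_ : L.Structure N), K.mem N ∧ #N = κ) ∧
    ∀ (N M : Type u) [L.Structure N] [L.Structure M], K.mem N → K.mem M → μ ≤ #N → lam ≤ #M →
      K.CategoricalIn #M → DisModel K N → DisModel K M →
      ∀ P : Set N, Closed (fun x a => cl K x a) P → #P ≤ lam →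
      ∃ f : N → M, CEmb L (fun x a => cl K x a) (fun x a => cl K x a) P f := by
  classical
  intro l lam hl hlam
  refine ⟨max (hanf (2 ^ lam)) (Order.succ lam), (Order.lt_succ lam).trans_le (le_max_right _ _),
    ?_⟩
  intro L _ K hK hbig
  have hK' : K.IsLS lam := hK.mono hlam
  refine ⟨?_, ?_⟩
  · intro κ hκ
    obtain ⟨N, _, hN, hμ⟩ := hbig
    obtain ⟨N₁, h1, h2, h3, -⟩ := exists_em hK' hN ((le_max_left _ _).trans hμ)
      ((Order.lt_succ lam).trans_le ((le_max_right _ _).trans hμ)) ∅ (by simp) κ hκ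
    exact ⟨N₁, h1, h2, h3⟩
  · intro N M _ _ hN hM hμ hM' hcat hDN hDM P hP hPl
    obtain ⟨N₁, _, h2, h3, S, h, hS, hPS, hemb⟩ := exists_em hK' hN ((le_max_left _ _).trans hμ)
      ((Order.lt_succ lam).trans_le ((le_max_right _ _).trans hμ)) P hPl #M hM'
    obtain ⟨g⟩ := hcat.2 N₁ M h2 hM h3 rfl
    have h4 : K.Emb (g.toEmbedding.comp h) := (AEC.Emb.of_equiv g h2).comp hemb
    have hMne : Nonempty M := by
      rw [← mk_ne_zero_iff]
      exact ((aleph0_pos.trans_le hK'.1).trans_le hM').ne'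
    let f : N → M := fun a => if ha : a ∈ S then (g.toEmbedding.comp h) ⟨a, ha⟩ else
      Classical.arbitrary M
    refine ⟨f, CEmb.mono ?_ hP hPS⟩
    refine cEmb_of_equiv' hDN hDM (g.toEmbedding.comp h).equivRange hS h4 f fun a => ?_
    simp only [f, dif_pos a.2]
    rfl

/-- Categoricity transfer for relational vocabularies from one member of cardinality at least `κ`
with disintegrated closures. -/
theorem transfer_relO : ∀ l : Cardinal.{u}, ℵ₀ ≤ l → ∃ μ : Cardinal.{u}, l ≤ μ ∧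
      ∀ (L : Language.{u, u}) [L.IsRelational] (K : AEC L), K.IsLS l →
        ∀ κ, μ ≤ κ → K.CategoricalIn κ →
        (∃ (M : Type u) (_ : L.Structure M), K.mem M ∧ κ ≤ #M ∧ DisModel K M) →
        ∀ κ', μ ≤ κ' → K.CategoricalIn κ' := by
  classical
  intro l hl
  have hlam : l ≤ Order.succ (2 ^ l) := (cantor l).le.trans (Order.le_succ _)
  obtain ⟨μ₀, hμ₀, hS⟩ := specSO l hl
  obtain ⟨μ₂, hμ₂, hA2⟩ := specA2O l (Order.succ (2 ^ l)) hl hlam
  let μ₁ : Cardinal.{u} := max μ₀ (max (hanf (2 ^ l)) (Order.succ l))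
  have hμ₁ : l < μ₁ := hμ₀.trans_le (le_max_left _ _)
  refine ⟨max μ₁ μ₂, hμ₁.le.trans (le_max_left _ _), ?_⟩
  intro L _ K hK κ hκ hcat hex κ' hκ'
  have hDκ : ∀ (N : Type u) [L.Structure N], K.mem N → #N = κ → DisModel K N :=
    dis_card hK (hμ₁.le.trans ((le_max_left _ _).trans hκ)) hcat hex
  have hDall : ∀ (N : Type u) [L.Structure N], K.mem N → μ₁ ≤ #N → DisModel K N := by
    intro N _ hN hNc
    exact dis_large hK (hμ₁.le.trans ((le_max_left _ _).trans hκ)) hDκ hN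
      (((le_max_left _ _).trans (le_max_right _ _)).trans hNc)
      ((Order.lt_succ l).trans_le (((le_max_right _ _).trans (le_max_right _ _)).trans hNc))
  have hA11 : ∀ (N : Type u) [L.Structure N], K.mem N → μ₁ ≤ #N →
      (∀ a : N, #{x : N | cl K x a} ≤ l) ∧
      ∀ X : Set N, X.Nonempty → Closed (fun x a => cl K x a) X →
      ∃ S : L.Substructure N, K.le S ∧ (S : Set N) = X := fun N _ hN hNc =>
    ⟨mk_cl_le hK hN, fun X h h' => exists_closed' hK hN (hDall N hN hNc) h h'⟩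
  obtain ⟨R, I, E, _, hM, hR, hE, hE0, hI, hsym⟩ := hS L K hK κ
    ((le_max_left _ _).trans ((le_max_left _ _).trans hκ)) hcat hDκ
  have hlamκ : Order.succ (2 ^ l) < κ := hμ₂.trans_le ((le_max_right _ _).trans hκ)
  have hlI : l ≤ #I := by
    rw [hI]
    exact hlam.trans hlamκ.le
  have hI0 : ℵ₀ ≤ #I := hl.trans hlI
  have hIinf : Infinite I := infinite_iff.2 hI0
  have hMκ : #(R ⊕ (I × E)) = κ := by
    rw [mk_of_coord hl hR hE hlI (Equiv.refl _), hI]
  have hM5 : ∀ Y : Set (R ⊕ (I × E)), Closed (fun x a => cl K x a) Y → #Y = #I →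
      ∃ g : R ⊕ (I × E) → R ⊕ (I × E), CEmb L (fun x a => cl K x a) (fun x a => cl K x a) Y g ∧
        g '' Y = Set.univ := by
    intro Y hY hYc
    have hYne : Y.Nonempty := by
      rw [Set.nonempty_iff_ne_empty]
      rintro rfl
      rw [mk_emptyCollection] at hYc
      exact absurd hYc.symm (aleph0_pos.trans_le hI0).ne'
    obtain ⟨S, hS1, hS2⟩ := (hA11 _ hM (by
      rw [hMκ]
      exact (le_max_left _ _).trans hκ)).2 Y hYne hY
    have hSc : #S = κ := by
      rw [← hI, ← hYc, ← hS2]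
      rfl
    obtain ⟨e⟩ := hcat.2 S (R ⊕ (I × E)) (K.mem_of_le S hS1).1 hM hSc hMκ
    let e' : S ≃[L] (⊤ : L.Substructure (R ⊕ (I × E))) := topEquiv.symm.comp e
    have hne : Nonempty (R ⊕ (I × E)) := by
      rw [← mk_ne_zero_iff, hMκ, ← hI]
      exact (aleph0_pos.trans_le hI0).ne'
    let g : R ⊕ (I × E) → R ⊕ (I × E) := fun x => if h : x ∈ S then e ⟨x, h⟩ else
      Classical.arbitrary _
    have hg : ∀ a : S, g a = e' a := by
      intro a
      simp only [g, dif_pos a.2]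
      rfl
    refine ⟨g, ?_, ?_⟩
    · rw [← hS2]
      exact cEmb_of_equiv' (hDκ _ hM hMκ) (hDκ _ hM hMκ) e' hS1 (K.le_refl hM) g hg
    · rw [← hS2]
      refine Set.eq_univ_of_forall fun y => ⟨e.symm y, (e.symm y).2, ?_⟩
      simp only [g, dif_pos (e.symm y).2]
      exact e.apply_symm_apply y
  have hN : ∀ (N : Type u) [L.Structure N], K.mem N → #N = κ' → ∃ (J : Type u)
      (ζ : N ≃ R ⊕ (J × E)), #J = κ' ∧ Coord L R I E N J ζ := by
    intro N _ hN hNc
    have hlamκ' : Order.succ (2 ^ l) < #N := by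
      rw [hNc]
      exact hμ₂.trans_le ((le_max_right _ _).trans hκ')
    obtain ⟨J, c, hJ, hloc⟩ := specC L R I E N l (fun x a => cl K x a) (fun x a => cl K x a) hl hsym
      hR hE hE0 (by rw [hI]; exact hlamκ) hM5 (fun x S _ hx => hx)
      (fun x y z hxy hyz S hS hz => hxy S hS (hyz S hS hz)) (mk_cl_le hK hN) hlamκ'
      (fun P hP hPc => (hA2 L K hK ⟨_, _, hM, by
          rw [hMκ]
          exact (le_max_right _ _).trans hκ⟩).2 N _ hN hM (by
          rw [hNc]
          exact (le_max_right _ _).trans hκ') (by rw [hMκ]; exact hlamκ.le) (by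
          rw [hMκ]
          exact hcat) (hDall N hN (by
            rw [hNc]
            exact (le_max_left _ _).trans hκ')) (hDκ _ hM hMκ) P hP hPc)
    obtain ⟨ζ, hζ⟩ := specG L R I E N J l _ hl hsym hE hI0 hJ c hloc
    refine ⟨J, ζ, ?_, hζ⟩
    rw [← hNc, mk_of_coord hl hR hE (hlam.trans hJ) ζ]
  refine ⟨?_, ?_⟩
  · exact (hA2 L K hK ⟨_, _, hM, by
      rw [hMκ]
      exact (le_max_right _ _).trans hκ⟩).1 κ' (hμ₂.le.trans ((le_max_right _ _).trans hκ'))
  · intro N N' _ _ hNm hN'm hNc hN'c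
    obtain ⟨J, ζ, hJ, h⟩ := hN N hNm hNc
    obtain ⟨J', ζ', hJ', h'⟩ := hN N' hN'm hN'c
    obtain ⟨τ⟩ := Cardinal.eq.1 (hJ.trans hJ'.symm)
    exact equiv_of_coord ζ ζ' h h' τ

/-- Categoricity transfer from one member of cardinality at least `κ` with disintegrated closures.
-/
theorem transfer_one : ∀ l : Cardinal.{u}, ℵ₀ ≤ l → ∃ μ : Cardinal.{u}, l ≤ μ ∧
    ∀ (L : Language.{u, u}) (K : AEC L), K.LS ≤ l →
      ∀ κ, μ ≤ κ → K.CategoricalIn κ →
        (∃ (M : Type u) (_ : L.Structure M), K.mem M ∧ κ ≤ #M ∧ DisModel K M) →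
        ∀ κ', μ ≤ κ' → K.CategoricalIn κ' := by
  intro l hl
  obtain ⟨μ, hμ, h⟩ := transfer_relO l hl
  refine ⟨μ, hμ, fun L K hK κ hκ hcat hex κ' hκ' => ?_⟩
  obtain ⟨M, _, hM, hMc, hD⟩ := hex
  exact H67.categorical_iff.1 (h (H67.relLang L) (H67.relAEC K)
    (H67.relAEC_isLS (AEC.isLS_of_LS_le hK)) κ hκ (H67.categorical_iff.2 hcat)
    ⟨M, inferInstance, H67.memR_self hM, hMc, hD.rel (Language.Equiv.refl _ _)⟩ κ' hκ')

end Vale.Agent.P307.Triv
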