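import Vale.Agent.P307.Triv.OneDefs
import Vale.Agent.P307.Triv.A

/-!
Disintegrated closures in a single member.
-/

universe u

open FirstOrder Cardinal Set

namespace Vale.Agent.P307.Triv

open Language.Structure Language.Substructure

section basic

variable {L : Language.{u, u}} {K : AEC L} {N N' : Type u} [L.Structure N] [L.Structure N']

theorem mem_map_sub {S : L.Substructure N} {T : L.Substructure S} {x : N} :
    x ∈ T.map S.subtype.toHom ↔ ∃ h : x ∈ S, (⟨x, h⟩ : S) ∈ T := by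
  constructor
  · rintro ⟨y, hy, rfl⟩
    exact ⟨y.2, hy⟩
  · rintro ⟨h, hT⟩
    exact ⟨⟨x, h⟩, hT, rfl⟩

theorem mem_comap_sub {S T : L.Substructure N} {x : S} :
    x ∈ T.comap S.subtype.toHom ↔ (x : N) ∈ T := Iff.rfl

theorem DisModel.iso (h : DisModel K N) (e : N ≃[L] N') : DisModel K N' := by
  obtain ⟨h1, h2⟩ := h
  have key : ∀ T : L.Substructure N', K.le T → K.le (T.map e.symm.toHom) := fun T hT =>
    K.le_iso e.symm T hT
  have hm : ∀ (T : L.Substructure N') (x : N), x ∈ T.map e.symm.toHom ↔ e x ∈ T := by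
    intro T x
    constructor
    · rintro ⟨y, hy, rfl⟩
      have : e (e.symm y) = y := e.apply_symm_apply y
      change e (e.symm y) ∈ T
      rw [this]
      exact hy
    · intro hx
      exact ⟨e x, hx, e.symm_apply_apply x⟩
  have hm' : ∀ (S : L.Substructure N) (y : N'), y ∈ S.map e.toHom ↔ e.symm y ∈ S := by
    intro S y
    constructor
    · rintro ⟨x, hx, rfl⟩
      change e.symm (e x) ∈ S
      rw [e.symm_apply_apply]
      exact hx
    · intro hy
      exact ⟨e.symm y, hy, e.apply_symm_apply y⟩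
  constructor
  · intro a
    obtain ⟨S, hS, haS, hmin⟩ := h1 (e.symm a)
    refine ⟨S.map e.toHom, K.le_iso e S hS, (hm' _ _).2 haS, fun T hT haT => ?_⟩
    have h3 := hmin _ (key T hT) ((hm T _).2 (by rw [e.apply_symm_apply]; exact haT))
    intro y hy
    have h4 := (hm T _).1 (h3 ((hm' S y).1 hy))
    rwa [e.apply_symm_apply] at h4
  · intro S T hS hT
    obtain ⟨U, hU, hUe⟩ := h2 _ _ (key S hS) (key T hT)
    refine ⟨U.map e.toHom, K.le_iso e U hU, ?_⟩
    ext y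
    have h3 : e.symm y ∈ (U : Set N) ↔ e.symm y ∈ ((S.map e.symm.toHom : L.Substructure N) : Set N) ∪
        (T.map e.symm.toHom : L.Substructure N) := by rw [hUe]
    have h4 := hm S (e.symm y)
    have h5 := hm T (e.symm y)
    rw [e.apply_symm_apply] at h4 h5
    change y ∈ U.map e.toHom ↔ y ∈ S ∨ y ∈ T
    rw [hm', ← h4, ← h5]
    exact h3

theorem DisModel.sub (h : DisModel K N) {S : L.Substructure N} (hS : K.le S) :
    DisModel K S := by
  obtain ⟨h1, h2⟩ := h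
  constructor
  · intro a
    obtain ⟨C, hC, haC, hmin⟩ := h1 a
    have hCS : C ≤ S := hmin S hS a.2
    refine ⟨C.comap S.subtype.toHom, K.coherence C S hCS hC hS, haC, fun T hT haT => ?_⟩
    have h3 := hmin _ (K.le_trans S T hT hS) (mem_map_sub.2 ⟨a.2, haT⟩)
    intro x hx
    obtain ⟨h4, h5⟩ := mem_map_sub.1 (h3 (mem_comap_sub.1 hx))
    exact h5
  · intro S₁ S₂ hS₁ hS₂
    obtain ⟨U, hU, hUe⟩ := h2 _ _ (K.le_trans S S₁ hS₁ hS) (K.le_trans S S₂ hS₂ hS)
    have hmem : ∀ x, x ∈ U ↔ x ∈ S₁.map S.subtype.toHom ∨ x ∈ S₂.map S.subtype.toHom := by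
      intro x
      have h3 : x ∈ (U : Set N) ↔ x ∈ ((S₁.map S.subtype.toHom : L.Substructure N) : Set N) ∪
        (S₂.map S.subtype.toHom : L.Substructure N) := by rw [hUe]
      exact h3
    have hUS : U ≤ S := by
      intro x hx
      rcases (hmem x).1 hx with h3 | h3
      · exact (mem_map_sub.1 h3).1
      · exact (mem_map_sub.1 h3).1
    refine ⟨U.comap S.subtype.toHom, K.coherence U S hUS hU hS, ?_⟩
    ext x
    change (x : N) ∈ U ↔ x ∈ S₁ ∨ x ∈ S₂
    rw [hmem, mem_map_sub, mem_map_sub]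
    constructor
    · rintro (⟨_, h3⟩ | ⟨_, h3⟩)
      · exact Or.inl h3
      · exact Or.inr h3
    · rintro (h3 | h3)
      · exact Or.inl ⟨x.2, h3⟩
      · exact Or.inr ⟨x.2, h3⟩

theorem exists_least' (hT : DisModel K N) (a : N) :
    ∃ S : L.Substructure N, K.le S ∧ (S : Set N) = {x | cl K x a} := by
  obtain ⟨S, h1, h2, h3⟩ := hT.1 a
  refine ⟨S, h1, ?_⟩
  ext x
  exact ⟨fun hx T hT' ha => h3 T hT' ha hx, fun hx => hx S h1 h2⟩

/-- closed sets are strong if unions of small strong substructures are strong -/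
theorem exists_closed_of [L.IsRelational] {l : Cardinal.{u}} (hl : ℵ₀ ≤ l)
    (h1 : ∀ a : N, ∃ S : L.Substructure N, K.le S ∧ (S : Set N) = {x | cl K x a})
    (hc : ∀ a : N, #{x : N | cl K x a} ≤ l)
    (h2 : ∀ S T : L.Substructure N, K.le S → K.le T → #S ≤ l → #T ≤ l →
      ∃ U : L.Substructure N, K.le U ∧ (U : Set N) = (S : Set N) ∪ T) {X : Set N}
    (hne : X.Nonempty) (hX : Closed (fun x a => cl K x a) X) :
    ∃ S : L.Substructure N, K.le S ∧ (S : Set N) = X := by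
  classical
  obtain ⟨a₀, ha₀⟩ := hne
  have key : ∀ b : Finset X, ∃ U : L.Substructure N, (K.le U ∧ #U ≤ l) ∧
      (U : Set N) = {x | cl K x a₀ ∨ ∃ a ∈ b, cl K x a.1} := by
    intro b
    induction b using Finset.induction_on with
    | empty =>
      obtain ⟨S, h3, h4⟩ := h1 a₀
      refine ⟨S, ⟨h3, ?_⟩, ?_⟩
      · have h5 : #S = #((S : Set N)) := rfl
        rw [h5, h4]
        exact hc a₀
      · rw [h4]
        ext x
        simp
    | insert a b _ ih =>
      obtain ⟨U, ⟨hU1, hUc⟩, hU2⟩ := ih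
      obtain ⟨S, h3, h4⟩ := h1 a.1
      have hSc : #S ≤ l := by
        have h5 : #S = #((S : Set N)) := rfl
        rw [h5, h4]
        exact hc a.1
      obtain ⟨V, hV1, hV2⟩ := h2 U S hU1 h3 hUc hSc
      refine ⟨V, ⟨hV1, ?_⟩, ?_⟩
      · have h5 : #V = #((V : Set N)) := rfl
        rw [h5, hV2]
        exact (mk_union_le _ _).trans (add_le_of_le hl hUc hSc)
      · rw [hV2, hU2, h4]
        ext x
        simp only [Set.mem_union, Set.mem_setOf_eq, Finset.mem_insert, exists_eq_or_imp]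
        rw [or_assoc, or_comm (b := cl K x a.1)]
  choose F hF1 hF2 using key
  have hm : Monotone F := by
    intro b b' hb x hx
    have hx' : x ∈ (F b : Set N) := hx
    rw [hF2] at hx'
    change x ∈ (F b' : Set N)
    rw [hF2]
    rcases hx' with h | ⟨a, ha, h⟩
    · exact Or.inl h
    · exact Or.inr ⟨a, hb ha, h⟩
  refine ⟨⨆ b, F b, AEC.le_iSup_finset F hm fun b => (hF1 b).1, ?_⟩
  let T : L.Substructure N := ⟨X, fun f => isEmptyElim f⟩
  have h1 : ⨆ b, F b ≤ T := by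
    refine iSup_le fun b x hx => ?_
    have hx' : x ∈ (F b : Set N) := hx
    rw [hF2] at hx'
    rcases hx' with h | ⟨a, ha, h⟩
    · exact hX a₀ ha₀ x h
    · exact hX a.1 a.2 x h
  refine Set.Subset.antisymm h1 fun x hx => ?_
  have h2 : x ∈ F {⟨x, hx⟩} := by
    change x ∈ (F {⟨x, hx⟩} : Set N)
    rw [hF2]
    exact Or.inr ⟨⟨x, hx⟩, by simp, cl_refl K x⟩
  exact (le_iSup F {⟨x, hx⟩}) h2

theorem exists_closed' [L.IsRelational] {l : Cardinal.{u}} (hK : K.IsLS l) (hN : K.mem N)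
    (hT : DisModel K N) {X : Set N} (hne : X.Nonempty) (hX : Closed (fun x a => cl K x a) X) :
    ∃ S : L.Substructure N, K.le S ∧ (S : Set N) = X :=
  exists_closed_of hK.1 (exists_least' hT) (mk_cl_le hK hN) (fun S T hS hT' _ _ => hT.2 S T hS hT')
    hne hX

theorem cl_map' (hT : DisModel K N') {S : L.Substructure N} {S' : L.Substructure N'}
    (e : S ≃[L] S') (hS : K.le S) (hS' : K.le S') {x a : S} (h : cl K (x : N) a) :
    cl K (e x : N') (e a) := by
  intro T' hT' haT'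
  obtain ⟨T, h1, h2, h3⟩ := hT.1 (e a)
  have h4 := K.coherence T S' (h3 S' hS' (e a).2) h1 hS'
  have h5 := K.le_trans S _ (K.le_iso e.symm _ h4) hS
  have h6 := h _ h5 ⟨a, ⟨e a, h2, e.symm_apply_apply a⟩, rfl⟩
  obtain ⟨y, ⟨z, hz, hzy⟩, hyx⟩ := h6
  have h7 : y = x := Subtype.ext hyx
  subst h7
  have h8 : e y = z := by
    rw [← hzy]
    exact e.apply_symm_apply z
  rw [h8]
  exact h3 T' hT' haT' hz

theorem cEmb_of_equiv' (hT : DisModel K N) (hT' : DisModel K N') {S : L.Substructure N}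
    {S' : L.Substructure N'} (e : S ≃[L] S') (hS : K.le S) (hS' : K.le S') (f : N → N')
    (hf : ∀ a : S, f a = e a) :
    CEmb L (fun x a => cl K x a) (fun x a => cl K x a) (S : Set N) f where
  inj x hx y hy h := by
    have h1 := hf ⟨x, hx⟩
    have h2 := hf ⟨y, hy⟩
    have h3 : e ⟨x, hx⟩ = e ⟨y, hy⟩ := Subtype.ext (h1.symm.trans (h.trans h2))
    exact congrArg Subtype.val (e.injective h3)
  rel n r v hv := by
    have h1 := e.map_rel r (fun i => (⟨v i, hv i⟩ : S))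
    have h2 : (fun i => f (v i)) = fun i => ((e ⟨v i, hv i⟩ : S') : N') :=
      funext fun i => hf ⟨v i, hv i⟩
    rw [h2]
    exact h1
  cl a ha x hx := by
    rw [hf ⟨a, ha⟩, hf ⟨x, hx⟩]
    constructor
    · intro h
      have h1 := cl_map' hT e.symm hS' hS h
      rwa [e.symm_apply_apply, e.symm_apply_apply] at h1
    · intro h
      exact cl_map' hT' e hS hS' (x := ⟨x, hx⟩) (a := ⟨a, ha⟩) h
  closed a ha y hy := by
    rw [hf ⟨a, ha⟩] at hy
    have h1 : y ∈ S' := hy S' hS' (e ⟨a, ha⟩).2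
    refine ⟨e.symm ⟨y, h1⟩, (e.symm ⟨y, h1⟩).2, ?_⟩
    rw [hf, e.apply_symm_apply]

/-- from small pieces to the whole structure -/
theorem DisModel.of_local [L.IsRelational] {l : Cardinal.{u}} (hK : K.IsLS l) (hN : K.mem N)
    (hloc : ∀ P : Set N, #P ≤ l → ∃ S : L.Substructure N, K.le S ∧ P ⊆ S ∧ DisModel K S) :
    DisModel K N := by
  have hl := hK.1
  have hl1 : ∀ {c d : Cardinal.{u}}, c ≤ l → d ≤ l → c + d ≤ l := fun h h' => add_le_of_le hl h h'
  -- small strong substructures inside strong substructures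
  have hsm : ∀ (T : L.Substructure N), K.le T → ∀ a ∈ T, ∃ T₀ : L.Substructure N, K.le T₀ ∧
      T₀ ≤ T ∧ a ∈ T₀ ∧ #T₀ ≤ l := by
    intro T hT a ha
    obtain ⟨Q, h1, h2, h3⟩ := hK.2.2 T (K.mem_of_le T hT).1 {⟨a, ha⟩}
    refine ⟨Q.map T.subtype.toHom, K.le_trans T Q h1 hT, fun x hx => (mem_map_sub.1 hx).1,
      mem_map_sub.2 ⟨ha, h2 rfl⟩, ?_⟩
    have h4 : #(Q.map T.subtype.toHom) ≤ #Q := by
      have h5 : ((Q.map T.subtype.toHom : L.Substructure N) : Set N) =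
          (fun x : T => (x : N)) '' (Q : Set T) := by
        ext x
        exact Iff.rfl
      have h6 : #(Q.map T.subtype.toHom) =
        #(((Q.map T.subtype.toHom : L.Substructure N) : Set N)) := rfl
      rw [h6, h5]
      exact mk_image_le
    refine h4.trans (h3.trans ?_)
    rw [mk_singleton]
    exact hl1 (one_le_aleph0.trans hl) le_rfl
  have hT1 : ∀ a : N, ∃ S : L.Substructure N, K.le S ∧ a ∈ S ∧
      ∀ T : L.Substructure N, K.le T → a ∈ T → S ≤ T := by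
    intro a
    obtain ⟨S, hS, haS, hDS⟩ := hloc {a} (by
      rw [mk_singleton]
      exact one_le_aleph0.trans hl)
    have haS' : a ∈ S := haS rfl
    obtain ⟨C, hC, haC, hmin⟩ := hDS.1 ⟨a, haS'⟩
    have hCN := K.le_trans S C hC hS
    refine ⟨C.map S.subtype.toHom, hCN, mem_map_sub.2 ⟨haS', haC⟩, fun T hT haT => ?_⟩
    obtain ⟨T₀, hT₀, hT₀T, haT₀, hT₀c⟩ := hsm T hT a haT
    obtain ⟨C₀, hC₀, hC₀C, haC₀, hC₀c⟩ := hsm _ hCN a (mem_map_sub.2 ⟨haS', haC⟩)
    obtain ⟨S₁, hS₁, hPS₁, hD₁⟩ := hloc ((T₀ : Set N) ∪ C₀)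
      ((mk_union_le _ _).trans (hl1 hT₀c hC₀c))
    have haS₁ : a ∈ S₁ := hPS₁ (Or.inl haT₀)
    obtain ⟨C₁, hC₁, haC₁, hmin₁⟩ := hD₁.1 ⟨a, haS₁⟩
    have hTS₁ : T₀ ≤ S₁ := fun x hx => hPS₁ (Or.inl hx)
    have hCS₁ : C₀ ≤ S₁ := fun x hx => hPS₁ (Or.inr hx)
    have h1 := hmin₁ _ (K.coherence T₀ S₁ hTS₁ hT₀ hS₁) haT₀
    have h2 := hmin₁ _ (K.coherence C₀ S₁ hCS₁ hC₀ hS₁) haC₀
    have hC₁N := K.le_trans S₁ C₁ hC₁ hS₁
    have hC₁S : C₁.map S₁.subtype.toHom ≤ S := by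
      intro x hx
      obtain ⟨h3, h4⟩ := mem_map_sub.1 hx
      have h5 : x ∈ C₀ := h2 h4
      exact (mem_map_sub.1 (hC₀C h5)).1
    have h6 := hmin _ (K.coherence _ S hC₁S hC₁N hS) (mem_map_sub.2 ⟨haS₁, haC₁⟩)
    intro x hx
    obtain ⟨h7, h8⟩ := mem_map_sub.1 hx
    obtain ⟨h9, h10⟩ := mem_map_sub.1 (h6 h8)
    exact hT₀T (h1 h10)
  refine ⟨hT1, fun S T hS hT => ?_⟩
  have hleast : ∀ a : N, ∃ S : L.Substructure N, K.le S ∧ (S : Set N) = {x | cl K x a} := by
    intro a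
    obtain ⟨S, h1, h2, h3⟩ := hT1 a
    refine ⟨S, h1, ?_⟩
    ext x
    exact ⟨fun hx T hT' ha => h3 T hT' ha hx, fun hx => hx S h1 h2⟩
  have hsmall : ∀ S T : L.Substructure N, K.le S → K.le T → #S ≤ l → #T ≤ l →
      ∃ U : L.Substructure N, K.le U ∧ (U : Set N) = (S : Set N) ∪ T := by
    intro S T hS hT hSc hTc
    obtain ⟨S₁, hS₁, hPS₁, hD₁⟩ := hloc ((S : Set N) ∪ T)
      ((mk_union_le _ _).trans (hl1 hSc hTc))
    have hSS₁ : S ≤ S₁ := fun x hx => hPS₁ (Or.inl hx)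
    have hTS₁ : T ≤ S₁ := fun x hx => hPS₁ (Or.inr hx)
    obtain ⟨U, hU, hUe⟩ := hD₁.2 _ _ (K.coherence S S₁ hSS₁ hS hS₁)
      (K.coherence T S₁ hTS₁ hT hS₁)
    refine ⟨U.map S₁.subtype.toHom, K.le_trans S₁ U hU hS₁, ?_⟩
    ext x
    have h3 : ∀ y : S₁, y ∈ U ↔ (y : N) ∈ S ∨ (y : N) ∈ T := by
      intro y
      have h4 : y ∈ (U : Set S₁) ↔ y ∈ ((S.comap S₁.subtype.toHom : L.Substructure S₁) : Set S₁) ∪
        (T.comap S₁.subtype.toHom : L.Substructure S₁) := by rw [hUe]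
      exact h4
    change x ∈ U.map S₁.subtype.toHom ↔ x ∈ S ∨ x ∈ T
    rw [mem_map_sub]
    constructor
    · rintro ⟨h4, h5⟩
      exact (h3 _).1 h5
    · intro h4
      have h5 : x ∈ S₁ := by
        rcases h4 with h4 | h4
        · exact hSS₁ h4
        · exact hTS₁ h4
      exact ⟨h5, (h3 _).2 h4⟩
  by_cases hne : ((S : Set N) ∪ T).Nonempty
  · refine exists_closed_of hl hleast (mk_cl_le hK hN) hsmall hne ?_
    rintro a (ha | ha) x hx
    · exact Or.inl (hx S hS ha)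
    · exact Or.inr (hx T hT ha)
  · rw [Set.not_nonempty_iff_eq_empty, Set.union_empty_iff] at hne
    exact ⟨S, hS, by rw [hne.1, hne.2, Set.union_empty]⟩

end basic

end Vale.Agent.P307.Triv
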