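import Vale.Agent.P307.Triv.Defs

universe u

open FirstOrder Cardinal Set

namespace Vale.Agent.P307.Triv

/-- The structure `N` has disintegrated closures with respect to `K`: each element of `N` belongs to
a least strong substructure, and the union of any two strong substructures of `N` is a strong
substructure. -/
def DisModel {L : Language.{u, u}} (K : AEC L) (N : Type u) [L.Structure N] : Prop :=
  (∀ a : N, ∃ S : L.Substructure N, K.le S ∧ a ∈ S ∧
    ∀ T : L.Substructure N, K.le T → a ∈ T → S ≤ T) ∧
  ∀ S T : L.Substructure N, K.le S → K.le T →
    ∃ U : L.Substructure N, K.le U ∧ (U : Set N) = (S : Set N) ∪ T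

end Vale.Agent.P307.Triv
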