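import Vale.Agent.P307.Triv.SymB

/-!
Coordinates of the model of the categoricity cardinal.
-/

universe u

open FirstOrder Cardinal Set Language Structure

namespace Vale.Agent.P307.Triv

open Vale.Agent.P307.H67

theorem cl_reflS {L : Language.{u, u}} (K : AEC L) {N : Type u} [L.Structure N] (a : N) :
    cl K a a := fun _ _ ha => ha

theorem cl_transS {L : Language.{u, u}} (K : AEC L) {N : Type u} [L.Structure N] {a b c : N}
    (h : cl K a b) (h' : cl K b c) : cl K a c := fun S hS hc => h S hS (h' S hS hc)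

theorem coords (hA1 : SpecA1.{u}) {l : Cardinal.{u}} {L : Language.{u, u}} [L.IsRelational]
    {K : AEC L} (hK : K.IsLS l) (hD : Disintegrated K) {Λ : Type u} (hΛ : #Λ = l) {N I : Type u}
    [L.Structure N] [(L.sum (LU Λ)).Structure N] [Infinite I] (hN : K.mem N) (e : I → N)
    (he : Function.Injective e)
    (hcl : ∀ x a : N, cl K x a ↔ ∃ ξ : Λ, funMap (fsym L ξ) (fun _ => a) = x)
    (hsym : ∀ (n : ℕ) (A : Atm L n) (t : Fin n → (L.sum (LU Λ)).Term (Fin 1)) (g g' : Fin n → I),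
      (∀ k k', g k = g k' ↔ g' k = g' k') →
      (A.Holds (fun k => ev e (t k) (g k)) ↔ A.Holds (fun k => ev e (t k) (g' k)))) :
    ∃ (R E : Type u) (_ : L.Structure (R ⊕ (I × E))), K.mem (R ⊕ (I × E)) ∧ #R ≤ l ∧ #E ≤ l ∧
      Nonempty E ∧ SymM L R I E (fun x a => cl K x a) := by
  classical
  have hl := hK.1
  obtain ⟨hA, hA'⟩ := hA1 L K l hK hD
  obtain ⟨-, hAc⟩ := hA N hN
  let L₁ : Language.{u, u} := L.sum (LU Λ)
  have hL₁ : L₁.card ≤ l := card_LU_le hl hK.2.1 hΛ.le
  let T : Type u := L₁.Term (Fin 1)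
  have hT : #T ≤ l := mk_term_fin_le hl hL₁ 1
  let v₀ : T := Term.var 0
  have hv₀ : ∀ i, ev e v₀ i = e i := fun _ => rfl
  let ap : Λ → T → T := fun ξ t => Term.func (fsym L ξ) (fun _ => t)
  have hap : ∀ ξ t i, ev e (ap ξ t) i = funMap (fsym L ξ) (fun _ => ev e t i) := fun _ _ _ => rfl
  have hS2 : ∀ (t t' : T) (i j i' j' : I), (i = j ↔ i' = j') →
      (ev e t i = ev e t' j ↔ ev e t i' = ev e t' j') := by
    intro t t' i j i' j' h
    have h1 := hsym 2 (Atm.eq 0 1) ![t, t'] ![i, j] ![i', j'] (by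
      intro k k'
      refine Fin.cases ?_ (fun k => ?_) k <;> refine Fin.cases ?_ (fun k' => ?_) k'
      · simp
      · rw [Subsingleton.elim k' 0]
        exact h
      · rw [Subsingleton.elim k 0]
        exact ⟨fun h2 => (h.1 h2.symm).symm, fun h2 => (h.2 h2.symm).symm⟩
      · rw [Subsingleton.elim k 0, Subsingleton.elim k' 0]
        simp)
    exact h1
  let R1 : Set N := {x | ∃ t : T, ∀ i, ev e t i = x}
  have hf1 : ∀ (t t' : T) (i j : I), ev e t i ∉ R1 → ev e t i = ev e t' j → i = j := by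
    intro t t' i j h h'
    by_contra hne
    refine h ⟨t, fun k => ?_⟩
    obtain ⟨j', hj'⟩ := Infinite.exists_notMem_finset ({k, i} : Finset I)
    rw [Finset.mem_insert, Finset.mem_singleton, not_or] at hj'
    have h1 := (hS2 t t' i j i j' ⟨fun h2 => absurd h2 hne, fun h2 => absurd h2.symm hj'.2⟩).1 h'
    have h2 := (hS2 t t' i j k j' ⟨fun h2 => absurd h2 hne, fun h2 => absurd h2.symm hj'.1⟩).1 h'
    rw [h1, h2]
  -- equalities at one index hold at all indices
  have hS1 : ∀ (t t' : T) (i j : I), ev e t i = ev e t' i → ev e t j = ev e t' j :=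
    fun t t' i j h => (hS2 t t' i i j j (by simp)).1 h
  -- values outside of the base stay outside
  have hout : ∀ (t : T) (i j : I), ev e t i ∉ R1 → ev e t j ∉ R1 := by
    rintro t i j h ⟨s, hs⟩
    have h1 := hS1 t s j i (hs j).symm
    exact h ⟨s, fun k => by rw [hs k, h1, hs i]⟩
  have i₀ : I := Classical.arbitrary I
  let E' : Set N := {x | x ∉ R1 ∧ ∃ t : T, ev e t i₀ = x}
  have hx₀ : e i₀ ∈ E' := by
    refine ⟨?_, v₀, rfl⟩
    rintro ⟨t, ht⟩
    obtain ⟨i₁, hi₁⟩ := Infinite.exists_notMem_finset ({i₀} : Finset I)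
    rw [Finset.mem_singleton] at hi₁
    have h1 := hS1 t v₀ i₀ i₁ (ht i₀)
    rw [hv₀, ht i₁] at h1
    exact hi₁ (he h1.symm)
  let G : N → N → Prop := fun x y => (x ∈ E' ∧ y ∈ E') ∧ (cl K x y ∨ cl K y x)
  let Es : Set N := {x | x ∈ E' ∧ Relation.ReflTransGen G (e i₀) x}
  let Rs : Set N := {s | s ∈ R1 ∧ ∃ x ∈ Es, cl K s x}
  choose tm htm using fun x : Es => x.2.1.2
  choose ts hts using fun s : Rs => s.2.1
  let W : Type u := Rs ⊕ (I × Es)
  let F : W → N := Sum.elim (fun s => s.1) (fun p => ev e (tm p.2) p.1)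
  have hFl : ∀ s : Rs, F (Sum.inl s) = s.1 := fun _ => rfl
  have hFr : ∀ i x, F (Sum.inr (i, x)) = ev e (tm x) i := fun _ _ => rfl
  have hFr0 : ∀ x : Es, F (Sum.inr (i₀, x)) = x.1 := fun x => htm x
  have hFout : ∀ i x, F (Sum.inr (i, x)) ∉ R1 := by
    intro i x
    rw [hFr]
    refine hout _ i₀ _ ?_
    rw [htm]
    exact x.2.1.1
  have hFinj : Function.Injective F := by
    rintro (s | ⟨i, x⟩) (s' | ⟨j, x'⟩) h
    · rw [hFl, hFl] at h
      rw [Subtype.ext h]
    · exact absurd (h ▸ s.2.1 : F (Sum.inr (j, x')) ∈ R1) (hFout j x')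
    · exact absurd (h.symm ▸ s'.2.1 : F (Sum.inr (i, x)) ∈ R1) (hFout i x)
    · have h1 : i = j := hf1 (tm x) (tm x') i j (hFout i x) h
      subst h1
      have h2 := hS1 (tm x) (tm x') i i₀ h
      rw [htm, htm] at h2
      rw [Subtype.ext h2]
  have hEs : ∀ x : Es, ∀ z ∈ E', (cl K z x.1 ∨ cl K x.1 z) → z ∈ Es := by
    intro x z hz h
    exact ⟨hz, x.2.2.tail ⟨⟨x.2.1, hz⟩, h.symm⟩⟩
  have hclosed : Closed (fun x a => cl K x a) (range F) := by
    rintro _ ⟨(s | ⟨i, x⟩), rfl⟩ z hz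
    · obtain ⟨ξ, hξ⟩ := (hcl _ _).1 hz
      obtain ⟨t, ht⟩ := s.2.1
      have h1 : z ∈ R1 := ⟨ap ξ t, fun i => by rw [hap, ht i]; exact hξ⟩
      obtain ⟨x, hx, hsx⟩ := s.2.2
      exact ⟨Sum.inl ⟨z, h1, x, hx, cl_transS K hz hsx⟩, rfl⟩
    · obtain ⟨ξ, hξ⟩ := (hcl _ _).1 hz
      have hz' : ev e (ap ξ (tm x)) i = z := hξ
      have hz₀ : cl K (ev e (ap ξ (tm x)) i₀) x.1 := by
        refine (hcl _ _).2 ⟨ξ, ?_⟩
        rw [hap, htm]
      by_cases h0 : ev e (ap ξ (tm x)) i₀ ∈ R1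
      · obtain ⟨s, hs⟩ := h0
        have h1 := hS1 (ap ξ (tm x)) s i₀ i (hs i₀).symm
        have h2 : z = ev e (ap ξ (tm x)) i₀ := by rw [← hz', h1, hs i]
        exact ⟨Sum.inl ⟨z, ⟨s, fun k => by rw [h2, hs k]⟩, x.1, x.2, h2 ▸ hz₀⟩, rfl⟩
      · have h1 : ev e (ap ξ (tm x)) i₀ ∈ Es := hEs x _ ⟨h0, _, rfl⟩ (Or.inl hz₀)
        refine ⟨Sum.inr (i, ⟨_, h1⟩), ?_⟩
        rw [hFr, ← hz']
        exact hS1 _ _ i₀ i (htm ⟨_, h1⟩)
  have hEne : Nonempty Es := ⟨⟨e i₀, hx₀, Relation.ReflTransGen.refl⟩⟩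
  obtain ⟨S, hS, hSY⟩ := hAc (range F) ⟨_, ⟨Sum.inr (i₀, Classical.arbitrary Es), rfl⟩⟩ hclosed
  let strW : L.Structure W :=
    { funMap := fun {n} f _ => isEmptyElim (α := L.Functions n) f
      RelMap := fun {n} r v => RelMap r (fun k => F (v k)) }
  have hFS : ∀ w : W, F w ∈ S := fun w => by
    have : F w ∈ (S : Set N) := by
      rw [hSY]
      exact ⟨w, rfl⟩
    exact this
  let E₀ : W ≃ S := Equiv.ofBijective (fun w => ⟨F w, hFS w⟩) ⟨fun w w' h =>
    hFinj (congrArg Subtype.val h), fun z => by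
      have h1 : z.1 ∈ (S : Set N) := z.2
      rw [hSY] at h1
      obtain ⟨w, hw⟩ := h1
      exact ⟨w, Subtype.ext hw⟩⟩
  let E₁ : W ≃[L] S :=
    { E₀ with
      map_fun' := fun {n} f => isEmptyElim (α := L.Functions n) f
      map_rel' := fun {n} r v => Iff.rfl }
  have hW : K.mem W := K.mem_iso E₁.symm (K.mem_of_le S hS).1
  have hC := hA' W N hW hN ⊤ S (E₁.comp Substructure.topEquiv) (K.le_refl hW) hS F (fun a => rfl)
  have hc : ∀ x a : W, cl K (F x) (F a) ↔ cl K x a := fun x a =>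
    hC.cl a (Substructure.mem_top a) x (Substructure.mem_top x)
  refine ⟨Rs, Es, strW, hW, ?_, ?_, hEne, ?_⟩
  · refine le_trans ?_ hT
    refine mk_le_of_injective (f := ts) fun s s' h => ?_
    apply Subtype.ext
    rw [← hts s i₀, ← hts s' i₀, h]
  · refine le_trans ?_ hT
    refine mk_le_of_injective (f := tm) fun x x' h => ?_
    apply Subtype.ext
    rw [← htm x, ← htm x', h]
  · have hub : ∀ (s : Rs) (i j : I) (x : Es), cl K s.1 (F (Sum.inr (i, x))) →
        cl K s.1 (F (Sum.inr (j, x))) := by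
      intro s i j x h
      obtain ⟨ξ, hξ⟩ := (hcl _ _).1 h
      refine (hcl _ _).2 ⟨ξ, ?_⟩
      have h1 : ev e (ap ξ (tm x)) i = ev e (ts s) i := by
        rw [hts s i]
        exact hξ
      have h2 := hS1 _ _ i j h1
      rw [hts s j] at h2
      exact h2
    have hup : ∀ (i j : I) (x x' : Es), cl K (F (Sum.inr (i, x))) (F (Sum.inr (i, x'))) →
        cl K (F (Sum.inr (j, x))) (F (Sum.inr (j, x'))) := by
      intro i j x x' h
      obtain ⟨ξ, hξ⟩ := (hcl _ _).1 h
      refine (hcl _ _).2 ⟨ξ, ?_⟩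
      have h1 : ev e (ap ξ (tm x')) i = ev e (tm x) i := hξ
      exact hS1 _ _ i j h1
    constructor
    · intro n r v σ hσ
      let ixd : W → I := Sum.elim (fun _ => i₀) (fun p => p.1)
      obtain ⟨b, hb⟩ := Infinite.exists_notMem_finset
        ((Finset.univ.image (fun k => ixd (v k))) ∪ (Finset.univ.image (fun k => σ (ixd (v k)))))
      rw [Finset.mem_union, not_or] at hb
      have hb1 : ∀ k i x, v k = Sum.inr (i, x) → b ≠ i := by
        intro k i x hv h
        refine hb.1 (Finset.mem_image.2 ⟨k, Finset.mem_univ _, ?_⟩)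
        rw [hv]
        exact h.symm
      have hb2 : ∀ k i x, v k = Sum.inr (i, x) → b ≠ σ i := by
        intro k i x hv h
        refine hb.2 (Finset.mem_image.2 ⟨k, Finset.mem_univ _, ?_⟩)
        rw [hv]
        exact h.symm
      let τ : W → T := Sum.elim (fun s => ts s) (fun p => tm p.2)
      let ix : W → I := Sum.elim (fun _ => b) (fun p => p.1)
      let ix' : W → I := Sum.elim (fun _ => b) (fun p => σ p.1)
      have e1 : ∀ w : W, ev e (τ w) (ix w) = F w := by
        rintro (s | ⟨i, x⟩)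
        · exact hts s b
        · rfl
      have e2 : ∀ w : W, ev e (τ w) (ix' w) = F (mv σ w) := by
        rintro (s | ⟨i, x⟩)
        · exact hts s b
        · rfl
      have h1 := hsym n (Atm.rel r) (fun k => τ (v k)) (fun k => ix' (v k)) (fun k => ix (v k)) (by
        intro k k'
        rcases hv : v k with s | ⟨i, x⟩ <;> rcases hv' : v k' with s' | ⟨i', x'⟩
        · exact Iff.rfl
        · exact ⟨fun h => absurd h (hb2 k' i' x' hv'), fun h => absurd h (hb1 k' i' x' hv')⟩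
        · exact ⟨fun h => absurd h.symm (hb2 k i x hv), fun h => absurd h.symm (hb1 k i x hv)⟩
        · exact ⟨fun h => hσ k k' i i' x x' hv hv' h, fun h => congrArg σ h⟩)
      simp only [e1, e2] at h1
      exact h1
    · exact fun x => cl_reflS K x
    · exact fun x y z h h' => cl_transS K h h'
    · rintro (s' | ⟨i, x⟩) s h
      · exact ⟨s', rfl⟩
      · have h1 := (hc _ _).2 h
        obtain ⟨ξ, hξ⟩ := (hcl _ _).1 h1
        exact absurd ⟨ap ξ (ts s), fun k => by
          rw [hap, hts s k]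
          exact hξ⟩ (hFout i x)
    · intro i x j x' h
      have h1 := (hc _ _).2 h
      obtain ⟨ξ, hξ⟩ := (hcl _ _).1 h1
      exact hf1 (tm x) (ap ξ (tm x')) i j (hFout i x) hξ.symm
    · intro s i j x h
      exact (hc _ _).1 (hub s i j x ((hc _ _).2 h))
    · intro i j x x' h
      exact (hc _ _).1 (hup i j x x' ((hc _ _).2 h))
    · -- connectedness
      intro i
      let Q : Es → Es → Prop := fun a b => cl K (Sum.inr (i, a) : W) (Sum.inr (i, b) : W) ∨
        cl K (Sum.inr (i, b) : W) (Sum.inr (i, a) : W)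
      have hQ : ∀ a b : Es, (cl K a.1 b.1 ∨ cl K b.1 a.1) → Q a b := by
        intro a b h
        rcases h with h | h
        · left
          refine (hc _ _).1 (hup i₀ i a b ?_)
          rw [hFr0, hFr0]
          exact h
        · right
          refine (hc _ _).1 (hup i₀ i b a ?_)
          rw [hFr0, hFr0]
          exact h
      have hQs : ∀ a b, Q a b → Q b a := fun a b h => h.symm
      let x₀ : Es := ⟨e i₀, hx₀, Relation.ReflTransGen.refl⟩
      have hreach : ∀ z, Relation.ReflTransGen G (e i₀) z → ∀ hz : z ∈ Es,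
          Relation.ReflTransGen Q x₀ ⟨z, hz⟩ := by
        intro z hz
        induction hz with
        | refl => exact fun _ => Relation.ReflTransGen.refl
        | @tail y z hy hyz ih =>
          intro hz
          have hyE : y ∈ Es := ⟨hyz.1.1, hy⟩
          exact (ih hyE).tail (hQ ⟨y, hyE⟩ ⟨z, hz⟩ hyz.2)
      intro a b
      have h1 := hreach a.1 a.2.2 a.2
      have h2 := hreach b.1 b.2.2 b.2
      have hsymm : ∀ {c d : Es}, Relation.ReflTransGen Q c d → Relation.ReflTransGen Q d c := by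
        intro c d h
        induction h with
        | refl => exact Relation.ReflTransGen.refl
        | tail _ h ih => exact Relation.ReflTransGen.head (hQs _ _ h) ih
      exact (hsymm h1).trans h2
    · intro s
      obtain ⟨x, hx, hsx⟩ := s.2.2
      refine ⟨⟨x, hx⟩, fun i => (hc _ _).1 (hub s i₀ i ⟨x, hx⟩ ?_)⟩
      rw [hFr0]
      exact hsx

end Vale.Agent.P307.Triv
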