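import Vale.Agent.P307.Triv.OneA
import Vale.Agent.P307.Triv.SymC

/-!
Part S for a single member with disintegrated closures.
-/

universe u

open FirstOrder Cardinal Set Language Structure

namespace Vale.Agent.P307.Triv

open Vale.Agent.P307.H67

/-- Ehrenfeucht-Mostowski models for a member with disintegrated closures -/
theorem exists_emO {l : Cardinal.{u}} {L : Language.{u, u}}
    [L.IsRelational] {K : AEC L} (hK : K.IsLS l) {κ : Cardinal.{u}}
    (hD : ∀ (N : Type u) [L.Structure N], K.mem N → #N = κ → DisModel K N)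
    (hlκ : l ≤ κ) {M : Type u} [L.Structure M] (hM : K.mem M) (hDM : DisModel K M) (hbig : hanf (2 ^ l) ≤ #M)
    {Λ : Type u} (hΛ : #Λ = l) :
    ∃ (_ : (L.sum (LU Λ)).Structure M) (a : ∀ n : ℕ, Fin n → M),
      ∀ (I : Type u) [LinearOrder I], #I = κ → ∃ (N : Type u) (_ : L.Structure N)
        (_ : (L.sum (LU Λ)).Structure N)
        (_ : (LHom.sumInl : L →ᴸ L.sum (LU Λ)).IsExpansionOn N) (e : I → N),
        IsEM (L.sum (LU Λ)) a e ∧ K.mem N ∧ #N = κ ∧ Function.Injective e ∧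
        (∀ z : N, ∃ (s : (L.sum (LU Λ)).Term (Fin 1)) (i : I), ev e s i = z) ∧
        ∀ x a : N, cl K x a ↔ ∃ ξ : Λ, funMap (fsym L ξ) (fun _ => a) = x := by
  classical
  have hl := hK.1
  have hκ0 : ℵ₀ ≤ κ := hl.trans hlκ
  have hA0 : ∀ a : M, #{x : M | cl K x a} ≤ l := mk_cl_le hK hM
  have hAc : ∀ X : Set M, X.Nonempty → Closed (fun x a => cl K x a) X →
      ∃ S : L.Substructure M, K.le S ∧ (S : Set M) = X :=
    fun X h h' => exists_closed' hK hM hDM h h'
  let X : Type u := (#M).ord.ToType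
  have hX : #X = #M := by simp [X]
  obtain ⟨eq⟩ := Cardinal.eq.1 hX
  let x : X → M := eq
  have hxinj : Function.Injective x := eq.injective
  have hXbig : hanf (2 ^ l) ≤ #X := by
    rw [hX]
    exact hbig
  have hMne : Nonempty M := mk_ne_zero_iff.1
    (aleph0_pos.trans_le ((aleph0_le_hanf _).trans hbig)).ne'
  have hself : ∀ (N : Type u) [L.Structure N] (a : N), cl K a a := fun N _ a S _ ha => ha
  choose g hg using fun a : M => exists_enum (Λ := Λ) (S := {x : M | cl K x a}) ⟨a, hself M a⟩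
    ((hA0 a).trans hΛ.ge)
  let L₁ : Language.{u, u} := L.sum (LU Λ)
  let φ : L →ᴸ L₁ := LHom.sumInl
  let strX : (LU Λ).Structure M := luStr (g (Classical.arbitrary M)) (fun ξ a => g a ξ)
  have hL₁ : L₁.card ≤ l := card_LU_le hl hK.2.1 hΛ.le
  have hfun : ∀ (ξ : Λ) (a : M), funMap (fsym L ξ : L₁.Functions 1) (fun _ : Fin 1 => a) = g a ξ :=
    fun _ _ => rfl
  have hcl1 : Gr.Cl1 K φ M := by
    intro S
    have h5 : (S : Set M).Nonempty := by
      have hΛne : Nonempty Λ := mk_ne_zero_iff.1 (by rw [hΛ]; exact (aleph0_pos.trans_le hl).ne')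
      obtain ⟨ξ⟩ := hΛne
      exact ⟨_, S.fun_mem (csym L ξ : L₁.Functions 0) (fun k => k.elim0) (fun k => k.elim0)⟩
    have h6 : Closed (fun x a => cl K x a) (S : Set M) := by
      intro a ha y hy
      have h4 : y ∈ range (g a) := by
        rw [hg a]
        exact hy
      obtain ⟨ξ, hξ⟩ := h4
      rw [← hξ, ← hfun ξ a]
      exact S.fun_mem (fsym L ξ : L₁.Functions 1) (fun _ => a) (fun _ => ha)
    obtain ⟨S', h1, h2⟩ := hAc (S : Set M) h5 h6
    have h3 : φ.substructureReduct S = S' := SetLike.coe_injective h2.symm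
    rw [h3]
    exact h1
  obtain ⟨a, ha1, ha2⟩ := exists_template (L := L₁) hl hL₁ x hXbig
  have hta : IsTemplate L₁ (fun n k => x (a n k)) := fun k n g hg => ha2 k n g hg
  have hne01 : x (a 2 0) ≠ x (a 2 1) := by
    intro h
    exact absurd (hxinj h) ((ha1 2) (by decide : (0 : Fin 2) < 1)).ne
  refine ⟨inferInstance, fun n k => x (a n k), ?_⟩
  intro I _ hI
  obtain ⟨N, strN, e, he, htop⟩ := exists_isEM hta I
  let strN' : L.Structure N := φ.reduct N
  have hloc := Gr.isEM_local he htop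
  have hNK : K.mem N ∧ Gr.Cl1 K φ N := hcl1.transfer fun A => by
    obtain ⟨ρ⟩ := hloc A
    exact ⟨ρ, ρ.injective⟩
  have hinj : Function.Injective e := by
    have h1 : ∀ w w' : I, w < w' → e w ≠ e w' := by
      intro w w' hw h
      have hm : StrictMono (![w, w'] : Fin 2 → I) := by
        rw [Fin.strictMono_iff_lt_succ]
        intro i
        have : i = 0 := Subsingleton.elim _ _
        subst this
        exact hw
      have hat : AtEq L₁ (fun k => e ((![w, w'] : Fin 2 → I) k)) (fun k => x (a 2 k)) :=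
        he 2 _ hm
      have h2 := (hat.1 (Term.var 0) (Term.var 1)).1 h
      exact hne01 h2
    intro w w' h
    rcases lt_trichotomy w w' with hw | hw | hw
    · exact absurd h (h1 w w' hw)
    · exact hw
    · exact absurd h.symm (h1 w' w hw)
  have hterm : ∀ x : N, ∃ t : L₁.Term I, t.realize e = x := fun x => by
    rw [← Gr.mem_closure_range, htop]
    trivial
  have hIne : Nonempty I := mk_ne_zero_iff.1 (by rw [hI]; exact (aleph0_pos.trans_le hκ0).ne')
  have hNκ : #N = κ := by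
    apply le_antisymm
    · choose t ht using hterm
      have h2 : #N ≤ #(L₁.Term I) := mk_le_of_injective (f := t) fun x y hxy => by
        rw [← ht x, ← ht y, hxy]
      exact h2.trans (mk_term_le hκ0 (hL₁.trans hlκ) I hI.le)
    · rw [← hI]
      exact mk_le_of_injective hinj
  refine ⟨N, strN', strN, inferInstance, e, he, hNK.1, hNκ, hinj, ?_, ?_⟩
  · intro z
    obtain ⟨t, ht⟩ := hterm z
    obtain ⟨s, i, rfl⟩ := term_unary t
    refine ⟨s, i, ?_⟩
    rw [← ht, Term.realize_relabel]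
    rfl
  · intro y b
    let S : L₁.Substructure N := Substructure.closure L₁ ((({b} : Finset N)) : Set N)
    obtain ⟨ρ⟩ := hloc {b}
    have hb : b ∈ S := Substructure.subset_closure (by simp)
    have hS : K.le (φ.substructureReduct S) := hNK.2 S
    let E : (φ.substructureReduct S) ↪[L] M := Gr.subEmb φ S ρ
    have hE : K.le E.toHom.range := hcl1.emb S ρ
    let f : N → M := fun z => if h : z ∈ S then ρ ⟨z, h⟩ else Classical.arbitrary M
    have hf : ∀ (z : N) (h : z ∈ S), f z = ρ ⟨z, h⟩ := fun z h => dif_pos h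
    have hC := cEmb_of_equiv' (hD N hNK.1 hNκ) hDM E.equivRange hS hE f (by
      intro z
      rw [hf z.1 z.2]
      rfl)
    have hfn : ∀ ξ : Λ, funMap (fsym L ξ : L₁.Functions 1) (fun _ : Fin 1 => b) ∈ S := fun ξ =>
      S.fun_mem (fsym L ξ : L₁.Functions 1) (fun _ => b) (fun _ => hb)
    have hρ : ∀ ξ : Λ, f (funMap (fsym L ξ : L₁.Functions 1) (fun _ : Fin 1 => b)) =
        g (f b) ξ := by
      intro ξ
      rw [hf _ (hfn ξ), hf b hb, ← hfun]
      have h1 := ρ.map_fun (fsym L ξ : L₁.Functions 1) (fun _ => (⟨b, hb⟩ : S))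
      exact h1
    constructor
    · intro hy
      have hyS : y ∈ S := hy (φ.substructureReduct S) hS hb
      have h1 : cl K (f y) (f b) := (hC.cl b hb y hyS).2 hy
      have h2 : f y ∈ range (g (f b)) := by
        rw [hg]
        exact h1
      obtain ⟨ξ, hξ⟩ := h2
      refine ⟨ξ, ?_⟩
      rw [← hρ ξ] at hξ
      exact hC.inj (hfn ξ) hyS hξ
    · rintro ⟨ξ, rfl⟩
      refine (hC.cl b hb _ (hfn ξ)).1 ?_
      rw [hρ ξ]
      have h2 : g (f b) ξ ∈ range (g (f b)) := ⟨ξ, rfl⟩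
      rw [hg] at h2
      exact h2

theorem coordsO {l : Cardinal.{u}} {L : Language.{u, u}} [L.IsRelational]
    {K : AEC L} (hK : K.IsLS l) {Λ : Type u} (hΛ : #Λ = l) {N I : Type u}
    [L.Structure N] [(L.sum (LU Λ)).Structure N] [Infinite I] (hN : K.mem N) (hDN : DisModel K N) (e : I → N)
    (he : Function.Injective e)
    (hcl : ∀ x a : N, cl K x a ↔ ∃ ξ : Λ, funMap (fsym L ξ) (fun _ => a) = x)
    (hsym : ∀ (n : ℕ) (A : Atm L n) (t : Fin n → (L.sum (LU Λ)).Term (Fin 1)) (g g' : Fin n → I),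
      (∀ k k', g k = g k' ↔ g' k = g' k') →
      (A.Holds (fun k => ev e (t k) (g k)) ↔ A.Holds (fun k => ev e (t k) (g' k)))) :
    ∃ (R E : Type u) (_ : L.Structure (R ⊕ (I × E))), K.mem (R ⊕ (I × E)) ∧ #R ≤ l ∧ #E ≤ l ∧
      Nonempty E ∧ SymM L R I E (fun x a => cl K x a) := by
  classical
  have hl := hK.1
  have hAc : ∀ X : Set N, X.Nonempty → Closed (fun x a => cl K x a) X →
      ∃ S : L.Substructure N, K.le S ∧ (S : Set N) = X :=
    fun X h h' => exists_closed' hK hN hDN h h'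
  let L₁ : Language.{u, u} := L.sum (LU Λ)
  have hL₁ : L₁.card ≤ l := card_LU_le hl hK.2.1 hΛ.le
  let T : Type u := L₁.Term (Fin 1)
  have hT : #T ≤ l := mk_term_fin_le hl hL₁ 1
  let v₀ : T := Term.var 0
  have hv₀ : ∀ i, ev e v₀ i = e i := fun _ => rfl
  let ap : Λ → T → T := fun ξ t => Term.func (fsym L ξ) (fun _ => t)
  have hap : ∀ ξ t i, ev e (ap ξ t) i = funMap (fsym L ξ) (fun _ => ev e t i) := fun _ _ _ => rfl
  have hS2 : ∀ (t t' : T) (i j i' j' : I), (i = j ↔ i' = j') →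
      (ev e t i = ev e t' j ↔ ev e t i' = ev e t' j') := by
    intro t t' i j i' j' h
    have h1 := hsym 2 (Atm.eq 0 1) ![t, t'] ![i, j] ![i', j'] (by
      intro k k'
      refine Fin.cases ?_ (fun k => ?_) k <;> refine Fin.cases ?_ (fun k' => ?_) k'
      · simp
      · rw [Subsingleton.elim k' 0]
        exact h
      · rw [Subsingleton.elim k 0]
        exact ⟨fun h2 => (h.1 h2.symm).symm, fun h2 => (h.2 h2.symm).symm⟩
      · rw [Subsingleton.elim k 0, Subsingleton.elim k' 0]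
        simp)
    exact h1
  let R1 : Set N := {x | ∃ t : T, ∀ i, ev e t i = x}
  have hf1 : ∀ (t t' : T) (i j : I), ev e t i ∉ R1 → ev e t i = ev e t' j → i = j := by
    intro t t' i j h h'
    by_contra hne
    refine h ⟨t, fun k => ?_⟩
    obtain ⟨j', hj'⟩ := Infinite.exists_notMem_finset ({k, i} : Finset I)
    rw [Finset.mem_insert, Finset.mem_singleton, not_or] at hj'
    have h1 := (hS2 t t' i j i j' ⟨fun h2 => absurd h2 hne, fun h2 => absurd h2.symm hj'.2⟩).1 h'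
    have h2 := (hS2 t t' i j k j' ⟨fun h2 => absurd h2 hne, fun h2 => absurd h2.symm hj'.1⟩).1 h'
    rw [h1, h2]
  -- equalities at one index hold at all indices
  have hS1 : ∀ (t t' : T) (i j : I), ev e t i = ev e t' i → ev e t j = ev e t' j :=
    fun t t' i j h => (hS2 t t' i i j j (by simp)).1 h
  -- values outside of the base stay outside
  have hout : ∀ (t : T) (i j : I), ev e t i ∉ R1 → ev e t j ∉ R1 := by
    rintro t i j h ⟨s, hs⟩
    have h1 := hS1 t s j i (hs j).symm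
    exact h ⟨s, fun k => by rw [hs k, h1, hs i]⟩
  have i₀ : I := Classical.arbitrary I
  let E' : Set N := {x | x ∉ R1 ∧ ∃ t : T, ev e t i₀ = x}
  have hx₀ : e i₀ ∈ E' := by
    refine ⟨?_, v₀, rfl⟩
    rintro ⟨t, ht⟩
    obtain ⟨i₁, hi₁⟩ := Infinite.exists_notMem_finset ({i₀} : Finset I)
    rw [Finset.mem_singleton] at hi₁
    have h1 := hS1 t v₀ i₀ i₁ (ht i₀)
    rw [hv₀, ht i₁] at h1
    exact hi₁ (he h1.symm)
  let G : N → N → Prop := fun x y => (x ∈ E' ∧ y ∈ E') ∧ (cl K x y ∨ cl K y x)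
  let Es : Set N := {x | x ∈ E' ∧ Relation.ReflTransGen G (e i₀) x}
  let Rs : Set N := {s | s ∈ R1 ∧ ∃ x ∈ Es, cl K s x}
  choose tm htm using fun x : Es => x.2.1.2
  choose ts hts using fun s : Rs => s.2.1
  let W : Type u := Rs ⊕ (I × Es)
  let F : W → N := Sum.elim (fun s => s.1) (fun p => ev e (tm p.2) p.1)
  have hFl : ∀ s : Rs, F (Sum.inl s) = s.1 := fun _ => rfl
  have hFr : ∀ i x, F (Sum.inr (i, x)) = ev e (tm x) i := fun _ _ => rfl
  have hFr0 : ∀ x : Es, F (Sum.inr (i₀, x)) = x.1 := fun x => htm x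
  have hFout : ∀ i x, F (Sum.inr (i, x)) ∉ R1 := by
    intro i x
    rw [hFr]
    refine hout _ i₀ _ ?_
    rw [htm]
    exact x.2.1.1
  have hFinj : Function.Injective F := by
    rintro (s | ⟨i, x⟩) (s' | ⟨j, x'⟩) h
    · rw [hFl, hFl] at h
      rw [Subtype.ext h]
    · exact absurd (h ▸ s.2.1 : F (Sum.inr (j, x')) ∈ R1) (hFout j x')
    · exact absurd (h.symm ▸ s'.2.1 : F (Sum.inr (i, x)) ∈ R1) (hFout i x)
    · have h1 : i = j := hf1 (tm x) (tm x') i j (hFout i x) h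
      subst h1
      have h2 := hS1 (tm x) (tm x') i i₀ h
      rw [htm, htm] at h2
      rw [Subtype.ext h2]
  have hEs : ∀ x : Es, ∀ z ∈ E', (cl K z x.1 ∨ cl K x.1 z) → z ∈ Es := by
    intro x z hz h
    exact ⟨hz, x.2.2.tail ⟨⟨x.2.1, hz⟩, h.symm⟩⟩
  have hclosed : Closed (fun x a => cl K x a) (range F) := by
    rintro _ ⟨(s | ⟨i, x⟩), rfl⟩ z hz
    · obtain ⟨ξ, hξ⟩ := (hcl _ _).1 hz
      obtain ⟨t, ht⟩ := s.2.1
      have h1 : z ∈ R1 := ⟨ap ξ t, fun i => by rw [hap, ht i]; exact hξ⟩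
      obtain ⟨x, hx, hsx⟩ := s.2.2
      exact ⟨Sum.inl ⟨z, h1, x, hx, cl_transS K hz hsx⟩, rfl⟩
    · obtain ⟨ξ, hξ⟩ := (hcl _ _).1 hz
      have hz' : ev e (ap ξ (tm x)) i = z := hξ
      have hz₀ : cl K (ev e (ap ξ (tm x)) i₀) x.1 := by
        refine (hcl _ _).2 ⟨ξ, ?_⟩
        rw [hap, htm]
      by_cases h0 : ev e (ap ξ (tm x)) i₀ ∈ R1
      · obtain ⟨s, hs⟩ := h0
        have h1 := hS1 (ap ξ (tm x)) s i₀ i (hs i₀).symm
        have h2 : z = ev e (ap ξ (tm x)) i₀ := by rw [← hz', h1, hs i]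
        exact ⟨Sum.inl ⟨z, ⟨s, fun k => by rw [h2, hs k]⟩, x.1, x.2, h2 ▸ hz₀⟩, rfl⟩
      · have h1 : ev e (ap ξ (tm x)) i₀ ∈ Es := hEs x _ ⟨h0, _, rfl⟩ (Or.inl hz₀)
        refine ⟨Sum.inr (i, ⟨_, h1⟩), ?_⟩
        rw [hFr, ← hz']
        exact hS1 _ _ i₀ i (htm ⟨_, h1⟩)
  have hEne : Nonempty Es := ⟨⟨e i₀, hx₀, Relation.ReflTransGen.refl⟩⟩
  obtain ⟨S, hS, hSY⟩ := hAc (range F) ⟨_, ⟨Sum.inr (i₀, Classical.arbitrary Es), rfl⟩⟩ hclosed
  let strW : L.Structure W :=
    { funMap := fun {n} f _ => isEmptyElim (α := L.Functions n) f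
      RelMap := fun {n} r v => RelMap r (fun k => F (v k)) }
  have hFS : ∀ w : W, F w ∈ S := fun w => by
    have : F w ∈ (S : Set N) := by
      rw [hSY]
      exact ⟨w, rfl⟩
    exact this
  let E₀ : W ≃ S := Equiv.ofBijective (fun w => ⟨F w, hFS w⟩) ⟨fun w w' h =>
    hFinj (congrArg Subtype.val h), fun z => by
      have h1 : z.1 ∈ (S : Set N) := z.2
      rw [hSY] at h1
      obtain ⟨w, hw⟩ := h1
      exact ⟨w, Subtype.ext hw⟩⟩
  let E₁ : W ≃[L] S :=
    { E₀ with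
      map_fun' := fun {n} f => isEmptyElim (α := L.Functions n) f
      map_rel' := fun {n} r v => Iff.rfl }
  have hW : K.mem W := K.mem_iso E₁.symm (K.mem_of_le S hS).1
  have hC := cEmb_of_equiv' ((hDN.sub hS).iso E₁.symm) hDN (S := ⊤)
    (E₁.comp Substructure.topEquiv) (K.le_refl hW) hS F (fun a => rfl)
  have hc : ∀ x a : W, cl K (F x) (F a) ↔ cl K x a := fun x a =>
    hC.cl a (Substructure.mem_top a) x (Substructure.mem_top x)
  refine ⟨Rs, Es, strW, hW, ?_, ?_, hEne, ?_⟩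
  · refine le_trans ?_ hT
    refine mk_le_of_injective (f := ts) fun s s' h => ?_
    apply Subtype.ext
    rw [← hts s i₀, ← hts s' i₀, h]
  · refine le_trans ?_ hT
    refine mk_le_of_injective (f := tm) fun x x' h => ?_
    apply Subtype.ext
    rw [← htm x, ← htm x', h]
  · have hub : ∀ (s : Rs) (i j : I) (x : Es), cl K s.1 (F (Sum.inr (i, x))) →
        cl K s.1 (F (Sum.inr (j, x))) := by
      intro s i j x h
      obtain ⟨ξ, hξ⟩ := (hcl _ _).1 h
      refine (hcl _ _).2 ⟨ξ, ?_⟩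
      have h1 : ev e (ap ξ (tm x)) i = ev e (ts s) i := by
        rw [hts s i]
        exact hξ
      have h2 := hS1 _ _ i j h1
      rw [hts s j] at h2
      exact h2
    have hup : ∀ (i j : I) (x x' : Es), cl K (F (Sum.inr (i, x))) (F (Sum.inr (i, x'))) →
        cl K (F (Sum.inr (j, x))) (F (Sum.inr (j, x'))) := by
      intro i j x x' h
      obtain ⟨ξ, hξ⟩ := (hcl _ _).1 h
      refine (hcl _ _).2 ⟨ξ, ?_⟩
      have h1 : ev e (ap ξ (tm x')) i = ev e (tm x) i := hξ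
      exact hS1 _ _ i j h1
    constructor
    · intro n r v σ hσ
      let ixd : W → I := Sum.elim (fun _ => i₀) (fun p => p.1)
      obtain ⟨b, hb⟩ := Infinite.exists_notMem_finset
        ((Finset.univ.image (fun k => ixd (v k))) ∪ (Finset.univ.image (fun k => σ (ixd (v k)))))
      rw [Finset.mem_union, not_or] at hb
      have hb1 : ∀ k i x, v k = Sum.inr (i, x) → b ≠ i := by
        intro k i x hv h
        refine hb.1 (Finset.mem_image.2 ⟨k, Finset.mem_univ _, ?_⟩)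
        rw [hv]
        exact h.symm
      have hb2 : ∀ k i x, v k = Sum.inr (i, x) → b ≠ σ i := by
        intro k i x hv h
        refine hb.2 (Finset.mem_image.2 ⟨k, Finset.mem_univ _, ?_⟩)
        rw [hv]
        exact h.symm
      let τ : W → T := Sum.elim (fun s => ts s) (fun p => tm p.2)
      let ix : W → I := Sum.elim (fun _ => b) (fun p => p.1)
      let ix' : W → I := Sum.elim (fun _ => b) (fun p => σ p.1)
      have e1 : ∀ w : W, ev e (τ w) (ix w) = F w := by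
        rintro (s | ⟨i, x⟩)
        · exact hts s b
        · rfl
      have e2 : ∀ w : W, ev e (τ w) (ix' w) = F (mv σ w) := by
        rintro (s | ⟨i, x⟩)
        · exact hts s b
        · rfl
      have h1 := hsym n (Atm.rel r) (fun k => τ (v k)) (fun k => ix' (v k)) (fun k => ix (v k)) (by
        intro k k'
        rcases hv : v k with s | ⟨i, x⟩ <;> rcases hv' : v k' with s' | ⟨i', x'⟩
        · exact Iff.rfl
        · exact ⟨fun h => absurd h (hb2 k' i' x' hv'), fun h => absurd h (hb1 k' i' x' hv')⟩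
        · exact ⟨fun h => absurd h.symm (hb2 k i x hv), fun h => absurd h.symm (hb1 k i x hv)⟩
        · exact ⟨fun h => hσ k k' i i' x x' hv hv' h, fun h => congrArg σ h⟩)
      simp only [e1, e2] at h1
      exact h1
    · exact fun x => cl_reflS K x
    · exact fun x y z h h' => cl_transS K h h'
    · rintro (s' | ⟨i, x⟩) s h
      · exact ⟨s', rfl⟩
      · have h1 := (hc _ _).2 h
        obtain ⟨ξ, hξ⟩ := (hcl _ _).1 h1
        exact absurd ⟨ap ξ (ts s), fun k => by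
          rw [hap, hts s k]
          exact hξ⟩ (hFout i x)
    · intro i x j x' h
      have h1 := (hc _ _).2 h
      obtain ⟨ξ, hξ⟩ := (hcl _ _).1 h1
      exact hf1 (tm x) (ap ξ (tm x')) i j (hFout i x) hξ.symm
    · intro s i j x h
      exact (hc _ _).1 (hub s i j x ((hc _ _).2 h))
    · intro i j x x' h
      exact (hc _ _).1 (hup i j x x' ((hc _ _).2 h))
    · -- connectedness
      intro i
      let Q : Es → Es → Prop := fun a b => cl K (Sum.inr (i, a) : W) (Sum.inr (i, b) : W) ∨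
        cl K (Sum.inr (i, b) : W) (Sum.inr (i, a) : W)
      have hQ : ∀ a b : Es, (cl K a.1 b.1 ∨ cl K b.1 a.1) → Q a b := by
        intro a b h
        rcases h with h | h
        · left
          refine (hc _ _).1 (hup i₀ i a b ?_)
          rw [hFr0, hFr0]
          exact h
        · right
          refine (hc _ _).1 (hup i₀ i b a ?_)
          rw [hFr0, hFr0]
          exact h
      have hQs : ∀ a b, Q a b → Q b a := fun a b h => h.symm
      let x₀ : Es := ⟨e i₀, hx₀, Relation.ReflTransGen.refl⟩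
      have hreach : ∀ z, Relation.ReflTransGen G (e i₀) z → ∀ hz : z ∈ Es,
          Relation.ReflTransGen Q x₀ ⟨z, hz⟩ := by
        intro z hz
        induction hz with
        | refl => exact fun _ => Relation.ReflTransGen.refl
        | @tail y z hy hyz ih =>
          intro hz
          have hyE : y ∈ Es := ⟨hyz.1.1, hy⟩
          exact (ih hyE).tail (hQ ⟨y, hyE⟩ ⟨z, hz⟩ hyz.2)
      intro a b
      have h1 := hreach a.1 a.2.2 a.2
      have h2 := hreach b.1 b.2.2 b.2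
      have hsymm : ∀ {c d : Es}, Relation.ReflTransGen Q c d → Relation.ReflTransGen Q d c := by
        intro c d h
        induction h with
        | refl => exact Relation.ReflTransGen.refl
        | tail _ h ih => exact Relation.ReflTransGen.head (hQs _ _ h) ih
      exact (hsymm h1).trans h2
    · intro s
      obtain ⟨x, hx, hsx⟩ := s.2.2
      refine ⟨⟨x, hx⟩, fun i => (hc _ _).1 (hub s i₀ i ⟨x, hx⟩ ?_)⟩
      rw [hFr0]
      exact hsx

/-- symmetry of the model of cardinality `κ` if it has disintegrated closures -/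
theorem specSO : ∀ l : Cardinal.{u}, ℵ₀ ≤ l → ∃ μ : Cardinal.{u}, l < μ ∧
    ∀ (L : Language.{u, u}) [L.IsRelational] (K : AEC L), K.IsLS l →
      ∀ κ, μ ≤ κ → K.CategoricalIn κ →
        (∀ (N : Type u) [L.Structure N], K.mem N → #N = κ → DisModel K N) →
        ∃ (R I E : Type u) (_ : L.Structure (R ⊕ (I × E))),
          K.mem (R ⊕ (I × E)) ∧ #R ≤ l ∧ #E ≤ l ∧ Nonempty E ∧ #I = κ ∧
          SymM L R I E (fun x a => cl K x a) := by
  classical
  intro l hl
  have h2l : ℵ₀ ≤ 2 ^ l := hl.trans (cantor l).le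
  refine ⟨max (hanf (2 ^ l)) ((2 : Cardinal.{u}) ^ ((2 : Cardinal.{u}) ^ l)), ((cantor l).trans (cantor _)).trans_le
    (le_max_right _ _), ?_⟩
  intro L _ K hK κ hκ hcat hD
  have hκ1 : hanf (2 ^ l) ≤ κ := (le_max_left _ _).trans hκ
  have hκ2 : (2 : Cardinal.{u}) ^ ((2 : Cardinal.{u}) ^ l) ≤ κ := (le_max_right _ _).trans hκ
  have hlκ : l ≤ κ := ((cantor l).trans (cantor _)).le.trans hκ2
  have hκ0 : ℵ₀ ≤ κ := hl.trans hlκ
  obtain ⟨⟨M, _, hM, hMκ⟩, -⟩ := id hcat
  let Λ : Type u := l.out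
  have hΛ : #Λ = l := mk_out l
  obtain ⟨_, a, main⟩ := exists_emO hK hD hlκ hM (hD M hM hMκ) (by rw [hMκ]; exact hκ1) hΛ
  have hL₁ : (L.sum (LU Λ)).card ≤ l := card_LU_le hl hK.2.1 hΛ.le
  obtain ⟨J, _, D, Y, hJ, hDc, hY, hsep⟩ := exists_order h2l
  let I₁ : Type u := κ.ord.ToType
  have hI₁ : #I₁ = κ := by simp [I₁]
  let I₂ : Type u := J ⊕ₗ κ.ord.ToType
  have hI₂ : #I₂ = κ := by
    have h1 : #I₂ = #(J ⊕ κ.ord.ToType) := rfl
    rw [h1, mk_sum, lift_id, lift_id, mk_toType, card_ord]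
    exact add_eq_right hκ0 (hJ.trans hκ2)
  obtain ⟨N₁, _, _, x1, e₁, he₁, hN₁, hc₁, hinj₁, hev₁, hcl₁⟩ := main I₁ hI₁
  obtain ⟨N₂, _, _, x2, e₂, he₂, hN₂, hc₂, hinj₂, hev₂, hcl₂⟩ := main I₂ hI₂
  obtain ⟨f⟩ := hcat.2 N₂ N₁ hN₂ hN₁ hc₂ hc₁
  have hlt : ∀ p p' : J, p < p' → (Sum.inlₗ p : I₂) < Sum.inlₗ p' := fun p p' h =>
    Sum.Lex.inl_lt_inl_iff.2 h
  have hinl : Function.Injective (Sum.inlₗ : J → I₂) := fun p p' h => by
    rcases lt_trichotomy p p' with hw | hw | hw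
    · exact absurd h (hlt _ _ hw).ne
    · exact hw
    · exact absurd h (hlt _ _ hw).ne'
  have hlt' : ∀ p p' : J, (Sum.inlₗ p : I₂) < Sum.inlₗ p' → p < p' := fun p p' h => by
    rcases lt_trichotomy p p' with hw | hw | hw
    · exact hw
    · rw [hw] at h
      exact absurd h (lt_irrefl _)
    · exact absurd h (hlt _ _ hw).not_gt
  let D₂ : Set I₂ := (Sum.inlₗ : J → I₂) '' D
  let Y₂ : Set I₂ := (Sum.inlₗ : J → I₂) '' Y
  have hD₂ : #D₂ ≤ 2 ^ l := mk_image_le.trans hDc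
  have hY₂ : 2 ^ l < #Y₂ := by
    have h1 : #Y₂ = #Y := mk_image_eq hinl
    rw [h1]
    exact hY
  obtain ⟨_, ⟨y, hy, rfl⟩, _, ⟨y', hy', rfl⟩, hyy, hsame⟩ :=
    exists_same_type (LHom.sumInl : L →ᴸ L.sum (LU Λ)) he₁ hev₁ hl hL₁ f D₂ Y₂ hD₂ hY₂
  obtain ⟨lo, mi, hi, h1, h2, h3, h4⟩ := hsep y hy y' hy' (hlt' _ _ hyy)
  have hm := movable (LHom.sumInl : L →ᴸ L.sum (LU Λ)) he₁ he₂ hsame
    (lo := fun n => Sum.inlₗ (lo n)) (mi := fun n => Sum.inlₗ (mi n))
    (hi := fun n => Sum.inlₗ (hi n)) (fun n n' h => hlt _ _ (h1 h)) (fun n n' h => hlt _ _ (h2 h))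
    (fun n n' h => hlt _ _ (h3 h)) (fun n => ⟨⟨⟨_, (h4 n).1.1, rfl⟩, ⟨_, (h4 n).1.2.1, rfl⟩,
      ⟨_, (h4 n).1.2.2, rfl⟩⟩, hlt _ _ (h4 n).2.1, hlt _ _ (h4 n).2.2.1,
      hlt _ _ (h4 n).2.2.2.1, hlt _ _ (h4 n).2.2.2.2⟩)
  have hinf : Infinite I₁ := infinite_iff.2 (by rw [hI₁]; exact hκ0)
  obtain ⟨R, E, strW, g1, g2, g3, g4, g5⟩ := coordsO hK hΛ hN₁ (hD N₁ hN₁ hc₁) e₁ hinj₁ hcl₁ hm.sym
  exact ⟨R, I₁, E, strW, g1, g2, g3, g4, hI₁, g5⟩

end Vale.Agent.P307.Triv
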