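import Vale.Agent.P307.Triv.PDefs
import Vale.Agent.P307.H582.ModA
import Mathlib.SetTheory.Cardinal.Pigeonhole

/-!
Comparison of two symmetric presentations of one structure (block argument).
-/

universe u

open FirstOrder Cardinal Set

namespace Vale.Agent.P307.Triv

namespace PB

section graph

variable {R I E R' I' E' : Type u} (g : R ⊕ (I × E) ≃ R' ⊕ (I' × E'))

/-- The indices `i`, `i'` are adjacent if `g` maps a point of the piece `i` into the piece `i'`. -/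
def adj (x y : I ⊕ I') : Prop := ∃ i i' e e', g (Sum.inr (i, e)) = Sum.inr (i', e') ∧
  ((x = Sum.inl i ∧ y = Sum.inr i') ∨ (x = Sum.inr i' ∧ y = Sum.inl i))

theorem adj.symm {x y : I ⊕ I'} (h : adj g x y) : adj g y x := by
  obtain ⟨i, i', e, e', h1, h2⟩ := h
  exact ⟨i, i', e, e', h1, h2.symm.imp (fun h => ⟨h.2, h.1⟩) (fun h => ⟨h.2, h.1⟩)⟩

/-- The index belongs to a piece which meets a base. -/
def spec (x : I ⊕ I') : Prop := (∃ i e r', x = Sum.inl i ∧ g (Sum.inr (i, e)) = Sum.inl r') ∨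
  ∃ i' e' r, x = Sum.inr i' ∧ g (Sum.inl r) = Sum.inr (i', e')

variable {χ : Cardinal.{u}}

theorem mk_adj_le (hE : #E ≤ χ) (hE' : #E' ≤ χ) (x : I ⊕ I') :
    #{y | adj g x y} ≤ χ := by
  classical
  rcases x with i | i'
  · let f : E → I ⊕ I' := fun e => Sum.elim (fun _ => Sum.inl i) (fun p => Sum.inr p.1)
      (g (Sum.inr (i, e)))
    refine (mk_le_mk_of_subset (t := range f) ?_).trans (mk_range_le.trans hE)
    rintro y ⟨i₁, i', e, e', h1, ⟨h2, h3⟩ | ⟨h2, h3⟩⟩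
    · cases h2
      refine ⟨e, ?_⟩
      simp only [f]
      rw [h1, h3]
      rfl
    · cases h2
  · let f : E' → I ⊕ I' := fun e => Sum.elim (fun _ => Sum.inr i') (fun p => Sum.inl p.1)
      (g.symm (Sum.inr (i', e)))
    refine (mk_le_mk_of_subset (t := range f) ?_).trans (mk_range_le.trans hE')
    rintro y ⟨i, i₁, e, e', h1, ⟨h2, h3⟩ | ⟨h2, h3⟩⟩
    · cases h2
    · cases h2
      refine ⟨e', ?_⟩
      simp only [f]
      rw [← h1, g.symm_apply_apply, h3]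
      rfl

theorem mk_spec_le (hχ : ℵ₀ ≤ χ) (hR : #R ≤ χ) (hR' : #R' ≤ χ) [hI : Nonempty I] :
    #{x | spec g x} ≤ χ := by
  classical
  obtain ⟨i₀⟩ := hI
  let f : R' → I ⊕ I' := fun r => Sum.elim (fun _ => Sum.inl i₀) (fun p => Sum.inl p.1)
      (g.symm (Sum.inl r))
  let f' : R → I ⊕ I' := fun r => Sum.elim (fun _ => Sum.inl i₀) (fun p => Sum.inr p.1)
      (g (Sum.inl r))
  refine (mk_le_mk_of_subset (t := range f ∪ range f') ?_).trans ((mk_union_le _ _).trans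
    (add_le_of_le hχ (mk_range_le.trans hR') (mk_range_le.trans hR)))
  rintro x (⟨i, e, r', h1, h2⟩ | ⟨i', e', r, h1, h2⟩)
  · refine Or.inl ⟨r', ?_⟩
    simp only [f]
    rw [← h2, g.symm_apply_apply, h1]
    rfl
  · refine Or.inr ⟨r, ?_⟩
    simp only [f']
    rw [h2, h1]
    rfl

/-- the component of `x` -/
def comp (x : I ⊕ I') : Set (I ⊕ I') := {y | Relation.ReflTransGen (adj g) x y}

theorem comp_symm {x y : I ⊕ I'} (h : y ∈ comp g x) : x ∈ comp g y := by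
  have h' : Relation.ReflTransGen (adj g) x y := h
  induction h' with
  | refl => exact Relation.ReflTransGen.refl
  | tail h1 h2 ih => exact Relation.ReflTransGen.head (adj.symm g h2) (ih h1)

theorem comp_eq {x y : I ⊕ I'} (h : y ∈ comp g x) : comp g y = comp g x := by
  ext z
  exact ⟨fun h1 => Relation.ReflTransGen.trans h h1,
    fun h1 => Relation.ReflTransGen.trans (comp_symm g h) h1⟩

theorem comp_subset {x : I ⊕ I'} {Y : Set (I ⊕ I')} (hx : x ∈ Y)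
    (hY : ∀ i ∈ Y, ∀ j, adj g i j → j ∈ Y) : comp g x ⊆ Y := by
  intro y hy
  have h' : Relation.ReflTransGen (adj g) x y := hy
  induction h' with
  | refl => exact hx
  | tail h1 h2 ih => exact hY _ (ih h1) _ h2

theorem mk_comp_le (hχ : ℵ₀ ≤ χ) (hE : #E ≤ χ) (hE' : #E' ≤ χ) (x : I ⊕ I') :
    #(comp g x) ≤ χ := by
  obtain ⟨Y, h1, h2, h3⟩ := H582.exists_closed_set hχ (adj g) (mk_adj_le g hE hE') {x} (by
    rw [mk_singleton]
    exact one_le_aleph0.trans hχ)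
  exact (mk_le_mk_of_subset (comp_subset g (h1 rfl) h3)).trans h2

/-- The decomposition of `g` into a small part and isomorphic blocks. -/
theorem exists_blocks (hχ : ℵ₀ ≤ χ) (hR : #R ≤ χ) (hE : #E ≤ χ) (hR' : #R' ≤ χ) (hE' : #E' ≤ χ)
    [hEne : Nonempty E] [hEne' : Nonempty E'] (hI : 2 ^ χ < #I) :
    ∃ (Sp : Set (I ⊕ I')) (B : Type u) (A : Set I) (A' : Set I') (b : B → Set (I ⊕ I'))
      (α : B → A → I) (α' : B → A' → I'),
      #Sp ≤ χ ∧ #A ≤ χ ∧ #A' ≤ χ ∧ A.Nonempty ∧ A'.Nonempty ∧ Infinite B ∧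
      (∀ x y, adj g x y → (x ∈ Sp ↔ y ∈ Sp)) ∧ (∀ x, spec g x → x ∈ Sp) ∧
      (∀ i i' e e', g (Sum.inr (i, e)) = Sum.inr (i', e') → (i ∈ A ↔ i' ∈ A')) ∧
      (∀ i ∈ A, ∀ e, ∃ i' e', g (Sum.inr (i, e)) = Sum.inr (i', e')) ∧
      (∀ i' ∈ A', ∀ e', ∃ i e, g (Sum.inr (i, e)) = Sum.inr (i', e')) ∧
      (∀ k k', k ≠ k' → Disjoint (b k) (b k')) ∧ (∀ k, Disjoint (b k) Sp) ∧
      (∀ k a, Sum.inl (α k a) ∈ b k) ∧ (∀ k a, Sum.inr (α' k a) ∈ b k) ∧
      (∀ k, Function.Injective (α k)) ∧ (∀ k, Function.Injective (α' k)) ∧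
      ∀ k (a : A) (e : E) (a' : A') (e' : E'),
        g (Sum.inr (a.1, e)) = Sum.inr (a'.1, e') →
          g (Sum.inr (α k a, e)) = Sum.inr (α' k a', e') := by
  classical
  have hIne : Nonempty I := by
    rw [← mk_ne_zero_iff]
    exact (zero_le.trans_lt hI).ne'
  have h2χ : ℵ₀ ≤ (2 : Cardinal.{u}) ^ χ := hχ.trans (cantor _).le
  obtain ⟨Sp, hSp1, hSp2, hSp3⟩ := H582.exists_closed_set hχ (adj g) (mk_adj_le g hE hE')
    {x | spec g x} (mk_spec_le g hχ hR hR')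
  have hSp4 : ∀ x y, adj g x y → (x ∈ Sp ↔ y ∈ Sp) := fun x y h =>
    ⟨fun hx => hSp3 x hx y h, fun hy => hSp3 y hy x (adj.symm g h)⟩
  have hcSp : ∀ x ∉ Sp, Disjoint (comp g x) Sp := by
    intro x hx
    rw [Set.disjoint_left]
    exact comp_subset g (Y := Spᶜ) hx fun i hi j hij hj => hi ((hSp4 i j hij).2 hj)
  let B₁ : Type u := {b : Set (I ⊕ I') // ∃ i : I, Sum.inl i ∉ Sp ∧ b = comp g (Sum.inl i)}
  have hB1 : ∀ b : B₁, Disjoint b.1 Sp := by
    rintro ⟨b, i, hi, rfl⟩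
    exact hcSp _ hi
  have hB2 : ∀ (b : B₁) x, x ∈ b.1 → b.1 = comp g x := by
    rintro ⟨b, i, hi, rfl⟩ x hx
    exact (comp_eq g hx).symm
  have hB3 : ∀ (b : B₁) x y, adj g x y → (x ∈ b.1 ↔ y ∈ b.1) := by
    intro b x y hxy
    constructor
    · intro hx
      rw [hB2 b x hx]
      exact Relation.ReflTransGen.single hxy
    · intro hy
      rw [hB2 b y hy]
      exact Relation.ReflTransGen.single (adj.symm g hxy)
  have hB4 : ∀ b : B₁, #b.1 ≤ χ := by
    rintro ⟨b, i, hi, rfl⟩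
    exact mk_comp_le g hχ hE hE' _
  have hB5 : ∀ (b : B₁) (i : I), Sum.inl i ∈ b.1 → ∀ e, ∃ i' e',
      g (Sum.inr (i, e)) = Sum.inr (i', e') ∧ Sum.inr i' ∈ b.1 := by
    intro b i hi e
    rcases h : g (Sum.inr (i, e)) with r | ⟨i', e'⟩
    · exact absurd (hSp1 (Or.inl ⟨i, e, r, rfl, h⟩)) (Set.disjoint_left.1 (hB1 b) hi)
    · exact ⟨i', e', rfl, (hB3 b _ _ ⟨i, i', e, e', h, Or.inl ⟨rfl, rfl⟩⟩).1 hi⟩
  have hB6 : ∀ (b : B₁) (i' : I'), Sum.inr i' ∈ b.1 → ∀ e', ∃ i e,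
      g (Sum.inr (i, e)) = Sum.inr (i', e') ∧ Sum.inl i ∈ b.1 := by
    intro b i' hi e'
    rcases h : g.symm (Sum.inr (i', e')) with r | ⟨i, e⟩
    · exact absurd (hSp1 (Or.inr ⟨i', e', r, rfl, by rw [← h, g.apply_symm_apply]⟩))
        (Set.disjoint_left.1 (hB1 b) hi)
    · have h1 : g (Sum.inr (i, e)) = Sum.inr (i', e') := by rw [← h, g.apply_symm_apply]
      exact ⟨i, e, h1, (hB3 b _ _ ⟨i, i', e, e', h1, Or.inl ⟨rfl, rfl⟩⟩).2 hi⟩
  -- there are many blocks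
  have hB7 : 2 ^ χ < #B₁ := by
    by_contra hcon
    rw [not_lt] at hcon
    let f : {i : I // Sum.inl i ∉ Sp} → B₁ := fun i => ⟨comp g (Sum.inl i.1), i.1, i.2, rfl⟩
    have h1 : #{i : I // Sum.inl i ∉ Sp} ≤ 2 ^ χ := by
      rw [← mk_congr (Equiv.sigmaFiberEquiv f), mk_sigma]
      refine (sum_le_mk_mul_iSup _).trans ?_
      refine (mul_le_mul' hcon (ciSup_le' fun b => ?_)).trans
        ((mul_le_mul' le_rfl (cantor χ).le).trans (mul_eq_self h2χ).le)
      refine le_trans ?_ (hB4 b)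
      refine mk_le_of_injective (f := fun i : {i // f i = b} =>
        (⟨Sum.inl i.1.1, by
          have h2 : (f i.1).1 = b.1 := congrArg Subtype.val i.2
          rw [← h2]
          exact Relation.ReflTransGen.refl⟩ : b.1)) fun i j hij => ?_
      have h3 := Sum.inl_injective (congrArg Subtype.val hij)
      exact Subtype.ext (Subtype.ext h3)
    have h2 : #{i : I // ¬ Sum.inl i ∉ Sp} ≤ 2 ^ χ := by
      refine le_trans ?_ (hSp2.trans (cantor χ).le)
      refine mk_le_of_injective (f := fun i : {i : I // ¬ Sum.inl i ∉ Sp} =>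
        (⟨Sum.inl i.1, not_not.1 i.2⟩ : Sp)) fun i j hij => ?_
      exact Subtype.ext (Sum.inl_injective (congrArg Subtype.val hij))
    have h3 : #I ≤ 2 ^ χ := by
      rw [← mk_congr (Equiv.sumCompl (fun i : I => (Sum.inl i : I ⊕ I') ∉ Sp)), mk_sum, lift_id,
        lift_id]
      exact add_le_of_le h2χ h1 h2
    exact absurd h3 (not_le.2 hI)
  -- codes
  obtain ⟨Λ, hΛ⟩ : ∃ Λ : Type u, #Λ = χ := ⟨χ.out, mk_out χ⟩
  have hε : ∀ b : B₁, Nonempty ({i : I // Sum.inl i ∈ b.1} ↪ Λ) := by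
    intro b
    rw [← Cardinal.le_def, hΛ]
    refine le_trans ?_ (hB4 b)
    exact mk_le_of_injective (f := fun i : {i : I // Sum.inl i ∈ b.1} =>
      (⟨Sum.inl i.1, i.2⟩ : b.1)) fun i j hij =>
        Subtype.ext (Sum.inl_injective (congrArg Subtype.val hij))
  have hε' : ∀ b : B₁, Nonempty ({i : I' // Sum.inr i ∈ b.1} ↪ Λ) := by
    intro b
    rw [← Cardinal.le_def, hΛ]
    refine le_trans ?_ (hB4 b)
    exact mk_le_of_injective (f := fun i : {i : I' // Sum.inr i ∈ b.1} =>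
      (⟨Sum.inr i.1, i.2⟩ : b.1)) fun i j hij =>
        Subtype.ext (Sum.inr_injective (congrArg Subtype.val hij))
  let ε : ∀ b : B₁, {i : I // Sum.inl i ∈ b.1} ↪ Λ := fun b => (hε b).some
  let ε' : ∀ b : B₁, {i : I' // Sum.inr i ∈ b.1} ↪ Λ := fun b => (hε' b).some
  let code : B₁ → Set (Λ × E × Λ × E') := fun b =>
    {p | ∃ (x : {i : I // Sum.inl i ∈ b.1}) (x' : {i : I' // Sum.inr i ∈ b.1}),
      p.1 = ε b x ∧ p.2.2.1 = ε' b x' ∧ g (Sum.inr (x.1, p.2.1)) = Sum.inr (x'.1, p.2.2.2)}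
  have hcode : #(Set (Λ × E × Λ × E')) ≤ 2 ^ χ := by
    rw [mk_set]
    refine power_le_power_left two_ne_zero ?_
    simp only [mk_prod, lift_id, hΛ]
    exact (mul_le_mul' le_rfl (mul_le_mul' hE (mul_le_mul' le_rfl hE'))).trans (by
      rw [mul_eq_self hχ, mul_eq_self hχ, mul_eq_self hχ])
  have hΛi : Infinite Λ := by
    rw [infinite_iff, hΛ]
    exact hχ
  have hB1inf : Infinite B₁ := infinite_iff.2 (h2χ.trans hB7.le)
  obtain ⟨q, hq⟩ := Cardinal.exists_infinite_fiber code (hcode.trans_lt hB7)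
  obtain ⟨⟨b₀, hb₀⟩⟩ := hq.nonempty
  have hkey : ∀ b : B₁, code b = q → ∃ (α : {i : I // Sum.inl i ∈ b₀.1} → I)
      (α' : {i : I' // Sum.inr i ∈ b₀.1} → I'), (∀ a, Sum.inl (α a) ∈ b.1) ∧
      (∀ a, Sum.inr (α' a) ∈ b.1) ∧ Function.Injective α ∧ Function.Injective α' ∧
      ∀ (a : {i : I // Sum.inl i ∈ b₀.1}) (e : E) (a' : {i : I' // Sum.inr i ∈ b₀.1}) (e' : E'),
        g (Sum.inr (a.1, e)) = Sum.inr (a'.1, e') →
          g (Sum.inr (α a, e)) = Sum.inr (α' a', e') := by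
    intro b hb
    have hcc : code b₀ = code b := (show code b₀ = q from hb₀).trans hb.symm
    have h0 : ∀ (a : {i : I // Sum.inl i ∈ b₀.1}) (e : E) (a' : {i : I' // Sum.inr i ∈ b₀.1})
        (e' : E'), g (Sum.inr (a.1, e)) = Sum.inr (a'.1, e') →
        ∃ (x : {i : I // Sum.inl i ∈ b.1}) (x' : {i : I' // Sum.inr i ∈ b.1}),
          ε b₀ a = ε b x ∧ ε' b₀ a' = ε' b x' ∧ g (Sum.inr (x.1, e)) = Sum.inr (x'.1, e') := by
      intro a e a' e' h
      have h1 : ((ε b₀ a, e, ε' b₀ a', e') : Λ × E × Λ × E') ∈ code b₀ := ⟨a, a', rfl, rfl, h⟩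
      rw [hcc] at h1
      exact h1
    have h1 : ∀ a : {i : I // Sum.inl i ∈ b₀.1}, ∃ x : {i : I // Sum.inl i ∈ b.1},
        ε b₀ a = ε b x := by
      intro a
      obtain ⟨e⟩ := hEne
      obtain ⟨i', e', h2, h3⟩ := hB5 b₀ a.1 a.2 e
      obtain ⟨x, x', h4, -⟩ := h0 a e ⟨i', h3⟩ e' h2
      exact ⟨x, h4⟩
    have h2 : ∀ a : {i : I' // Sum.inr i ∈ b₀.1}, ∃ x : {i : I' // Sum.inr i ∈ b.1},
        ε' b₀ a = ε' b x := by
      intro a'
      obtain ⟨e'⟩ := hEne'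
      obtain ⟨i, e, h2, h3⟩ := hB6 b₀ a'.1 a'.2 e'
      obtain ⟨x, x', -, h4, -⟩ := h0 ⟨i, h3⟩ e a' e' h2
      exact ⟨x', h4⟩
    choose α hα using h1
    choose α' hα' using h2
    refine ⟨fun a => (α a).1, fun a => (α' a).1, fun a => (α a).2, fun a => (α' a).2, ?_, ?_, ?_⟩
    · intro x y hxy
      apply (ε b₀).injective
      rw [hα x, hα y, Subtype.ext hxy]
    · intro x y hxy
      apply (ε' b₀).injective
      rw [hα' x, hα' y, Subtype.ext hxy]
    · intro a e a' e' h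
      obtain ⟨x, x', h3, h4, h5⟩ := h0 a e a' e' h
      have h6 : x = α a := (ε b).injective (h3.symm.trans (hα a))
      have h7 : x' = α' a' := (ε' b).injective (h4.symm.trans (hα' a'))
      change g (Sum.inr ((α a).1, e)) = Sum.inr ((α' a').1, e')
      rw [← h6, ← h7]
      exact h5
  choose α α' h1 h2 h3 h4 h5 using fun b : (code ⁻¹' {q} : Set B₁) => hkey b.1 b.2
  refine ⟨Sp, (code ⁻¹' {q} : Set B₁), {i : I | Sum.inl i ∈ b₀.1}, {i : I' | Sum.inr i ∈ b₀.1},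
    fun b => b.1.1, α, α', hSp2, ?_, ?_, ?_, ?_, hq, hSp4, fun x hx => hSp1 hx, ?_, ?_, ?_, ?_,
    fun b => hB1 b.1, h1, h2, h3, h4, h5⟩
  · refine le_trans ?_ (hB4 b₀)
    exact mk_le_of_injective (f := fun i : {i : I // Sum.inl i ∈ b₀.1} =>
      (⟨Sum.inl i.1, i.2⟩ : b₀.1)) fun i j hij =>
        Subtype.ext (Sum.inl_injective (congrArg Subtype.val hij))
  · refine le_trans ?_ (hB4 b₀)
    exact mk_le_of_injective (f := fun i : {i : I' // Sum.inr i ∈ b₀.1} =>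
      (⟨Sum.inr i.1, i.2⟩ : b₀.1)) fun i j hij =>
        Subtype.ext (Sum.inr_injective (congrArg Subtype.val hij))
  · obtain ⟨i, hi, hi'⟩ := b₀.2
    refine ⟨i, ?_⟩
    change Sum.inl i ∈ b₀.1
    rw [hi']
    exact Relation.ReflTransGen.refl
  · obtain ⟨i, hi, hi'⟩ := b₀.2
    obtain ⟨e⟩ := hEne
    obtain ⟨i', e', -, h7⟩ := hB5 b₀ i (by rw [hi']; exact Relation.ReflTransGen.refl) e
    exact ⟨i', h7⟩
  · intro i i' e e' h
    exact hB3 b₀ _ _ ⟨i, i', e, e', h, Or.inl ⟨rfl, rfl⟩⟩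
  · intro i hi e
    obtain ⟨i', e', h7, -⟩ := hB5 b₀ i hi e
    exact ⟨i', e', h7⟩
  · intro i' hi' e'
    obtain ⟨i, e, h7, -⟩ := hB6 b₀ i' hi' e'
    exact ⟨i, e, h7⟩
  · intro k k' hkk
    rw [Set.disjoint_left]
    intro x hx hx'
    apply hkk
    apply Subtype.ext
    apply Subtype.ext
    rw [hB2 k.1 x hx, hB2 k'.1 x hx']

end graph

section match_

theorem exists_equiv_of_match {α β M M' : Type u} (g : M ≃ M') (ι : α → M) (ι' : β → M')
    (hι : Function.Injective ι) (hι' : Function.Injective ι') (h : ∀ a, ∃ b, g (ι a) = ι' b)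
    (h' : ∀ b, ∃ a, g (ι a) = ι' b) : ∃ G : α ≃ β, ∀ a, g (ι a) = ι' (G a) := by
  choose G hG using h
  refine ⟨Equiv.ofBijective G ⟨?_, ?_⟩, hG⟩
  · intro x y hxy
    apply hι
    apply g.injective
    rw [hG, hG, hxy]
  · intro b
    obtain ⟨a, ha⟩ := h' b
    exact ⟨a, hι' ((hG a).symm.trans ha)⟩

theorem mv_val_injective {R I E : Type u} (X : Set I) :
    Function.Injective (mv (Subtype.val : X → I) : R ⊕ (X × E) → R ⊕ (I × E)) := by
  rintro (x | ⟨x, e⟩) (y | ⟨y, e'⟩) h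
  · exact congrArg Sum.inl (Sum.inl_injective h)
  · cases h
  · cases h
  · have h1 : ((x.1, e) : I × E) = (y.1, e') := Sum.inr_injective h
    obtain ⟨h2, h3⟩ := Prod.ext_iff.1 h1
    rw [Subtype.ext h2, show e = e' from h3]

/-- the sorted form of the coordinates -/
def sort {R J E X A D : Type u} (e₁ : J ≃ X ⊕ (D × A)) :
    (R ⊕ (X × E)) ⊕ (D × (A × E)) → R ⊕ (J × E) :=
  Sum.elim (Sum.elim Sum.inl fun p => Sum.inr (e₁.symm (Sum.inl p.1), p.2))
    fun p => Sum.inr (e₁.symm (Sum.inr (p.1, p.2.1)), p.2.2)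

theorem sort_bijective {R J E X A D : Type u} (e₁ : J ≃ X ⊕ (D × A)) :
    Function.Bijective (sort e₁ : (R ⊕ (X × E)) ⊕ (D × (A × E)) → R ⊕ (J × E)) := by
  constructor
  · rintro ((r | ⟨x, e⟩) | ⟨d, a, e⟩) ((r' | ⟨x', e'⟩) | ⟨d', a', e'⟩) h
    · cases h
      rfl
    · cases h
    · cases h
    · cases h
    · have h1 : ((e₁.symm (Sum.inl x), e) : J × E) = (e₁.symm (Sum.inl x'), e') :=
        Sum.inr_injective h
      obtain ⟨h2, h3⟩ := Prod.ext_iff.1 h1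
      have h4 := Sum.inl_injective (e₁.symm.injective h2)
      rw [h4, show e = e' from h3]
    · have h1 : ((e₁.symm (Sum.inl x), e) : J × E) = (e₁.symm (Sum.inr (d', a')), e') :=
        Sum.inr_injective h
      cases e₁.symm.injective (Prod.ext_iff.1 h1).1
    · cases h
    · have h1 : ((e₁.symm (Sum.inr (d, a)), e) : J × E) = (e₁.symm (Sum.inl x'), e') :=
        Sum.inr_injective h
      cases e₁.symm.injective (Prod.ext_iff.1 h1).1
    · have h1 : ((e₁.symm (Sum.inr (d, a)), e) : J × E) = (e₁.symm (Sum.inr (d', a')), e') :=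
        Sum.inr_injective h
      obtain ⟨h2, h3⟩ := Prod.ext_iff.1 h1
      have h4 := Sum.inr_injective (e₁.symm.injective h2)
      obtain ⟨h5, h6⟩ := Prod.ext_iff.1 h4
      rw [show d = d' from h5, show a = a' from h6, show e = e' from h3]
  · rintro (r | ⟨j, e⟩)
    · exact ⟨Sum.inl (Sum.inl r), rfl⟩
    · rcases h : e₁ j with x | ⟨d, a⟩
      · refine ⟨Sum.inl (Sum.inr (x, e)), ?_⟩
        change Sum.inr (e₁.symm (Sum.inl x), e) = _
        rw [← h, e₁.symm_apply_apply]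
      · refine ⟨Sum.inr (d, (a, e)), ?_⟩
        change Sum.inr (e₁.symm (Sum.inr (d, a)), e) = _
        rw [← h, e₁.symm_apply_apply]

/-- the renaming given by an assignment of blocks -/
def ren {J X A D B I : Type u} (e₁ : J ≃ X ⊕ (D × A)) (ξ : X → I) (α : B → A → I) (β : D → B) :
    J → I := fun j => Sum.elim ξ (fun p => α (β p.1) p.2) (e₁ j)

/-- the position given by an assignment of blocks -/
def pos {R E X A D B I : Type u} (ξ : X → I) (α : B → A → I) (β : D → B) :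
    (R ⊕ (X × E)) ⊕ (D × (A × E)) → R ⊕ (I × E) :=
  Sum.elim (mv ξ) fun p => Sum.inr (α (β p.1) p.2.1, p.2.2)

theorem mv_ren_sort {R J E X A D B I : Type u} (e₁ : J ≃ X ⊕ (D × A)) (ξ : X → I)
    (α : B → A → I) (β : D → B) (t : (R ⊕ (X × E)) ⊕ (D × (A × E))) :
    mv (ren e₁ ξ α β) (sort e₁ t) = pos ξ α β t := by
  rcases t with (r | ⟨x, e⟩) | ⟨d, a, e⟩
  · rfl
  · change Sum.inr (ren e₁ ξ α β (e₁.symm (Sum.inl x)), e) = Sum.inr (ξ x, e)
    unfold ren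
    rw [e₁.apply_symm_apply]
    rfl
  · change Sum.inr (ren e₁ ξ α β (e₁.symm (Sum.inr (d, a))), e) = Sum.inr (α (β d) a, e)
    unfold ren
    rw [e₁.apply_symm_apply]
    rfl

/-- the blocks which occur in a point -/
def occ {R J E X A D : Type u} (e₁ : J ≃ X ⊕ (D × A)) : R ⊕ (J × E) → Finset D :=
  Sum.elim (fun _ => ∅) fun p => Sum.elim (fun _ => ∅) (fun q => {q.1}) (e₁ p.1)

theorem injT_ren {R J E X A D B I : Type u} (e₁ : J ≃ X ⊕ (D × A)) (ξ : X → I)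
    (α : B → A → I) (β : D → B) (hξ : Function.Injective ξ)
    (hα : ∀ k, Function.Injective (α k)) (hd : ∀ k a x, α k a ≠ ξ x)
    (hdd : ∀ k k' a a', α k a = α k' a' → k = k') {n : ℕ} (v : Fin n → R ⊕ (J × E))
    (F : Set D) (hF : ∀ k, ∀ d ∈ occ e₁ (v k), d ∈ F) (hβ : Set.InjOn β F) :
    InjT (ren e₁ ξ α β) v := by
  intro k k' i i' e e' hk hk' h
  have key : ∀ (k : Fin n) (i : J) (e : E) (d : D) (a : A), v k = Sum.inr (i, e) →
      e₁ i = Sum.inr (d, a) → d ∈ F := by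
    intro k i e d a h1 h2
    apply hF k
    rw [h1]
    change d ∈ Sum.elim (fun _ => ∅) (fun q => ({q.1} : Finset D)) (e₁ i)
    rw [h2]
    exact Finset.mem_singleton_self _
  apply e₁.injective
  unfold ren at h
  rcases h1 : e₁ i with x | ⟨d, a⟩ <;> rcases h2 : e₁ i' with x' | ⟨d', a'⟩
  · rw [h1, h2] at h
    rw [hξ h]
  · rw [h1, h2] at h
    exact absurd h.symm (hd _ _ _)
  · rw [h1, h2] at h
    exact absurd h (hd _ _ _)
  · rw [h1, h2] at h
    have h' : α (β d) a = α (β d') a' := h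
    have h3 : d = d' := hβ (key k i e d a hk h1) (key k' i' e' d' a' hk' h2) (hdd _ _ _ _ h')
    subst h3
    rw [hα _ h']

end match_

end PB

theorem specB : SpecB.{u} := by
  classical
  intro L _ R I E R' I' E' N N' J J' _ _ _ _ χ hχ hsym hsym' hR hE hR' hE' hEne hEne' hI hI' g ζ
    ζ' hζ hζ' hJ hJJ'
  obtain ⟨Sp, B, A, A', b, α, α', hSp, hA, hA', hAne, hA'ne, hB, hadj, hspec, hAA', hAe, hA'e,
    hbd, hbS, hα1, hα'1, hα2, hα'2, hcomp⟩ := PB.exists_blocks g.toEquiv hχ hR hE hR' hE' hI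
  let X : Set I := {i | Sum.inl i ∈ Sp}
  let X' : Set I' := {i | Sum.inr i ∈ Sp}
  have hX : #X ≤ χ := by
    refine le_trans ?_ hSp
    exact mk_le_of_injective (f := fun i : X => (⟨Sum.inl i.1, i.2⟩ : Sp)) fun i j hij =>
      Subtype.ext (Sum.inl_injective (congrArg Subtype.val hij))
  have hX' : #X' ≤ χ := by
    refine le_trans ?_ hSp
    exact mk_le_of_injective (f := fun i : X' => (⟨Sum.inr i.1, i.2⟩ : Sp)) fun i j hij =>
      Subtype.ext (Sum.inr_injective (congrArg Subtype.val hij))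
  have hJ0 : ℵ₀ ≤ #J := hχ.trans hJ.le
  obtain ⟨e₁⟩ : Nonempty (J ≃ X ⊕ (J × A)) := by
    refine Cardinal.eq.1 ?_
    rw [mk_sum, mk_prod, lift_id, lift_id, lift_id, lift_id, mul_eq_left hJ0 (hA.trans hJ.le)
      (mk_ne_zero_iff.2 hAne.to_subtype), add_eq_right hJ0 (hX.trans hJ.le)]
  obtain ⟨e₂⟩ : Nonempty (J' ≃ X' ⊕ (J × A')) := by
    refine Cardinal.eq.1 ?_
    rw [← hJJ', mk_sum, mk_prod, lift_id, lift_id, lift_id, lift_id,
      mul_eq_left hJ0 (hA'.trans hJ.le) (mk_ne_zero_iff.2 hA'ne.to_subtype),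
      add_eq_right hJ0 (hX'.trans hJ.le)]
  -- the small part
  obtain ⟨G₀, hG₀⟩ : ∃ G₀ : R ⊕ (X × E) ≃ R' ⊕ (X' × E'), ∀ z,
      g.toEquiv (mv Subtype.val z) = mv Subtype.val (G₀ z) := by
    refine PB.exists_equiv_of_match g.toEquiv _ _ (PB.mv_val_injective X)
      (PB.mv_val_injective X') ?_ ?_
    · rintro (r | ⟨⟨i, hi⟩, e⟩)
      · rcases h : g.toEquiv (Sum.inl r) with r' | ⟨i', e'⟩
        · exact ⟨Sum.inl r', h⟩
        · exact ⟨Sum.inr (⟨i', hspec _ (Or.inr ⟨i', e', r, rfl, h⟩)⟩, e'), h⟩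
      · rcases h : g.toEquiv (Sum.inr (i, e)) with r' | ⟨i', e'⟩
        · exact ⟨Sum.inl r', h⟩
        · exact ⟨Sum.inr (⟨i', (hadj _ _ ⟨i, i', e, e', h, Or.inl ⟨rfl, rfl⟩⟩).1 hi⟩, e'), h⟩
    · rintro (r' | ⟨⟨i', hi'⟩, e'⟩)
      · rcases h : g.toEquiv.symm (Sum.inl r') with r | ⟨i, e⟩
        · have h1 : g.toEquiv (Sum.inl r) = Sum.inl r' := by
            rw [← h, g.toEquiv.apply_symm_apply]
          exact ⟨Sum.inl r, h1⟩
        · have h1 : g.toEquiv (Sum.inr (i, e)) = Sum.inl r' := by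
            rw [← h, g.toEquiv.apply_symm_apply]
          exact ⟨Sum.inr (⟨i, hspec _ (Or.inl ⟨i, e, r', rfl, h1⟩)⟩, e), h1⟩
      · rcases h : g.toEquiv.symm (Sum.inr (i', e')) with r | ⟨i, e⟩
        · have h1 : g.toEquiv (Sum.inl r) = Sum.inr (i', e') := by
            rw [← h, g.toEquiv.apply_symm_apply]
          exact ⟨Sum.inl r, h1⟩
        · have h1 : g.toEquiv (Sum.inr (i, e)) = Sum.inr (i', e') := by
            rw [← h, g.toEquiv.apply_symm_apply]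
          exact ⟨Sum.inr (⟨i, (hadj _ _ ⟨i, i', e, e', h1, Or.inl ⟨rfl, rfl⟩⟩).2 hi'⟩, e), h1⟩
  -- one block
  obtain ⟨GA, hGA⟩ : ∃ GA : A × E ≃ A' × E', ∀ p : A × E,
      g.toEquiv (Sum.inr (p.1.1, p.2)) = Sum.inr ((GA p).1.1, (GA p).2) := by
    refine PB.exists_equiv_of_match g.toEquiv (fun p : A × E => (Sum.inr (p.1.1, p.2) :
      R ⊕ (I × E))) (fun p : A' × E' => (Sum.inr (p.1.1, p.2) : R' ⊕ (I' × E'))) ?_ ?_ ?_ ?_
    · rintro ⟨x, e⟩ ⟨y, e'⟩ h
      obtain ⟨h2, h3⟩ := Prod.ext_iff.1 (Sum.inr_injective h)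
      exact Prod.ext (Subtype.ext h2) h3
    · rintro ⟨x, e⟩ ⟨y, e'⟩ h
      obtain ⟨h2, h3⟩ := Prod.ext_iff.1 (Sum.inr_injective h)
      exact Prod.ext (Subtype.ext h2) h3
    · rintro ⟨⟨i, hi⟩, e⟩
      obtain ⟨i', e', h⟩ := hAe i hi e
      exact ⟨(⟨i', (hAA' _ _ _ _ h).1 hi⟩, e'), h⟩
    · rintro ⟨⟨i', hi'⟩, e'⟩
      obtain ⟨i, e, h⟩ := hA'e i' hi' e'
      exact ⟨(⟨i, (hAA' _ _ _ _ h).2 hi'⟩, e), h⟩
  let c : (R ⊕ (X × E)) ⊕ (J × (A × E)) ≃ R ⊕ (J × E) :=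
    Equiv.ofBijective _ (PB.sort_bijective e₁)
  let c' : (R' ⊕ (X' × E')) ⊕ (J × (A' × E')) ≃ R' ⊕ (J' × E') :=
    Equiv.ofBijective _ (PB.sort_bijective e₂)
  let G : (R ⊕ (X × E)) ⊕ (J × (A × E)) ≃ (R' ⊕ (X' × E')) ⊕ (J × (A' × E')) :=
    Equiv.sumCongr G₀ ((Equiv.refl J).prodCongr GA)
  let f : N ≃ N' := ζ.trans (c.symm.trans (G.trans (c'.trans ζ'.symm)))
  have hf : ∀ x, ζ' (f x) = PB.sort e₂ (G (c.symm (ζ x))) := by
    intro x
    change ζ' (ζ'.symm _) = _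
    rw [ζ'.apply_symm_apply]
    rfl
  have hc : ∀ z, PB.sort e₁ (c.symm z) = z := fun z => c.apply_symm_apply z
  have hpos : ∀ (β : J → B) t, g.toEquiv (PB.pos Subtype.val α β t) =
      PB.pos Subtype.val α' β (G t) := by
    rintro β (z | ⟨d, p⟩)
    · exact hG₀ z
    · exact hcomp (β d) p.1 p.2 (GA p).1 (GA p).2 (hGA p)
  refine ⟨{ toEquiv := f, map_fun' := fun F => isEmptyElim F, map_rel' := ?_ }⟩
  intro n r v
  -- the assignment of blocks
  let F : Finset J := (Finset.univ.biUnion fun k => PB.occ e₁ (ζ (v k))) ∪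
    Finset.univ.biUnion fun k => PB.occ e₂ (ζ' (f (v k)))
  obtain ⟨ι⟩ : Nonempty (F ↪ B) := by
    have h1 : #F ≤ #B := (lt_aleph0_of_finite _).le.trans (infinite_iff.1 hB)
    exact (Cardinal.le_def _ _).1 h1
  have hBne : Nonempty B := inferInstance
  let β : J → B := fun j => if h : j ∈ F then ι ⟨j, h⟩ else Classical.arbitrary B
  have hβ : Set.InjOn β (F : Set J) := by
    intro i hi j hj h
    simp only [β, dif_pos (Finset.mem_coe.1 hi), dif_pos (Finset.mem_coe.1 hj)] at h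
    exact congrArg Subtype.val (ι.injective h)
  have h1 := hζ n r v (PB.ren e₁ Subtype.val α β) (PB.injT_ren e₁ Subtype.val α β
    Subtype.val_injective hα2 (fun k a x h => Set.disjoint_left.1 (hbS k) (hα1 k a) (by
      rw [h]
      exact x.2)) (fun k k' a a' h => by
        by_contra hne
        exact Set.disjoint_left.1 (hbd k k' hne) (hα1 k a) (by
          rw [h]
          exact hα1 k' a')) _ (F : Set J)
    (fun k d hd => Finset.mem_coe.2 (Finset.mem_union_left _ (Finset.mem_biUnion.2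
      ⟨k, Finset.mem_univ _, hd⟩))) hβ)
  have h2 := hζ' n r (fun k => f (v k)) (PB.ren e₂ Subtype.val α' β) (PB.injT_ren e₂ Subtype.val
    α' β Subtype.val_injective hα'2 (fun k a x h => Set.disjoint_left.1 (hbS k) (hα'1 k a) (by
      rw [h]
      exact x.2)) (fun k k' a a' h => by
        by_contra hne
        exact Set.disjoint_left.1 (hbd k k' hne) (hα'1 k a) (by
          rw [h]
          exact hα'1 k' a')) _ (F : Set J)
    (fun k d hd => Finset.mem_coe.2 (Finset.mem_union_right _ (Finset.mem_biUnion.2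
      ⟨k, Finset.mem_univ _, hd⟩))) hβ)
  change Language.Structure.RelMap r (fun k => f (v k)) ↔ _
  rw [← h1, ← h2]
  have h3 : (fun k => mv (PB.ren e₁ Subtype.val α β) (ζ (v k))) =
      fun k => PB.pos Subtype.val α β (c.symm (ζ (v k))) := by
    funext k
    conv_lhs => rw [← hc (ζ (v k))]
    rw [PB.mv_ren_sort]
  have h4 : (fun k => mv (PB.ren e₂ Subtype.val α' β) (ζ' (f (v k)))) =
      fun k => g (PB.pos Subtype.val α β (c.symm (ζ (v k)))) := by
    funext k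
    rw [hf, PB.mv_ren_sort]
    exact (hpos β _).symm
  rw [h3, h4]
  exact g.map_rel r _

end Vale.Agent.P307.Triv
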