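import Vale.Agent.P307.Triv.PSA
import Vale.Agent.P307.Triv.Final
import Vale.Agent.P307.H67.Main

/-!
Part theta: transfer of disintegrated closures over strong substructures between members.
-/

universe u

open FirstOrder Cardinal Set

namespace Vale.Agent.P307.Triv

open Language.Structure Language.Substructure

variable {L : Language.{u, u}} {K : AEC L} {N N' : Type u} [L.Structure N] [L.Structure N']

theorem DisOver.mono {P P' : L.Substructure N} (h : DisOver K P) (hP' : K.le P') (hPP : P ≤ P') :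
    DisOver K P' := by
  constructor
  · intro a
    obtain ⟨S, h1, h2, h3, h4⟩ := h.1 a
    obtain ⟨U, hU, hUe⟩ := h.2 P' S hP' h1 hPP h2
    refine ⟨U, hU, ?_, ?_, ?_⟩
    · intro x hx
      change x ∈ (U : Set N)
      rw [hUe]
      exact Or.inl hx
    · change a ∈ (U : Set N)
      rw [hUe]
      exact Or.inr h3
    · intro T hT hPT ha x hx
      have hx' : x ∈ (U : Set N) := hx
      rw [hUe] at hx'
      rcases hx' with hx' | hx'
      · exact hPT hx'
      · exact h4 T hT (hPP.trans hPT) ha hx'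
  · intro S T hS hT h1 h2
    exact h.2 S T hS hT (hPP.trans h1) (hPP.trans h2)

/-- The property passes to strong substructures and isomorphic copies. -/
theorem disAll_of_emb (h : N ↪[L] N') (hh : K.Emb h) (hN' : DisAll K N') : DisAll K N := by
  intro P hP
  have hD := hN' _ (LA.le_map_emb h hh hP)
  constructor
  · intro a
    obtain ⟨T, hT, hPT, haT, hmin⟩ := hD.1 (h a)
    have h1 : T ≤ h.toHom.range := hmin _ hh (by
      rintro _ ⟨y, -, rfl⟩
      exact ⟨y, rfl⟩) ⟨a, rfl⟩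
    refine ⟨T.comap h.toHom, LA.le_comap_emb h hh hT h1, fun p hp => hPT ⟨p, hp, rfl⟩, haT,
      fun T' hT' hPT' haT' x hx => ?_⟩
    obtain ⟨y, hy, hyx⟩ := hmin _ (LA.le_map_emb h hh hT') (by
      rintro _ ⟨y, hy, rfl⟩
      exact ⟨y, hPT' hy, rfl⟩) ⟨a, haT', rfl⟩ hx
    have h2 : y = x := h.injective hyx
    rwa [← h2]
  · intro S T hS hT hPS hPT
    obtain ⟨U, hU, hUe⟩ := hD.2 _ _ (LA.le_map_emb h hh hS) (LA.le_map_emb h hh hT) (by
      rintro _ ⟨y, hy, rfl⟩
      exact ⟨y, hPS hy, rfl⟩) (by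
      rintro _ ⟨y, hy, rfl⟩
      exact ⟨y, hPT hy, rfl⟩)
    have h1 : U ≤ h.toHom.range := by
      intro x hx
      have hx' : x ∈ (U : Set N') := hx
      rw [hUe] at hx'
      rcases hx' with ⟨y, -, rfl⟩ | ⟨y, -, rfl⟩ <;> exact ⟨y, rfl⟩
    refine ⟨U.comap h.toHom, LA.le_comap_emb h hh hU h1, ?_⟩
    ext x
    have h2 : x ∈ (U.comap h.toHom : Set N) ↔ h x ∈ (U : Set N') := Iff.rfl
    rw [h2, hUe]
    constructor
    · rintro (⟨y, hy, hyx⟩ | ⟨y, hy, hyx⟩)
      · exact Or.inl (by rwa [← h.injective hyx])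
      · exact Or.inr (by rwa [← h.injective hyx])
    · rintro (hx | hx)
      · exact Or.inl ⟨x, hx, rfl⟩
      · exact Or.inr ⟨x, hx, rfl⟩

/-- Closed sets which contain the base are strong if least strong substructures exist, and finite
unions of them are strong. -/
theorem exists_closedP_of [L.IsRelational] {l : Cardinal.{u}} (hl : ℵ₀ ≤ l) {P : L.Substructure N}
    (hP : K.le P) (hPl : #P ≤ l)
    (hcl : ∀ a : N, ∃ S : L.Substructure N, K.le S ∧ P ≤ S ∧ #S ≤ l ∧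
      (S : Set N) = {x | clP K P x a})
    (hun : ∀ S T : L.Substructure N, K.le S → K.le T → P ≤ S → P ≤ T → #S ≤ l → #T ≤ l →
      ∃ U : L.Substructure N, K.le U ∧ (U : Set N) = (S : Set N) ∪ T) {X : Set N}
    (hPX : (P : Set N) ⊆ X) (hX : Closed (fun x a => clP K P x a) X) :
    ∃ S : L.Substructure N, K.le S ∧ (S : Set N) = X := by
  classical
  have key : ∀ b : Finset X, ∃ U : L.Substructure N, K.le U ∧ P ≤ U ∧ #U ≤ l ∧
      (U : Set N) = {x | x ∈ P ∨ ∃ a ∈ b, clP K P x a.1} := by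
    intro b
    induction b using Finset.induction_on with
    | empty =>
      refine ⟨P, hP, le_rfl, hPl, ?_⟩
      ext x
      simp
    | insert a b _ ih =>
      obtain ⟨U, hU1, hU1', hUl, hU2⟩ := ih
      obtain ⟨S, h1, h1', hSl, h2⟩ := hcl a.1
      obtain ⟨V, hV1, hV2⟩ := hun U S hU1 h1 hU1' h1' hUl hSl
      refine ⟨V, hV1, ?_, ?_, ?_⟩
      · intro x hx
        change x ∈ (V : Set N)
        rw [hV2]
        exact Or.inl (hU1' hx)
      · have h3 : #V = #(((U : Set N) ∪ S : Set N)) := by rw [← hV2]; rfl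
        rw [h3]
        exact (mk_union_le _ _).trans (add_le_of_le hl hUl hSl)
      · rw [hV2, hU2, h2]
        ext x
        simp only [Set.mem_union, Set.mem_ofPred_eq, Finset.mem_insert, exists_eq_or_imp]
        rw [or_assoc, or_comm (b := clP K P x a.1)]
  choose F hF1 hF3 _ hF2 using key
  have hm : Monotone F := by
    intro b b' hb x hx
    have hx' : x ∈ (F b : Set N) := hx
    rw [hF2] at hx'
    change x ∈ (F b' : Set N)
    rw [hF2]
    rcases hx' with h | ⟨a, ha, h⟩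
    · exact Or.inl h
    · exact Or.inr ⟨a, hb ha, h⟩
  refine ⟨⨆ b, F b, AEC.le_iSup_finset F hm hF1, ?_⟩
  let T : L.Substructure N := ⟨X, fun f => isEmptyElim f⟩
  have h1 : ⨆ b, F b ≤ T := by
    refine iSup_le fun b x hx => ?_
    have hx' : x ∈ (F b : Set N) := hx
    rw [hF2] at hx'
    rcases hx' with h | ⟨a, ha, h⟩
    · exact hPX h
    · exact hX a.1 a.2 x h
  refine Set.Subset.antisymm h1 fun x hx => ?_
  have h2 : x ∈ F {⟨x, hx⟩} := by
    change x ∈ (F {⟨x, hx⟩} : Set N)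
    rw [hF2]
    exact Or.inr ⟨⟨x, hx⟩, by simp, clP_refl K P x⟩
  exact (le_iSup F {⟨x, hx⟩}) h2

/-- The relative form for a strong substructure `B` of `N` which contains `P`. -/
def DisRelP (K : AEC L) (P B : L.Substructure N) : Prop :=
  (∀ a ∈ B, ∃ T : L.Substructure N, K.le T ∧ P ≤ T ∧ T ≤ B ∧ a ∈ T ∧
    ∀ T' : L.Substructure N, K.le T' → P ≤ T' → T' ≤ B → a ∈ T' → T ≤ T') ∧
  ∀ S T : L.Substructure N, K.le S → K.le T → P ≤ S → P ≤ T → S ≤ B → T ≤ B →
    ∃ U : L.Substructure N, K.le U ∧ (U : Set N) = (S : Set N) ∪ T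

theorem DisRelP.mono {P B S : L.Substructure N} (h : DisRelP K P S) (hB : K.le B) (hPB : P ≤ B)
    (hBS : B ≤ S) : DisRelP K P B := by
  refine ⟨fun a ha => ?_, fun U V hU hV h1 h2 h3 h4 =>
    h.2 U V hU hV h1 h2 (h3.trans hBS) (h4.trans hBS)⟩
  obtain ⟨T, h1, h2, h3, h4, h5⟩ := h.1 a (hBS ha)
  exact ⟨T, h1, h2, h5 B hB hPB hBS ha, h4, fun T' hT' hPT' hT'B haT' =>
    h5 T' hT' hPT' (hT'B.trans hBS) haT'⟩

theorem disRelP_of {P S : L.Substructure N} (hP : K.le P) (hPS : P ≤ S) (hS : K.le S)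
    (h : DisAll K S) : DisRelP K P S := by
  have hD := h _ (K.coherence P S hPS hP hS)
  constructor
  · intro a ha
    obtain ⟨T, h1, hPT, h2, h3⟩ := hD.1 ⟨a, ha⟩
    refine ⟨T.map S.subtype.toHom, K.le_trans S T h1 hS, ?_, ?_, ⟨⟨a, ha⟩, h2, rfl⟩, ?_⟩
    · intro p hp
      exact ⟨⟨p, hPS hp⟩, hPT hp, rfl⟩
    · rintro x ⟨y, -, rfl⟩
      exact y.2
    · intro T' hT' hPT' hT'S haT'
      have h4 := h3 _ (K.coherence T' S hT'S hT' hS) (fun x hx => hPT' hx) haT'
      rintro x ⟨y, hy, rfl⟩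
      exact h4 hy
  · intro U V hU hV hPU hPV hUS hVS
    obtain ⟨W, hW, hWe⟩ := hD.2 _ _ (K.coherence U S hUS hU hS) (K.coherence V S hVS hV hS)
      (fun x hx => hPU hx) (fun x hx => hPV hx)
    refine ⟨W.map S.subtype.toHom, K.le_trans S W hW hS, ?_⟩
    ext x
    constructor
    · rintro ⟨y, hy, rfl⟩
      have hy' : y ∈ (W : Set S) := hy
      rw [hWe] at hy'
      exact hy'
    · intro hx
      have hxS : x ∈ S := by
        rcases hx with hx | hx
        · exact hUS hx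
        · exact hVS hx
      have h5 : (⟨x, hxS⟩ : S) ∈ (W : Set S) := by
        rw [hWe]
        exact hx
      exact ⟨⟨x, hxS⟩, h5, rfl⟩

/-- The property over a small base follows from the relative form for small strong substructures. -/
theorem disOver_of_small [L.IsRelational] {l : Cardinal.{u}} (hK : K.IsLS l) (hN : K.mem N)
    {P : L.Substructure N} (hP : K.le P) (hPl : #P ≤ l)
    (h : ∀ B : L.Substructure N, K.le B → P ≤ B → #B ≤ l → DisRelP K P B) : DisOver K P := by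
  classical
  have hl := hK.1
  have hull : ∀ A : Set N, #A ≤ l → ∃ B : L.Substructure N, K.le B ∧ A ⊆ B ∧ #B ≤ l := by
    intro A hA
    obtain ⟨B, h1, h2, h3⟩ := hK.2.2 N hN A
    exact ⟨B, h1, h2, h3.trans (add_le_of_le hl hA le_rfl)⟩
  have hsm : ∀ (S : L.Substructure N) (a : N), K.le S → P ≤ S → a ∈ S →
      ∃ S' : L.Substructure N, K.le S' ∧ P ≤ S' ∧ S' ≤ S ∧ a ∈ S' ∧ #S' ≤ l := by
    intro S a hS hPS ha
    have hA : #{y : S | y.1 = a ∨ y.1 ∈ P} ≤ l := by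
      have h1 : {y : S | y.1 = a ∨ y.1 ∈ P} ⊆ {⟨a, ha⟩} ∪ {y : S | y.1 ∈ P} := by
        rintro y (hy | hy)
        · exact Or.inl (Subtype.ext hy)
        · exact Or.inr hy
      refine (mk_le_mk_of_subset h1).trans ((mk_union_le _ _).trans (add_le_of_le hl ?_ ?_))
      · rw [mk_singleton]
        exact one_le_aleph0.trans hl
      · refine le_trans ?_ hPl
        refine mk_le_of_injective (f := fun y : {y : S | y.1 ∈ P} => (⟨y.1.1, y.2⟩ : P)) ?_
        intro y y' hyy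
        have h5 := congrArg Subtype.val hyy
        exact Subtype.ext (Subtype.ext h5)
    obtain ⟨S₁, h1, h2, h3⟩ := hK.2.2 S (K.mem_of_le S hS).1 {y : S | y.1 = a ∨ y.1 ∈ P}
    refine ⟨S₁.map S.subtype.toHom, K.le_trans S S₁ h1 hS, ?_, ?_, ⟨⟨a, ha⟩, h2 (Or.inl rfl), rfl⟩,
      ?_⟩
    · intro p hp
      exact ⟨⟨p, hPS hp⟩, h2 (Or.inr hp), rfl⟩
    · rintro x ⟨y, -, rfl⟩
      exact y.2
    · refine le_trans ?_ (h3.trans (add_le_of_le hl hA le_rfl))
      exact mk_le_of_surjective (f := fun y : S₁ =>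
        (⟨S.subtype.toHom y.1, ⟨y.1, y.2, rfl⟩⟩ : S₁.map S.subtype.toHom)) (by
          rintro ⟨x, y, hy, rfl⟩
          exact ⟨⟨y, hy⟩, rfl⟩)
  have T1 : ∀ a : N, ∃ S : L.Substructure N, K.le S ∧ P ≤ S ∧ a ∈ S ∧
      ∀ T : L.Substructure N, K.le T → P ≤ T → a ∈ T → S ≤ T := by
    intro a
    obtain ⟨B₀, hB₀, haB₀, hB₀l⟩ := hull (insert a (P : Set N)) (by
      refine mk_insert_le.trans (add_le_of_le hl hPl (one_le_aleph0.trans hl)))
    have hPB₀ : P ≤ B₀ := fun x hx => haB₀ (Set.mem_insert_of_mem _ hx)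
    obtain ⟨T, hT, hPT, hTB₀, haT, hmin⟩ := (h B₀ hB₀ hPB₀ hB₀l).1 a
      (haB₀ (Set.mem_insert _ _))
    refine ⟨T, hT, hPT, haT, fun S hS hPS haS => ?_⟩
    obtain ⟨S', hS', hPS', hS'S, haS', hS'l⟩ := hsm S a hS hPS haS
    obtain ⟨B', hB', hsub, hB'l⟩ := hull ((B₀ : Set N) ∪ S')
      ((mk_union_le _ _).trans (add_le_of_le hl hB₀l hS'l))
    have hB₀B' : B₀ ≤ B' := fun x hx => hsub (Or.inl hx)
    have hS'B' : S' ≤ B' := fun x hx => hsub (Or.inr hx)
    obtain ⟨T', hT', hPT', -, haT', hmin'⟩ := (h B' hB' (hPB₀.trans hB₀B') hB'l).1 a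
      (hB₀B' (hTB₀ haT))
    have h1 : T' ≤ T := hmin' T hT hPT (hTB₀.trans hB₀B') haT
    have h2 : T ≤ T' := hmin T' hT' hPT' (h1.trans hTB₀) haT'
    exact h2.trans ((hmin' S' hS' hPS' hS'B' haS').trans hS'S)
  have hcl : ∀ a : N, ∃ S : L.Substructure N, K.le S ∧ P ≤ S ∧ #S ≤ l ∧
      (S : Set N) = {x | clP K P x a} := by
    intro a
    obtain ⟨S, h1, hPS, h2, h3⟩ := T1 a
    have h4 : (S : Set N) = {x | clP K P x a} := by
      ext x
      exact ⟨fun hx T hT' hPT ha => h3 T hT' hPT ha hx, fun hx => hx S h1 hPS h2⟩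
    refine ⟨S, h1, hPS, ?_, h4⟩
    have h5 : #S = #{x : N | clP K P x a} := by rw [← h4]; rfl
    rw [h5]
    exact mk_clP_le hK hN hP hPl a
  have hun : ∀ S T : L.Substructure N, K.le S → K.le T → P ≤ S → P ≤ T → #S ≤ l → #T ≤ l →
      ∃ U : L.Substructure N, K.le U ∧ (U : Set N) = (S : Set N) ∪ T := by
    intro S T hS hT hPS hPT hSl hTl
    obtain ⟨B', hB', hsub, hB'l⟩ := hull ((S : Set N) ∪ T)
      ((mk_union_le _ _).trans (add_le_of_le hl hSl hTl))
    exact (h B' hB' (fun x hx => hsub (Or.inl (hPS hx))) hB'l).2 S T hS hT hPS hPT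
      (fun x hx => hsub (Or.inl hx)) (fun x hx => hsub (Or.inr hx))
  refine ⟨T1, fun S T hS hT hPS hPT => ?_⟩
  refine exists_closedP_of hl hP hPl hcl hun (fun x hx => Or.inl (hPS hx)) ?_
  rintro a (ha | ha) x hx
  · exact Or.inl (hx S hS hPS ha)
  · exact Or.inr (hx T hT hPT ha)

/-- If the model of cardinality `κ` has disintegrated closures over its strong substructures, then
so have all large members. -/
theorem disAll_of_cat [L.IsRelational] {l κ : Cardinal.{u}} (hK : K.IsLS l) (hlκ : l ≤ κ)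
    (hκ : ∀ (M : Type u) [L.Structure M], K.mem M → #M = κ → DisAll K M) (hN : K.mem N)
    (hμ : hanf (2 ^ l) ≤ #N) (hμ' : l < #N) : DisAll K N := by
  intro P hP
  obtain ⟨P₀, h1, h2, h3⟩ := hK.2.2 P (K.mem_of_le P hP).1 ∅
  have hP₀ : K.le (P₀.map P.subtype.toHom) := K.le_trans P P₀ h1 hP
  have hP₀P : P₀.map P.subtype.toHom ≤ P := by
    rintro x ⟨y, -, rfl⟩
    exact y.2
  have hP₀l : #(P₀.map P.subtype.toHom) ≤ l := by
    refine le_trans ?_ (h3.trans (add_le_of_le hK.1 (by simp) le_rfl))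
    exact mk_le_of_surjective (f := fun y : P₀ =>
      (⟨P.subtype.toHom y.1, ⟨y.1, y.2, rfl⟩⟩ : P₀.map P.subtype.toHom)) (by
        rintro ⟨x, y, hy, rfl⟩
        exact ⟨⟨y, hy⟩, rfl⟩)
  refine DisOver.mono (disOver_of_small hK hN hP₀ hP₀l fun B hB hPB hBl => ?_) hP hP₀P
  obtain ⟨N₁, _, g1, g2, S, h, hS, hBS, hemb⟩ := exists_em hK hN hμ hμ' B hBl κ hlκ
  exact (disRelP_of hP₀ (hPB.trans hBS) hS (disAll_of_emb h hemb (hκ N₁ g1 g2))).mono hB hPB hBS

/-- All members of the categoricity cardinal have the property if one member of at least that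
cardinality has it. -/
theorem disAll_card {l κ : Cardinal.{u}} (hK : K.IsLS l) (hlκ : l ≤ κ) (hcat : K.CategoricalIn κ)
    (hex : ∃ (M : Type u) (_ : L.Structure M), K.mem M ∧ κ ≤ #M ∧ DisAll K M) :
    ∀ (N : Type u) [L.Structure N], K.mem N → #N = κ → DisAll K N := by
  obtain ⟨M, _, hM, hMc, hD⟩ := hex
  intro N _ hN hNc
  have hκ0 : ℵ₀ ≤ κ := hK.1.trans hlκ
  obtain ⟨A, hA⟩ := le_mk_iff_exists_set.1 hMc
  obtain ⟨S, h1, h2, h3⟩ := hK.2.2 M hM A
  have hSc : #S = κ := by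
    apply le_antisymm
    · refine h3.trans ?_
      rw [hA]
      exact add_le_of_le hκ0 le_rfl hlκ
    · rw [← hA]
      exact mk_le_mk_of_subset h2
  obtain ⟨e⟩ := hcat.2 N S hN (K.mem_of_le S h1).1 hNc hSc
  have hS' : K.Emb S.subtype := by
    unfold AEC.Emb
    rw [range_subtype]
    exact h1
  exact disAll_of_emb (S.subtype.comp e.toEmbedding) (hS'.comp (AEC.Emb.of_equiv e hN)) hD

theorem disAll_of_disIn (h : DisIn K N) : DisAll K N := by
  intro P hP
  constructor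
  · intro a
    obtain ⟨S, h1, h2, h3⟩ := h.1 a
    obtain ⟨U, hU, hUe⟩ := h.2 P S hP h1
    refine ⟨U, hU, ?_, ?_, ?_⟩
    · intro x hx
      change x ∈ (U : Set N)
      rw [hUe]
      exact Or.inl hx
    · change a ∈ (U : Set N)
      rw [hUe]
      exact Or.inr h2
    · intro T hT hPT ha x hx
      have hx' : x ∈ (U : Set N) := hx
      rw [hUe] at hx'
      rcases hx' with hx' | hx'
      · exact hPT hx'
      · exact h3 T hT ha hx'
  · intro S T hS hT _ _
    exact h.2 S T hS hT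

section rel

/-- The property in the relational vocabulary. -/
theorem DisAll.rel {N₀ N : Type u} [L.Structure N₀] [(H67.relLang L).Structure N]
    (h : DisAll K N₀) (e : N₀ ≃[H67.relLang L] N) : DisAll (H67.relAEC K) N := by
  intro P hP
  have hup : ∀ T : L.Substructure N₀, K.le T → ∃ S : (H67.relLang L).Substructure N,
      H67.leR K S ∧ ∀ x, x ∈ T ↔ e x ∈ S := by
    intro T hT
    let S : (H67.relLang L).Substructure N :=
      { carrier := {y | e.symm y ∈ T}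
        fun_mem := fun f => PEmpty.elim f }
    have hmem : ∀ x, x ∈ T ↔ e x ∈ S := by
      intro x
      change x ∈ T ↔ e.symm (e x) ∈ T
      rw [e.symm_apply_apply]
    exact ⟨S, ⟨N₀, inferInstance, e, T, hT, hmem⟩, hmem⟩
  obtain ⟨P₁, hP₁, hmP⟩ := (show H67.leR K P from hP).pres e
  obtain ⟨h1, h2⟩ := h P₁ hP₁
  constructor
  · intro a
    obtain ⟨T, hT, hPT, haT, hmin⟩ := h1 (e.symm a)
    obtain ⟨S, hS, hmem⟩ := hup T hT
    refine ⟨S, hS, ?_, ?_, ?_⟩
    · intro y hy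
      obtain ⟨x, rfl⟩ := e.surjective y
      exact (hmem x).1 (hPT ((hmP x).2 hy))
    · have := (hmem (e.symm a)).1 haT
      rwa [e.apply_symm_apply] at this
    · intro T' hT' hPT' haT'
      obtain ⟨T₁, hT₁, hmem₁⟩ := (show H67.leR K T' from hT').pres e
      have h3 := hmin T₁ hT₁ (fun x hx => (hmem₁ x).2 (hPT' ((hmP x).1 hx)))
        ((hmem₁ _).2 (by rwa [e.apply_symm_apply]))
      intro y hy
      obtain ⟨x, rfl⟩ := e.surjective y
      exact (hmem₁ x).1 (h3 ((hmem x).2 hy))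
  · intro S T hS hT hPS hPT
    obtain ⟨S₁, hS₁, hmS⟩ := (show H67.leR K S from hS).pres e
    obtain ⟨T₁, hT₁, hmT⟩ := (show H67.leR K T from hT).pres e
    obtain ⟨U₁, hU₁, hU⟩ := h2 S₁ T₁ hS₁ hT₁ (fun x hx => (hmS x).2 (hPS ((hmP x).1 hx)))
      (fun x hx => (hmT x).2 (hPT ((hmP x).1 hx)))
    obtain ⟨U, hU', hmU⟩ := hup U₁ hU₁
    refine ⟨U, hU', ?_⟩
    ext y
    obtain ⟨x, rfl⟩ := e.surjective y
    have h3 : x ∈ (U₁ : Set N₀) ↔ x ∈ (S₁ : Set N₀) ∪ T₁ := by rw [hU]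
    change e x ∈ U ↔ e x ∈ S ∨ e x ∈ T
    rw [← hmU, ← hmS, ← hmT]
    exact h3

end rel

/-- From relational vocabularies to all vocabularies. -/
theorem transferP_of_rel (h : ∀ l : Cardinal.{u}, ℵ₀ ≤ l → ∃ μ : Cardinal.{u}, l ≤ μ ∧
      ∀ (L : Language.{u, u}) [L.IsRelational] (K : AEC L), K.IsLS l →
        ∀ κ, μ ≤ κ → K.CategoricalIn κ →
        (∀ (N : Type u) [L.Structure N], K.mem N → #N = κ → DisAll K N) →
        ∀ κ', μ ≤ κ' → K.CategoricalIn κ') :
    ∀ l : Cardinal.{u}, ℵ₀ ≤ l → ∃ μ : Cardinal.{u}, l ≤ μ ∧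
      ∀ (L : Language.{u, u}) (K : AEC L), K.LS ≤ l →
        ∀ κ, μ ≤ κ → K.CategoricalIn κ →
          (∃ (M : Type u) (_ : L.Structure M), K.mem M ∧ κ ≤ #M ∧ DisAll K M) →
          ∀ κ', μ ≤ κ' → K.CategoricalIn κ' := by
  intro l hl
  obtain ⟨μ, hμ, h⟩ := h l hl
  refine ⟨μ, hμ, fun L K hK κ hκ hcat hex κ' hκ' => ?_⟩
  obtain ⟨M, _, hM, hMc, hD⟩ := hex
  have hLS := H67.relAEC_isLS (AEC.isLS_of_LS_le hK)
  have hcat' := H67.categorical_iff.2 hcat
  exact H67.categorical_iff.1 (h (H67.relLang L) (H67.relAEC K) hLS κ hκ hcat'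
    (disAll_card hLS (hμ.trans hκ) hcat'
      ⟨M, inferInstance, H67.memR_self hM, hMc, hD.rel (Language.Equiv.refl _ _)⟩) κ' hκ')

end Vale.Agent.P307.Triv
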