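import Vale.Agent.P307.Triv.PQ
import Vale.Agent.P307.Triv.PL
import Vale.Agent.P307.Triv.Final

/-!
Categoricity transfer in classes with disintegrated closures over strong substructures: assembly.
-/

universe u

open FirstOrder Cardinal Set

namespace Vale.Agent.P307.Triv

open Language.Structure Language.Substructure

/-- Coordinates of large members over symmetric members of the class. -/
theorem exists_coordP (hG1 : SpecG1.{u}) (hG2 : SpecG2.{u}) (hG3 : SpecG3.{u}) (hW : SpecW.{u})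
    {l κ : Cardinal.{u}} (hl : ℵ₀ ≤ l) {L : Language.{u, u}} [L.IsRelational] {K : AEC L}
    (hK : K.IsLS l) (hκ1 : Order.succ (2 ^ l) < κ) (hcat : K.CategoricalIn κ)
    (hDκ : ∀ (N : Type u) [L.Structure N], K.mem N → #N = κ → DisAll K N)
    {R I E : Type u} [L.Structure (R ⊕ (I × E))] {P : L.Substructure (R ⊕ (I × E))}
    (hM : K.mem (R ⊕ (I × E))) (hR : #R ≤ l) (hE : #E ≤ l) [Nonempty E] (hI : #I = κ)
    (hMκ : #(R ⊕ (I × E)) = κ) (hP : K.le P) (hPl : #P ≤ l)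
    (hsym : SymM L R I E (fun x a => clP K P x a)) {N : Type u} [L.Structure N] (hN : K.mem N)
    (hN1 : hanf (2 ^ l) ≤ #N)
    (hN2 : hanf ((2 : Cardinal.{u}) ^ (Order.succ ((2 : Cardinal.{u}) ^ l))) ≤ #N)
    (hN3 : Order.succ (2 ^ l) < #N) :
    ∃ (R' J' : Type u) (_ : L.Structure (R' ⊕ (I × E))) (ζ : N ≃ R' ⊕ (J' × E)),
      #R' ≤ 2 ^ l ∧ #N = #J' ∧ IxSym L R' I E ∧ Coord L R' I E N J' ζ ∧
        K.mem (R' ⊕ (I × E)) := by
  have hlam : l ≤ Order.succ (2 ^ l) := (cantor l).le.trans (Order.le_succ _)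
  have hχ : ℵ₀ ≤ (2 : Cardinal.{u}) ^ l := hl.trans (cantor l).le
  have hI0 : ℵ₀ ≤ #I := by
    rw [hI]
    exact (hl.trans hlam).trans hκ1.le
  have hIinf : Infinite I := infinite_iff.2 hI0
  have hDN : DisAll K N := disAll_of_cat hK (hlam.trans hκ1.le) hDκ hN hN1 (hlam.trans_lt hN3)
  obtain ⟨PN, hPN, -, hPNl⟩ := hK.2.2 N hN ∅
  have hPNl' : #PN ≤ l := hPNl.trans (add_le_of_le hl (by simp) le_rfl)
  obtain ⟨J, c, hJ, hc0, hcj, -, hcl, hloc⟩ := hG1 L R I E N l (fun x a => clP K P x a)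
    (fun x a => clP K PN x a) hl hsym hR hE inferInstance (fun x => clP_refl K PN x)
    (fun x y z h h' => clP_trans h h') (fun a => mk_clP_le hK hN hPN hPNl' a) hN3
    (fun B hB hBl => PQ.exists_qemb hK hlam hκ1 hcat hM (hDκ _ hM hMκ) hR hI hMκ hP hPl hsym hN
      hN2 hN3 hDN hPN hPNl' hB hBl)
  obtain ⟨Z, hZ, hZ'⟩ := hG2 L R I E N J l c hl hloc
  obtain ⟨R', J', str, ζ, hR', hIx, hco, hcc⟩ := hG3 L R I E N J l c Z hl hsym.sym hR hE
    inferInstance (by rw [hI]; exact hκ1) hJ hc0 hcj hZ hZ'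
  have hEχ : #E ≤ 2 ^ l := hE.trans (cantor l).le
  have hJ'χ : 2 ^ l ≤ #J' := by
    by_contra hcon
    rw [not_le] at hcon
    have h1 : #N ≤ 2 ^ l := by
      rw [mk_congr ζ, mk_sum, mk_prod, lift_id, lift_id, lift_id, lift_id]
      exact add_le_of_le hχ hR' ((mul_le_mul' hcon.le hEχ).trans (mul_eq_self hχ).le)
    exact absurd (hN3.trans_le (h1.trans (Order.le_succ _))) (lt_irrefl _)
  have hNJ : #N = #J' := mk_of_coord hχ hR' hEχ hJ'χ ζ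
  refine ⟨R', J', str, ζ, hR', hNJ, hIx, hco, ?_⟩
  refine hW L K N R' I J' E (fun x a => clP K PN x a) ζ hN hIinf (infinite_iff.2 (hχ.trans hJ'χ))
    inferInstance hIx hco ?_ ?_
  · intro X hX hXc
    obtain ⟨a, ha⟩ := hX
    exact exists_closedP hPN (hDN PN hPN) (fun p hp => hXc a ha p (clP_base hp a)) hXc
  · intro x a hxa
    exact hcc x a (hcl x a hxa)

/-- Relational vocabularies: from the parts. -/
theorem transferP_rel (hSP : SpecSP.{u}) (hG1 : SpecG1.{u}) (hG2 : SpecG2.{u}) (hG3 : SpecG3.{u})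
    (hW : SpecW.{u}) (hB : SpecB.{u}) :
    ∀ l : Cardinal.{u}, ℵ₀ ≤ l → ∃ μ : Cardinal.{u}, l ≤ μ ∧
      ∀ (L : Language.{u, u}) [L.IsRelational] (K : AEC L), K.IsLS l →
        ∀ κ, μ ≤ κ → K.CategoricalIn κ →
        (∀ (N : Type u) [L.Structure N], K.mem N → #N = κ → DisAll K N) →
        ∀ κ', μ ≤ κ' → K.CategoricalIn κ' := by
  intro l hl
  have hlam : l ≤ Order.succ (2 ^ l) := (cantor l).le.trans (Order.le_succ _)
  have hχ : ℵ₀ ≤ (2 : Cardinal.{u}) ^ l := hl.trans (cantor l).le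
  obtain ⟨μ₁, hμ₁, hS⟩ := hSP l hl
  let lam : Cardinal.{u} := Order.succ (2 ^ l)
  let χ : Cardinal.{u} := 2 ^ l
  let μ : Cardinal.{u} := max μ₁ (max (hanf (2 ^ l)) (max (hanf (2 ^ lam))
    (max (Order.succ lam) (Order.succ (2 ^ χ)))))
  refine ⟨μ, hμ₁.le.trans (le_max_left _ _), ?_⟩
  intro L _ K hK κ hκ hcat hDκ κ' hκ'
  have hb : ∀ ν : Cardinal.{u}, μ ≤ ν →
      μ₁ ≤ ν ∧ hanf (2 ^ l) ≤ ν ∧ hanf (2 ^ lam) ≤ ν ∧ lam < ν ∧ (2 : Cardinal.{u}) ^ χ < ν := by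
    intro ν hν
    have h1 := (le_max_left _ _).trans hν
    have h2 := (le_max_right _ _).trans hν
    have h3 := (le_max_left _ _).trans h2
    have h4 := (le_max_right _ _).trans h2
    have h5 := (le_max_left _ _).trans h4
    have h6 := (le_max_right _ _).trans h4
    exact ⟨h1, h3, h5, (Order.lt_succ _).trans_le ((le_max_left _ _).trans h6),
      (Order.lt_succ _).trans_le ((le_max_right _ _).trans h6)⟩
  obtain ⟨R, I, E, _, P, hM, hR, hE, hE0, hI, hP, hPl, hsym⟩ := hS L K hK κ (hb κ hκ).1 hcat hDκ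
  have hlamκ : lam < κ := (hb κ hκ).2.2.2.1
  have hMκ : #(R ⊕ (I × E)) = κ := by
    rw [mk_of_coord hl hR hE (by rw [hI]; exact hlam.trans hlamκ.le) (Equiv.refl _), hI]
  have key : ∀ (N : Type u) [L.Structure N], K.mem N → #N = κ' →
      ∃ (R' J' : Type u) (_ : L.Structure (R' ⊕ (I × E))) (ζ : N ≃ R' ⊕ (J' × E)),
        #R' ≤ 2 ^ l ∧ #N = #J' ∧ IxSym L R' I E ∧ Coord L R' I E N J' ζ ∧
          K.mem (R' ⊕ (I × E)) := by
    intro N _ hN hNc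
    have hNμ : μ ≤ #N := by
      rw [hNc]
      exact hκ'
    exact exists_coordP hG1 hG2 hG3 hW hl hK hlamκ hcat hDκ hM hR hE hI hMκ hP hPl hsym hN
      (hb _ hNμ).2.1 (hb _ hNμ).2.2.1 (hb _ hNμ).2.2.2.1
  have hEχ : #E ≤ χ := hE.trans (cantor l).le
  have hχκ : χ ≤ κ := (cantor χ).le.trans (hb κ hκ).2.2.2.2.le
  refine ⟨?_, ?_⟩
  · obtain ⟨N₁, h1, h2, h3, -⟩ := exists_em (hK.mono hlam) hM
      (by rw [hMκ]; exact (hb κ hκ).2.2.1) (by rw [hMκ]; exact hlamκ) ∅ (by simp) κ'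
      (hb κ' hκ').2.2.2.1.le
    exact ⟨N₁, h1, h2, h3⟩
  · intro N N' _ _ hN hN' hNc hN'c
    obtain ⟨R₁, J₁, str₁, ζ₁, hR₁, hNJ₁, hIx₁, hco₁, hW₁⟩ := key N hN hNc
    obtain ⟨R₂, J₂, str₂, ζ₂, hR₂, hNJ₂, hIx₂, hco₂, hW₂⟩ := key N' hN' hN'c
    have h1 : #(R₁ ⊕ (I × E)) = κ := by
      rw [mk_of_coord hχ hR₁ hEχ (by rw [hI]; exact hχκ) (Equiv.refl _), hI]
    have h2 : #(R₂ ⊕ (I × E)) = κ := by
      rw [mk_of_coord hχ hR₂ hEχ (by rw [hI]; exact hχκ) (Equiv.refl _), hI]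
    obtain ⟨g⟩ := hcat.2 (R₁ ⊕ (I × E)) (R₂ ⊕ (I × E)) hW₁ hW₂ h1 h2
    refine hB L R₁ I E R₂ I E N N' J₁ J₂ χ hχ hIx₁ hIx₂ hR₁ hEχ hR₂ hEχ hE0 hE0
      (by rw [hI]; exact (hb κ hκ).2.2.2.2) (by rw [hI]; exact (hb κ hκ).2.2.2.2) g ζ₁ ζ₂ hco₁ hco₂
      ?_ ?_
    · rw [← hNJ₁, hNc]
      exact (cantor χ).trans (hb κ' hκ').2.2.2.2
    · rw [← hNJ₁, ← hNJ₂, hNc, hN'c]

end Vale.Agent.P307.Triv
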