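import Vale.Agent.P307.Triv.PSB

/-!
Part alpha: symmetry over a small strong substructure.
-/

universe u

open FirstOrder Cardinal Set Language Structure

namespace Vale.Agent.P307.Triv

open Vale.Agent.P307.H67

theorem coordsP {l : Cardinal.{u}} {L : Language.{u, u}} [L.IsRelational]
    {K : AEC L} (hK : K.IsLS l) {Λ : Type u} (hΛ : #Λ = l) {N I : Type u}
    [L.Structure N] [(L.sum (LU Λ)).Structure N] [Infinite I] (hN : K.mem N) (hlI : l ≤ #I)
    (hDI : ∀ (W : Type u) [L.Structure W], K.mem W → #W = #I → DisAll K W)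
    {PN : L.Substructure N} (hPN : K.le PN) (hDN : DisOver K PN)
    (hPc : (PN : Set N) = range (cval L (Λ := Λ) N)) (e : I → N)
    (he : Function.Injective e)
    (hcl : ∀ x a : N, clP K PN x a ↔ ∃ ξ : Λ, funMap (fsym L ξ) (fun _ => a) = x)
    (hsym : ∀ (n : ℕ) (A : Atm L n) (t : Fin n → (L.sum (LU Λ)).Term (Fin 1)) (g g' : Fin n → I),
      (∀ k k', g k = g k' ↔ g' k = g' k') →
      (A.Holds (fun k => ev e (t k) (g k)) ↔ A.Holds (fun k => ev e (t k) (g' k)))) :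
    ∃ (R E : Type u) (_ : L.Structure (R ⊕ (I × E))) (P : L.Substructure (R ⊕ (I × E))),
      K.mem (R ⊕ (I × E)) ∧ #R ≤ l ∧ #E ≤ l ∧ Nonempty E ∧ K.le P ∧ #P ≤ l ∧
      SymM L R I E (fun x a => clP K P x a) := by
  classical
  have hl := hK.1
  have hAc : ∀ X : Set N, (PN : Set N) ⊆ X → Closed (fun x a => clP K PN x a) X →
      ∃ S : L.Substructure N, K.le S ∧ (S : Set N) = X :=
    fun X h h' => exists_closedP hPN hDN h h'
  let L₁ : Language.{u, u} := L.sum (LU Λ)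
  have hL₁ : L₁.card ≤ l := card_LU_le hl hK.2.1 hΛ.le
  let T : Type u := L₁.Term (Fin 1)
  have hT : #T ≤ l := mk_term_fin_le hl hL₁ 1
  let v₀ : T := Term.var 0
  have hv₀ : ∀ i, ev e v₀ i = e i := fun _ => rfl
  let ap : Λ → T → T := fun ξ t => Term.func (fsym L ξ) (fun _ => t)
  have hap : ∀ ξ t i, ev e (ap ξ t) i = funMap (fsym L ξ) (fun _ => ev e t i) := fun _ _ _ => rfl
  have hS2 : ∀ (t t' : T) (i j i' j' : I), (i = j ↔ i' = j') →
      (ev e t i = ev e t' j ↔ ev e t i' = ev e t' j') := by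
    intro t t' i j i' j' h
    have h1 := hsym 2 (Atm.eq 0 1) ![t, t'] ![i, j] ![i', j'] (by
      intro k k'
      refine Fin.cases ?_ (fun k => ?_) k <;> refine Fin.cases ?_ (fun k' => ?_) k'
      · simp
      · rw [Subsingleton.elim k' 0]
        exact h
      · rw [Subsingleton.elim k 0]
        exact ⟨fun h2 => (h.1 h2.symm).symm, fun h2 => (h.2 h2.symm).symm⟩
      · rw [Subsingleton.elim k 0, Subsingleton.elim k' 0]
        simp)
    exact h1
  let R1 : Set N := {x | ∃ t : T, ∀ i, ev e t i = x}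
  have hf1 : ∀ (t t' : T) (i j : I), ev e t i ∉ R1 → ev e t i = ev e t' j → i = j := by
    intro t t' i j h h'
    by_contra hne
    refine h ⟨t, fun k => ?_⟩
    obtain ⟨j', hj'⟩ := Infinite.exists_notMem_finset ({k, i} : Finset I)
    rw [Finset.mem_insert, Finset.mem_singleton, not_or] at hj'
    have h1 := (hS2 t t' i j i j' ⟨fun h2 => absurd h2 hne, fun h2 => absurd h2.symm hj'.2⟩).1 h'
    have h2 := (hS2 t t' i j k j' ⟨fun h2 => absurd h2 hne, fun h2 => absurd h2.symm hj'.1⟩).1 h'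
    rw [h1, h2]
  -- equalities at one index hold at all indices
  have hS1 : ∀ (t t' : T) (i j : I), ev e t i = ev e t' i → ev e t j = ev e t' j :=
    fun t t' i j h => (hS2 t t' i i j j (by simp)).1 h
  -- values outside of the base stay outside
  have hout : ∀ (t : T) (i j : I), ev e t i ∉ R1 → ev e t j ∉ R1 := by
    rintro t i j h ⟨s, hs⟩
    have h1 := hS1 t s j i (hs j).symm
    exact h ⟨s, fun k => by rw [hs k, h1, hs i]⟩
  have i₀ : I := Classical.arbitrary I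
  let E' : Set N := {x | x ∉ R1 ∧ ∃ t : T, ev e t i₀ = x}
  have hx₀ : e i₀ ∈ E' := by
    refine ⟨?_, v₀, rfl⟩
    rintro ⟨t, ht⟩
    obtain ⟨i₁, hi₁⟩ := Infinite.exists_notMem_finset ({i₀} : Finset I)
    rw [Finset.mem_singleton] at hi₁
    have h1 := hS1 t v₀ i₀ i₁ (ht i₀)
    rw [hv₀, ht i₁] at h1
    exact hi₁ (he h1.symm)
  let G : N → N → Prop := fun x y => (x ∈ E' ∧ y ∈ E') ∧ (clP K PN x y ∨ clP K PN y x)
  let Es : Set N := {x | x ∈ E' ∧ Relation.ReflTransGen G (e i₀) x}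
  let Rs : Set N := {s | s ∈ R1 ∧ ∃ x ∈ Es, clP K PN s x}
  choose tm htm using fun x : Es => x.2.1.2
  choose ts hts using fun s : Rs => s.2.1
  let W : Type u := Rs ⊕ (I × Es)
  let F : W → N := Sum.elim (fun s => s.1) (fun p => ev e (tm p.2) p.1)
  have hFl : ∀ s : Rs, F (Sum.inl s) = s.1 := fun _ => rfl
  have hFr : ∀ i x, F (Sum.inr (i, x)) = ev e (tm x) i := fun _ _ => rfl
  have hFr0 : ∀ x : Es, F (Sum.inr (i₀, x)) = x.1 := fun x => htm x
  have hFout : ∀ i x, F (Sum.inr (i, x)) ∉ R1 := by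
    intro i x
    rw [hFr]
    refine hout _ i₀ _ ?_
    rw [htm]
    exact x.2.1.1
  have hFinj : Function.Injective F := by
    rintro (s | ⟨i, x⟩) (s' | ⟨j, x'⟩) h
    · rw [hFl, hFl] at h
      rw [Subtype.ext h]
    · exact absurd (h ▸ s.2.1 : F (Sum.inr (j, x')) ∈ R1) (hFout j x')
    · exact absurd (h.symm ▸ s'.2.1 : F (Sum.inr (i, x)) ∈ R1) (hFout i x)
    · have h1 : i = j := hf1 (tm x) (tm x') i j (hFout i x) h
      subst h1
      have h2 := hS1 (tm x) (tm x') i i₀ h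
      rw [htm, htm] at h2
      rw [Subtype.ext h2]
  have hEs : ∀ x : Es, ∀ z ∈ E', (clP K PN z x.1 ∨ clP K PN x.1 z) → z ∈ Es := by
    intro x z hz h
    exact ⟨hz, x.2.2.tail ⟨⟨x.2.1, hz⟩, h.symm⟩⟩
  have hclosed : Closed (fun x a => clP K PN x a) (range F) := by
    rintro _ ⟨(s | ⟨i, x⟩), rfl⟩ z hz
    · obtain ⟨ξ, hξ⟩ := (hcl _ _).1 hz
      obtain ⟨t, ht⟩ := s.2.1
      have h1 : z ∈ R1 := ⟨ap ξ t, fun i => by rw [hap, ht i]; exact hξ⟩
      obtain ⟨x, hx, hsx⟩ := s.2.2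
      exact ⟨Sum.inl ⟨z, h1, x, hx, clP_trans hz hsx⟩, rfl⟩
    · obtain ⟨ξ, hξ⟩ := (hcl _ _).1 hz
      have hz' : ev e (ap ξ (tm x)) i = z := hξ
      have hz₀ : clP K PN (ev e (ap ξ (tm x)) i₀) x.1 := by
        refine (hcl _ _).2 ⟨ξ, ?_⟩
        rw [hap, htm]
      by_cases h0 : ev e (ap ξ (tm x)) i₀ ∈ R1
      · obtain ⟨s, hs⟩ := h0
        have h1 := hS1 (ap ξ (tm x)) s i₀ i (hs i₀).symm
        have h2 : z = ev e (ap ξ (tm x)) i₀ := by rw [← hz', h1, hs i]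
        exact ⟨Sum.inl ⟨z, ⟨s, fun k => by rw [h2, hs k]⟩, x.1, x.2, h2 ▸ hz₀⟩, rfl⟩
      · have h1 : ev e (ap ξ (tm x)) i₀ ∈ Es := hEs x _ ⟨h0, _, rfl⟩ (Or.inl hz₀)
        refine ⟨Sum.inr (i, ⟨_, h1⟩), ?_⟩
        rw [hFr, ← hz']
        exact hS1 _ _ i₀ i (htm ⟨_, h1⟩)
  have hEne : Nonempty Es := ⟨⟨e i₀, hx₀, Relation.ReflTransGen.refl⟩⟩
  have hPR1 : ∀ p ∈ (PN : Set N), p ∈ R1 := by
    intro p hp
    rw [hPc] at hp
    obtain ⟨ξ, rfl⟩ := hp
    exact ⟨Term.func (csym L ξ) (fun k => k.elim0), fun i => by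
      change funMap (csym L ξ : L₁.Functions 0) _ = funMap (csym L ξ : L₁.Functions 0) _
      congr 1
      funext k
      exact k.elim0⟩
  have hPF : (PN : Set N) ⊆ range F := by
    intro p hp
    exact ⟨Sum.inl ⟨p, hPR1 p hp, e i₀, ⟨hx₀, Relation.ReflTransGen.refl⟩, clP_base hp _⟩, rfl⟩
  have hPl : #PN ≤ l := by
    have h1 : #PN = #(range (cval L (Λ := Λ) N)) := by
      rw [← hPc]
      rfl
    rw [h1]
    exact mk_range_le.trans hΛ.le
  obtain ⟨S, hS, hSY⟩ := hAc (range F) hPF hclosed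
  let strW : L.Structure W :=
    { funMap := fun {n} f _ => isEmptyElim (α := L.Functions n) f
      RelMap := fun {n} r v => RelMap r (fun k => F (v k)) }
  have hFS : ∀ w : W, F w ∈ S := fun w => by
    have : F w ∈ (S : Set N) := by
      rw [hSY]
      exact ⟨w, rfl⟩
    exact this
  let E₀ : W ≃ S := Equiv.ofBijective (fun w => ⟨F w, hFS w⟩) ⟨fun w w' h =>
    hFinj (congrArg Subtype.val h), fun z => by
      have h1 : z.1 ∈ (S : Set N) := z.2
      rw [hSY] at h1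
      obtain ⟨w, hw⟩ := h1
      exact ⟨w, Subtype.ext hw⟩⟩
  let E₁ : W ≃[L] S :=
    { E₀ with
      map_fun' := fun {n} f => isEmptyElim (α := L.Functions n) f
      map_rel' := fun {n} r v => Iff.rfl }
  have hW : K.mem W := K.mem_iso E₁.symm (K.mem_of_le S hS).1
  have hPS : PN ≤ S := by
    intro p hp
    have h1 : p ∈ (S : Set N) := by
      rw [hSY]
      exact hPF hp
    exact h1
  let PW : L.Substructure W := (PN.comap S.subtype.toHom).map E₁.symm.toHom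
  have hPW : ∀ w : W, w ∈ PW ↔ F w ∈ PN := by
    intro w
    constructor
    · rintro ⟨z, hz, hzw⟩
      have h1 : E₁ w = z := by
        rw [← hzw]
        exact E₁.apply_symm_apply z
      have h2 : F w = z.1 := by
        rw [← h1]
        rfl
      rw [h2]
      exact hz
    · intro h
      exact ⟨E₁ w, h, E₁.symm_apply_apply w⟩
  have hPWle : K.le PW := K.le_iso E₁.symm _ (K.coherence PN S hPS hPN hS)
  have hRl : #Rs ≤ l := by
    refine le_trans ?_ hT
    refine mk_le_of_injective (f := ts) fun s s' h => ?_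
    apply Subtype.ext
    rw [← hts s i₀, ← hts s' i₀, h]
  have hEl : #Es ≤ l := by
    refine le_trans ?_ hT
    refine mk_le_of_injective (f := tm) fun x x' h => ?_
    apply Subtype.ext
    rw [← htm x, ← htm x', h]
  have hWI : #W = #I := by
    have hI0 : ℵ₀ ≤ #I := hl.trans hlI
    have h1 : #W = #Rs + #I * #Es := by
      change #(Rs ⊕ (I × Es)) = _
      rw [mk_sum, mk_prod, lift_id, lift_id, lift_id, lift_id]
    rw [h1]
    have h2 : #I * #Es = #I :=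
      mul_eq_left hI0 (hEl.trans hlI) (mk_ne_zero_iff.2 hEne)
    rw [h2]
    exact add_eq_right hI0 (hRl.trans hlI)
  have hPWl : #PW ≤ l := by
    refine le_trans ?_ hPl
    refine mk_le_of_injective (f := fun w : PW => (⟨F w.1, (hPW w.1).1 w.2⟩ : PN)) ?_
    intro w w' h
    exact Subtype.ext (hFinj (congrArg Subtype.val h))
  have hC := cEmbP_of_equiv (P := PW) (P' := PN) (hDI W hW hWI PW hPWle) hDN (S := ⊤)
    (E₁.comp Substructure.topEquiv) (K.le_refl hW) hS le_top hPS (fun a => hPW a.1) F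
    (fun a => rfl)
  have hc : ∀ x a : W, clP K PN (F x) (F a) ↔ clP K PW x a := fun x a =>
    hC.cl a (Substructure.mem_top a) x (Substructure.mem_top x)
  refine ⟨Rs, Es, strW, PW, hW, hRl, hEl, hEne, hPWle, hPWl, ?_⟩
  have hub : ∀ (s : Rs) (i j : I) (x : Es), clP K PN s.1 (F (Sum.inr (i, x))) →
      clP K PN s.1 (F (Sum.inr (j, x))) := by
    intro s i j x h
    obtain ⟨ξ, hξ⟩ := (hcl _ _).1 h
    refine (hcl _ _).2 ⟨ξ, ?_⟩
    have h1 : ev e (ap ξ (tm x)) i = ev e (ts s) i := by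
      rw [hts s i]
      exact hξ
    have h2 := hS1 _ _ i j h1
    rw [hts s j] at h2
    exact h2
  have hup : ∀ (i j : I) (x x' : Es), clP K PN (F (Sum.inr (i, x))) (F (Sum.inr (i, x'))) →
      clP K PN (F (Sum.inr (j, x))) (F (Sum.inr (j, x'))) := by
    intro i j x x' h
    obtain ⟨ξ, hξ⟩ := (hcl _ _).1 h
    refine (hcl _ _).2 ⟨ξ, ?_⟩
    have h1 : ev e (ap ξ (tm x')) i = ev e (tm x) i := hξ
    exact hS1 _ _ i j h1
  constructor
  · intro n r v σ hσ
    let ixd : W → I := Sum.elim (fun _ => i₀) (fun p => p.1)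
    obtain ⟨b, hb⟩ := Infinite.exists_notMem_finset
      ((Finset.univ.image (fun k => ixd (v k))) ∪ (Finset.univ.image (fun k => σ (ixd (v k)))))
    rw [Finset.mem_union, not_or] at hb
    have hb1 : ∀ k i x, v k = Sum.inr (i, x) → b ≠ i := by
      intro k i x hv h
      refine hb.1 (Finset.mem_image.2 ⟨k, Finset.mem_univ _, ?_⟩)
      rw [hv]
      exact h.symm
    have hb2 : ∀ k i x, v k = Sum.inr (i, x) → b ≠ σ i := by
      intro k i x hv h
      refine hb.2 (Finset.mem_image.2 ⟨k, Finset.mem_univ _, ?_⟩)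
      rw [hv]
      exact h.symm
    let τ : W → T := Sum.elim (fun s => ts s) (fun p => tm p.2)
    let ix : W → I := Sum.elim (fun _ => b) (fun p => p.1)
    let ix' : W → I := Sum.elim (fun _ => b) (fun p => σ p.1)
    have e1 : ∀ w : W, ev e (τ w) (ix w) = F w := by
      rintro (s | ⟨i, x⟩)
      · exact hts s b
      · rfl
    have e2 : ∀ w : W, ev e (τ w) (ix' w) = F (mv σ w) := by
      rintro (s | ⟨i, x⟩)
      · exact hts s b
      · rfl
    have h1 := hsym n (Atm.rel r) (fun k => τ (v k)) (fun k => ix' (v k)) (fun k => ix (v k)) (by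
      intro k k'
      rcases hv : v k with s | ⟨i, x⟩ <;> rcases hv' : v k' with s' | ⟨i', x'⟩
      · exact Iff.rfl
      · exact ⟨fun h => absurd h (hb2 k' i' x' hv'), fun h => absurd h (hb1 k' i' x' hv')⟩
      · exact ⟨fun h => absurd h.symm (hb2 k i x hv), fun h => absurd h.symm (hb1 k i x hv)⟩
      · exact ⟨fun h => hσ k k' i i' x x' hv hv' h, fun h => congrArg σ h⟩)
    simp only [e1, e2] at h1
    exact h1
  · exact fun x => clP_refl K _ x
  · exact fun x y z h h' => clP_trans h h'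
  · rintro (s' | ⟨i, x⟩) s h
    · exact ⟨s', rfl⟩
    · have h1 := (hc _ _).2 h
      obtain ⟨ξ, hξ⟩ := (hcl _ _).1 h1
      exact absurd ⟨ap ξ (ts s), fun k => by
        rw [hap, hts s k]
        exact hξ⟩ (hFout i x)
  · intro i x j x' h
    have h1 := (hc _ _).2 h
    obtain ⟨ξ, hξ⟩ := (hcl _ _).1 h1
    exact hf1 (tm x) (ap ξ (tm x')) i j (hFout i x) hξ.symm
  · intro s i j x h
    exact (hc _ _).1 (hub s i j x ((hc _ _).2 h))
  · intro i j x x' h
    exact (hc _ _).1 (hup i j x x' ((hc _ _).2 h))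
  · -- connectedness
    intro i
    let Q : Es → Es → Prop := fun a b => clP K PW (Sum.inr (i, a) : W) (Sum.inr (i, b) : W) ∨
      clP K PW (Sum.inr (i, b) : W) (Sum.inr (i, a) : W)
    have hQ : ∀ a b : Es, (clP K PN a.1 b.1 ∨ clP K PN b.1 a.1) → Q a b := by
      intro a b h
      rcases h with h | h
      · left
        refine (hc _ _).1 (hup i₀ i a b ?_)
        rw [hFr0, hFr0]
        exact h
      · right
        refine (hc _ _).1 (hup i₀ i b a ?_)
        rw [hFr0, hFr0]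
        exact h
    have hQs : ∀ a b, Q a b → Q b a := fun a b h => h.symm
    let x₀ : Es := ⟨e i₀, hx₀, Relation.ReflTransGen.refl⟩
    have hreach : ∀ z, Relation.ReflTransGen G (e i₀) z → ∀ hz : z ∈ Es,
        Relation.ReflTransGen Q x₀ ⟨z, hz⟩ := by
      intro z hz
      induction hz with
      | refl => exact fun _ => Relation.ReflTransGen.refl
      | @tail y z hy hyz ih =>
        intro hz
        have hyE : y ∈ Es := ⟨hyz.1.1, hy⟩
        exact (ih hyE).tail (hQ ⟨y, hyE⟩ ⟨z, hz⟩ hyz.2)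
    intro a b
    have h1 := hreach a.1 a.2.2 a.2
    have h2 := hreach b.1 b.2.2 b.2
    have hsymm : ∀ {c d : Es}, Relation.ReflTransGen Q c d → Relation.ReflTransGen Q d c := by
      intro c d h
      induction h with
      | refl => exact Relation.ReflTransGen.refl
      | tail _ h ih => exact Relation.ReflTransGen.head (hQs _ _ h) ih
    exact (hsymm h1).trans h2
  · intro s
    obtain ⟨x, hx, hsx⟩ := s.2.2
    refine ⟨⟨x, hx⟩, fun i => (hc _ _).1 (hub s i₀ i ⟨x, hx⟩ ?_)⟩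
    rw [hFr0]
    exact hsx

theorem specSP : SpecSP.{u} := by
  classical
  intro l hl
  have h2l : ℵ₀ ≤ 2 ^ l := hl.trans (cantor l).le
  refine ⟨max (hanf (2 ^ l)) ((2 : Cardinal.{u}) ^ ((2 : Cardinal.{u}) ^ l)), ((cantor l).trans (cantor _)).trans_le
    (le_max_right _ _), ?_⟩
  intro L _ K hK κ hκ hcat hD
  have hκ1 : hanf (2 ^ l) ≤ κ := (le_max_left _ _).trans hκ
  have hκ2 : (2 : Cardinal.{u}) ^ ((2 : Cardinal.{u}) ^ l) ≤ κ := (le_max_right _ _).trans hκ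
  have hlκ : l ≤ κ := ((cantor l).trans (cantor _)).le.trans hκ2
  have hκ0 : ℵ₀ ≤ κ := hl.trans hlκ
  obtain ⟨⟨M, _, hM, hMκ⟩, -⟩ := id hcat
  let Λ : Type u := l.out
  have hΛ : #Λ = l := mk_out l
  have hMne : Nonempty M := mk_ne_zero_iff.1 (by
    rw [hMκ]
    exact (aleph0_pos.trans_le hκ0).ne')
  obtain ⟨P, hP, hPsub, hPc⟩ := hK.2.2 M hM {Classical.arbitrary M}
  have hPl : #P ≤ l := hPc.trans (add_le_of_le hl ((mk_singleton _).le.trans
    (one_le_aleph0.trans hl)) le_rfl)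
  have hPne : (P : Set M).Nonempty := ⟨_, hPsub (Set.mem_singleton _)⟩
  obtain ⟨_, a, main⟩ := exists_emP hK hD hlκ hM (hD M hM hMκ) (by rw [hMκ]; exact hκ1) hP hPl
    hPne hΛ
  have hL₁ : (L.sum (LU Λ)).card ≤ l := card_LU_le hl hK.2.1 hΛ.le
  obtain ⟨J, _, D, Y, hJ, hDc, hY, hsep⟩ := exists_order h2l
  let I₁ : Type u := κ.ord.ToType
  have hI₁ : #I₁ = κ := by simp [I₁]
  let I₂ : Type u := J ⊕ₗ κ.ord.ToType
  have hI₂ : #I₂ = κ := by
    have h1 : #I₂ = #(J ⊕ κ.ord.ToType) := rfl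
    rw [h1, mk_sum, lift_id, lift_id, mk_toType, card_ord]
    exact add_eq_right hκ0 (hJ.trans hκ2)
  obtain ⟨N₁, _, _, x1, e₁, he₁, hN₁, hc₁, hinj₁, hev₁, PN, hPN, hPc', hcl₁⟩ := main I₁ hI₁
  obtain ⟨N₂, _, _, x2, e₂, he₂, hN₂, hc₂, hinj₂, hev₂, -⟩ := main I₂ hI₂
  obtain ⟨f⟩ := hcat.2 N₂ N₁ hN₂ hN₁ hc₂ hc₁
  have hlt : ∀ p p' : J, p < p' → (Sum.inlₗ p : I₂) < Sum.inlₗ p' := fun p p' h =>
    Sum.Lex.inl_lt_inl_iff.2 h
  have hinl : Function.Injective (Sum.inlₗ : J → I₂) := fun p p' h => by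
    rcases lt_trichotomy p p' with hw | hw | hw
    · exact absurd h (hlt _ _ hw).ne
    · exact hw
    · exact absurd h (hlt _ _ hw).ne'
  have hlt' : ∀ p p' : J, (Sum.inlₗ p : I₂) < Sum.inlₗ p' → p < p' := fun p p' h => by
    rcases lt_trichotomy p p' with hw | hw | hw
    · exact hw
    · rw [hw] at h
      exact absurd h (lt_irrefl _)
    · exact absurd h (hlt _ _ hw).not_gt
  let D₂ : Set I₂ := (Sum.inlₗ : J → I₂) '' D
  let Y₂ : Set I₂ := (Sum.inlₗ : J → I₂) '' Y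
  have hD₂ : #D₂ ≤ 2 ^ l := mk_image_le.trans hDc
  have hY₂ : 2 ^ l < #Y₂ := by
    have h1 : #Y₂ = #Y := mk_image_eq hinl
    rw [h1]
    exact hY
  obtain ⟨_, ⟨y, hy, rfl⟩, _, ⟨y', hy', rfl⟩, hyy, hsame⟩ :=
    exists_same_type (LHom.sumInl : L →ᴸ L.sum (LU Λ)) he₁ hev₁ hl hL₁ f D₂ Y₂ hD₂ hY₂
  obtain ⟨lo, mi, hi, h1, h2, h3, h4⟩ := hsep y hy y' hy' (hlt' _ _ hyy)
  have hm := movable (LHom.sumInl : L →ᴸ L.sum (LU Λ)) he₁ he₂ hsame
    (lo := fun n => Sum.inlₗ (lo n)) (mi := fun n => Sum.inlₗ (mi n))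
    (hi := fun n => Sum.inlₗ (hi n)) (fun n n' h => hlt _ _ (h1 h)) (fun n n' h => hlt _ _ (h2 h))
    (fun n n' h => hlt _ _ (h3 h)) (fun n => ⟨⟨⟨_, (h4 n).1.1, rfl⟩, ⟨_, (h4 n).1.2.1, rfl⟩,
      ⟨_, (h4 n).1.2.2, rfl⟩⟩, hlt _ _ (h4 n).2.1, hlt _ _ (h4 n).2.2.1,
      hlt _ _ (h4 n).2.2.2.1, hlt _ _ (h4 n).2.2.2.2⟩)
  have hinf : Infinite I₁ := infinite_iff.2 (by rw [hI₁]; exact hκ0)
  obtain ⟨R, E, strW, P', g1, g2, g3, g4, g5, g6, g7⟩ := coordsP hK hΛ hN₁ (hlκ.trans hI₁.ge)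
    (fun W _ hW hc => hD W hW (hc.trans hI₁)) hPN (hD N₁ hN₁ hc₁ PN hPN) hPc' e₁ hinj₁ hcl₁ hm.sym
  exact ⟨R, I₁, E, strW, P', g1, g2, g3, g4, hI₁, g5, g6, g7⟩

end Vale.Agent.P307.Triv
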