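import Vale.Agent.P307.Triv.PDefs

/-!
Part delta: symmetric structures built from a member with coordinates belong to the class.
-/

universe u

open FirstOrder Cardinal Set

namespace Vale.Agent.P307.Triv

namespace PW

variable {L : Language.{u, u}}

/-- The base and the pieces with index in `b`. -/
def sub (L : Language.{u, u}) [L.IsRelational] (R I E : Type u) [L.Structure (R ⊕ (I × E))]
    (b : Set I) : L.Substructure (R ⊕ (I × E)) where
  carrier := {x | ∀ i e, x = Sum.inr (i, e) → i ∈ b}
  fun_mem := fun {_} f => isEmptyElim f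

theorem mem_sub [L.IsRelational] {R I E : Type u} [L.Structure (R ⊕ (I × E))] {b : Set I}
    {x : R ⊕ (I × E)} : x ∈ sub L R I E b ↔ ∀ i e, x = Sum.inr (i, e) → i ∈ b := Iff.rfl

end PW

theorem specW : SpecW.{u} := by
  intro L _ K N R I J E _ _ ρN ζ hN hI hJ hE _ hco hcl hρ
  classical
  obtain ⟨e0⟩ := hE
  obtain ⟨i0⟩ : Nonempty I := inferInstance
  refine (AEC.mem_of_finset_union (K := K) (X := I)
    (fun b => PW.sub L R I E (insert i0 (b : Set I))) ?_ ?_ ?_).1
  · intro a b hab x hx i e hxe
    rcases hx i e hxe with h | h
    · exact Or.inl h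
    · exact Or.inr (hab h)
  · intro a b hab
    -- an injection of the indices into `J`
    obtain ⟨σ, hσ⟩ : ∃ σ : I → J, Set.InjOn σ (insert i0 (b : Set I)) := by
      have hfin : (insert i0 (b : Set I)).Finite := (b.finite_toSet).insert i0
      have := hfin.fintype
      obtain ⟨f⟩ : Nonempty ((insert i0 (b : Set I) : Set I) ↪ J) :=
        ⟨(Function.Embedding.trans (Fintype.equivFin _).toEmbedding
          (Fin.valEmbedding.trans (Infinite.natEmbedding J)))⟩
      refine ⟨fun i => if h : i ∈ (insert i0 (b : Set I)) then f ⟨i, h⟩ else f ⟨i0, Or.inl rfl⟩,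
        ?_⟩
      intro i hi i' hi' h
      simp only [dif_pos hi, dif_pos hi'] at h
      exact congrArg Subtype.val (f.injective h)
    obtain ⟨τ, hτ⟩ : ∃ τ : J → I, ∀ i ∈ (insert i0 (b : Set I)), τ (σ i) = i := by
      have : Nonempty I := ⟨i0⟩
      exact ⟨Function.invFunOn σ (insert i0 (b : Set I)), fun i hi => hσ.leftInvOn_invFunOn hi⟩
    -- the closed subsets of `N`
    have key : ∀ c : Set I, i0 ∈ c → ∃ S : L.Substructure N, K.le S ∧
        (S : Set N) = {x | ∀ j e, ζ x = Sum.inr (j, e) → j ∈ σ '' c} := by
      intro c hc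
      refine hcl _ ⟨ζ.symm (Sum.inr (σ i0, e0)), ?_⟩ ?_
      · intro j e h
        rw [Equiv.apply_symm_apply] at h
        obtain ⟨rfl, -⟩ := Prod.ext_iff.1 (Sum.inr_injective h)
        exact ⟨i0, hc, rfl⟩
      · intro x hx y hyx j e hy
        obtain ⟨h1, h2⟩ := hρ y x hyx
        rcases hz : ζ x with s | ⟨j', e'⟩
        · obtain ⟨s', hs'⟩ := h1 s hz
          rw [hs'] at hy
          exact absurd hy (by simp)
        · rcases h2 j' e' hz with ⟨s', hs'⟩ | ⟨e'', he''⟩
          · rw [hs'] at hy
            exact absurd hy (by simp)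
          · rw [he''] at hy
            obtain ⟨rfl, -⟩ := Prod.ext_iff.1 (Sum.inr_injective hy)
            exact hx _ _ hz
    obtain ⟨T, hT, hTc⟩ := key (insert i0 (b : Set I)) (Or.inl rfl)
    obtain ⟨T', hT', hTc'⟩ := key (insert i0 (a : Set I)) (Or.inl rfl)
    have hle : T' ≤ T := by
      intro x hx
      have hx' : x ∈ (T' : Set N) := hx
      rw [hTc'] at hx'
      change x ∈ (T : Set N)
      rw [hTc]
      intro j e hj
      obtain ⟨i, hi, hij⟩ := hx' j e hj
      refine ⟨i, ?_, hij⟩
      rcases hi with h | h
      · exact Or.inl h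
      · exact Or.inr (hab h)
    -- facts on the renaming
    have hmv : ∀ x : R ⊕ (I × E), x ∈ PW.sub L R I E (insert i0 (b : Set I)) →
        mv τ (mv σ x) = x := by
      intro x hx
      rcases x with s | ⟨i, e⟩
      · rfl
      · simp only [mv, Sum.map_inr, Prod.map_apply, id_eq]
        rw [hτ i (hx i e rfl)]
    have hmv' : ∀ y : R ⊕ (J × E), (∀ j e, y = Sum.inr (j, e) →
        j ∈ σ '' (insert i0 (b : Set I))) → mv σ (mv τ y) = y := by
      intro y hy
      rcases y with s | ⟨j, e⟩
      · rfl
      · obtain ⟨i, hi, rfl⟩ := hy j e rfl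
        simp only [mv, Sum.map_inr, Prod.map_apply, id_eq]
        rw [hτ i hi]
    let e : PW.sub L R I E (insert i0 (b : Set I)) ≃[L] T :=
      { toFun := fun x => ⟨ζ.symm (mv σ x.1), by
          change _ ∈ (T : Set N)
          rw [hTc]
          intro j e h
          rw [Equiv.apply_symm_apply] at h
          obtain ⟨x, hx⟩ := x
          rcases x with s | ⟨i, e'⟩
          · exact absurd h (by simp [mv])
          · simp only [mv, Sum.map_inr, Prod.map_apply, id_eq, Sum.inr.injEq,
              Prod.mk.injEq] at h
            exact ⟨i, hx i e' rfl, h.1⟩⟩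
        invFun := fun y => ⟨mv τ (ζ y.1), by
          have hy : y.1 ∈ (T : Set N) := y.2
          rw [hTc] at hy
          intro i e h
          rcases hz : ζ y.1 with s | ⟨j, e'⟩
          · rw [hz] at h
            exact absurd h (by simp [mv])
          · obtain ⟨i', hi', hij⟩ := hy j e' hz
            rw [hz] at h
            simp only [mv, Sum.map_inr, Prod.map_apply, id_eq, Sum.inr.injEq,
              Prod.mk.injEq] at h
            rw [← h.1, ← hij, hτ i' hi']
            exact hi'⟩
        left_inv := by
          intro x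
          apply Subtype.ext
          simp only [Equiv.apply_symm_apply]
          exact hmv x.1 x.2
        right_inv := by
          intro y
          apply Subtype.ext
          have hy : y.1 ∈ (T : Set N) := y.2
          rw [hTc] at hy
          simp only
          rw [hmv' (ζ y.1) hy, Equiv.symm_apply_apply]
        map_fun' := fun {_} f => isEmptyElim f
        map_rel' := by
          intro n r v
          have h := hco n r (fun k => ζ.symm (mv σ (v k).1)) τ ?_
          · simp only [Equiv.apply_symm_apply] at h
            have h3 : (fun k => mv τ (mv σ (v k).1)) = fun k => (v k).1 :=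
              funext fun k => hmv _ (v k).2
            rw [h3] at h
            exact h.symm
          · intro k k' j j' e e' h1 h2 h12
            simp only [Equiv.apply_symm_apply] at h1 h2
            rcases hv : (v k).1 with s | ⟨i, a1⟩
            · rw [hv] at h1
              exact absurd h1 (by simp [mv])
            rcases hv' : (v k').1 with s | ⟨i', a1'⟩
            · rw [hv'] at h2
              exact absurd h2 (by simp [mv])
            rw [hv] at h1
            rw [hv'] at h2
            simp only [mv, Sum.map_inr, Prod.map_apply, id_eq, Sum.inr.injEq,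
              Prod.mk.injEq] at h1 h2
            have hi := (v k).2 i a1 hv
            have hi' := (v k').2 i' a1' hv'
            rw [← h1.1, ← h2.1, hτ i hi, hτ i' hi'] at h12
            rw [← h1.1, ← h2.1, h12] }
    refine AEC.le_comap_of_equiv (T' := T') e ?_ (K.coherence T' T hle hT' hT)
    intro x
    have hxb := x.2
    have h5 : ((e x : N) ∈ T') ↔ ζ.symm (mv σ x.1) ∈ (T' : Set N) := Iff.rfl
    rw [h5, hTc']
    simp only [Set.mem_ofPred_eq, Equiv.apply_symm_apply]
    constructor
    · intro hx j e h
      rcases hv : x.1 with s | ⟨i, a1⟩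
      · rw [hv] at h
        exact absurd h (by simp [mv])
      · rw [hv] at h
        simp only [mv, Sum.map_inr, Prod.map_apply, id_eq, Sum.inr.injEq,
              Prod.mk.injEq] at h
        exact ⟨i, hx i a1 hv, h.1⟩
    · intro hx i a1 hv
      obtain ⟨i', hi', h⟩ := hx (σ i) a1 (by rw [hv]; rfl)
      have h6 : i' ∈ insert i0 (b : Set I) := by
        rcases hi' with h | h
        · exact Or.inl h
        · exact Or.inr (hab h)
      have h7 := hσ h6 (hxb i a1 hv) h
      rw [← h7]
      exact hi'
  · intro x
    rcases x with s | ⟨i, e⟩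
    · exact ⟨∅, fun i e h => absurd h (by simp)⟩
    · refine ⟨{i}, fun i' e' h => ?_⟩
      obtain ⟨rfl, -⟩ := Prod.ext_iff.1 (Sum.inr_injective h)
      right
      simp

end Vale.Agent.P307.Triv
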