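import Vale.Agent.P307.Triv.PG
import Vale.Agent.P307.Triv.PFinal
import Vale.Agent.P307.Triv.PS
import Vale.Agent.P307.Triv.G1
import Vale.Agent.P307.Triv.G2
import Vale.Agent.P307.Triv.G3c
import Vale.Agent.P307.Triv.PW
import Vale.Agent.P307.Triv.PB

/-!
Categoricity transfer from one member of cardinality at least `κ` whose closures are disintegrated
over its strong substructures of cardinality `l`.
-/

universe u

open FirstOrder Cardinal Set

namespace Vale.Agent.P307.Triv

theorem transferPAll : ∀ l : Cardinal.{u}, ℵ₀ ≤ l → ∃ μ : Cardinal.{u}, l ≤ μ ∧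
    ∀ (L : Language.{u, u}) (K : AEC L), K.LS ≤ l →
      ∀ κ, μ ≤ κ → K.CategoricalIn κ →
        (∃ (M : Type u) (_ : L.Structure M), K.mem M ∧ κ ≤ #M ∧
          ∀ P : L.Substructure M, K.le P → #P = l → DisOver K P) →
        ∀ κ', μ ≤ κ' → K.CategoricalIn κ' :=
  transferPG_of (transferP_of_rel (transferP_rel specSP specG1 specG2 specG3 specW specB))

end Vale.Agent.P307.Triv
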