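import Vale.Agent.P307.Triv.Spec
import Vale.Agent.P307.Bdl.B1

/-!
Classes with disintegrated closures over strong substructures: definitions and interfaces.
-/

universe u

open FirstOrder Cardinal Set

namespace Vale.Agent.P307.Triv

section defs

variable {L : Language.{u, u}}

/-- `x` belongs to all strong substructures of `N` which contain `P` and `a`. -/
def clP (K : AEC L) {N : Type u} [L.Structure N] (P : L.Substructure N) (x a : N) : Prop :=
  ∀ S : L.Substructure N, K.le S → P ≤ S → a ∈ S → x ∈ S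

/-- `N` has disintegrated closures over `P`: for each element `a` of `N` there is a least strong
substructure which contains `P` and `a`, and the union of any two strong substructures which
contain `P` is a strong substructure. -/
def DisOver (K : AEC L) {N : Type u} [L.Structure N] (P : L.Substructure N) : Prop :=
  (∀ a : N, ∃ S : L.Substructure N, K.le S ∧ P ≤ S ∧ a ∈ S ∧
    ∀ T : L.Substructure N, K.le T → P ≤ T → a ∈ T → S ≤ T) ∧
  ∀ S T : L.Substructure N, K.le S → K.le T → P ≤ S → P ≤ T →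
    ∃ U : L.Substructure N, K.le U ∧ (U : Set N) = (S : Set N) ∪ T

/-- `N` has disintegrated closures over all its strong substructures. -/
def DisAll (K : AEC L) (N : Type u) [L.Structure N] : Prop :=
  ∀ P : L.Substructure N, K.le P → DisOver K P

/-- `h` embeds the closed set `B`, and it respects the closure relations up to the set `Q`. -/
structure QEmb (L : Language.{u, u}) {N M : Type u} [L.Structure N] [L.Structure M]
    (ρN : N → N → Prop) (ρ : M → M → Prop) (B : Set N) (h : N → M) (Q : Set M) : Prop where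
  inj : Set.InjOn h B
  rel : ∀ (n : ℕ) (r : L.Relations n) (v : Fin n → N), (∀ i, v i ∈ B) →
    (Language.Structure.RelMap r (fun i => h (v i)) ↔ Language.Structure.RelMap r v)
  down : ∀ a ∈ B, ∀ x ∈ B, ρN x a → h x ∈ Q ∨ ρ (h x) (h a)
  lift : ∀ a ∈ B, ∀ y, ρ y (h a) → y ∈ Q ∨ ∃ x ∈ B, ρN x a ∧ h x = y
  up : ∀ a ∈ B, ∀ y, ρ (h a) y → h a ∈ Q ∨ y ∈ Q ∨ ∃ x ∈ B, h x = y

/-- The points of `N` on the base and on the pieces with index in `J₁`. -/
def dom {N J : Type u} (c : N → Option J) (J₁ : Set J) : Set N :=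
  {x | c x = none ∨ ∃ j ∈ J₁, c x = some j}

/-- `h` embeds the base and the pieces with index in `J₁`, and it maps the pieces with index
outside `Z` onto whole pieces of the symmetric structure. -/
structure PreLoc (L : Language.{u, u}) (R I E : Type u) [L.Structure (R ⊕ (I × E))] {N J : Type u}
    [L.Structure N] (c : N → Option J) (J₁ Z : Set J) (h : N → R ⊕ (I × E)) : Prop where
  inj : Set.InjOn h (dom c J₁)
  rel : ∀ (n : ℕ) (r : L.Relations n) (v : Fin n → N), (∀ k, v k ∈ dom c J₁) →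
    (Language.Structure.RelMap r (fun k => h (v k)) ↔ Language.Structure.RelMap r v)
  piece : ∀ j ∈ J₁, j ∉ Z → ∃ i : I, (∀ x, c x = some j → ∃ e, h x = Sum.inr (i, e)) ∧
    ∀ e, ∃ x, c x = some j ∧ h x = Sum.inr (i, e)

/-- The structure on `R ⊕ (I × E)` is invariant under injective renamings of the indices. -/
def IxSym (L : Language.{u, u}) (R I E : Type u) [L.Structure (R ⊕ (I × E))] : Prop :=
  ∀ (n : ℕ) (r : L.Relations n) (v : Fin n → R ⊕ (I × E)) (σ : I → I), InjT σ v →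
    (Language.Structure.RelMap r (fun k => mv σ (v k)) ↔ Language.Structure.RelMap r v)

end defs

/-! ### The parts -/

/-- Part alpha: symmetry over a small strong substructure. -/
def SpecSP : Prop := ∀ l : Cardinal.{u}, ℵ₀ ≤ l → ∃ μ : Cardinal.{u}, l < μ ∧
  ∀ (L : Language.{u, u}) [L.IsRelational] (K : AEC L), K.IsLS l → ∀ κ, μ ≤ κ →
    K.CategoricalIn κ → (∀ (N : Type u) [L.Structure N], K.mem N → #N = κ → DisAll K N) →
    ∃ (R I E : Type u) (_ : L.Structure (R ⊕ (I × E))) (P : L.Substructure (R ⊕ (I × E))),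
      K.mem (R ⊕ (I × E)) ∧ #R ≤ l ∧ #E ≤ l ∧ Nonempty E ∧ #I = κ ∧ K.le P ∧ #P ≤ l ∧
      SymM L R I E (fun x a => clP K P x a)

/-- Part gamma 1: components and local maps, up to `l` pieces. -/
def SpecG1 : Prop := ∀ (L : Language.{u, u}) (R I E N : Type u) [L.Structure (R ⊕ (I × E))]
  [L.Structure N] (l : Cardinal.{u}) (ρ : R ⊕ (I × E) → R ⊕ (I × E) → Prop) (ρN : N → N → Prop),
  ℵ₀ ≤ l → SymM L R I E ρ → #R ≤ l → #E ≤ l → Nonempty E →
  (∀ x, ρN x x) → (∀ x y z, ρN x y → ρN y z → ρN x z) → (∀ a, #{x | ρN x a} ≤ l) →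
  Order.succ (2 ^ l) < #N →
  (∀ B : Set N, Closed ρN B → #B ≤ Order.succ (2 ^ l) →
    ∃ (h : N → R ⊕ (I × E)) (Q : Set (R ⊕ (I × E))), #Q ≤ l ∧ QEmb L ρN ρ B h Q) →
  ∃ (J : Type u) (c : N → Option J), Order.succ (2 ^ l) ≤ #J ∧ #{x | c x = none} ≤ l ∧
    (∀ j, #{x | c x = some j} ≤ 2 ^ l) ∧ (∀ j, ∃ x, c x = some j) ∧
    (∀ x a, ρN x a → c x = none ∨ c x = c a) ∧
    ∀ J₁ : Set J, #J₁ ≤ Order.succ (2 ^ l) → ∃ (Z : Set J) (h : N → R ⊕ (I × E)),
      Z ⊆ J₁ ∧ #Z ≤ l ∧ PreLoc L R I E c J₁ Z h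

/-- Part gamma 2: the exceptional set can be chosen uniformly. -/
def SpecG2 : Prop := ∀ (L : Language.{u, u}) (R I E N J : Type u) [L.Structure (R ⊕ (I × E))]
  [L.Structure N] (l : Cardinal.{u}) (c : N → Option J), ℵ₀ ≤ l →
  (∀ J₁ : Set J, #J₁ ≤ Order.succ (2 ^ l) → ∃ (Z : Set J) (h : N → R ⊕ (I × E)),
      Z ⊆ J₁ ∧ #Z ≤ l ∧ PreLoc L R I E c J₁ Z h) →
  ∃ Z : Set J, #Z ≤ l ∧ ∀ J₁ : Set J, #J₁ ≤ Order.succ (2 ^ l) →
    ∃ h : N → R ⊕ (I × E), PreLoc L R I E c (Z ∪ J₁) Z h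

/-- Part gamma 3: coordinates over a larger base. -/
def SpecG3 : Prop := ∀ (L : Language.{u, u}) [L.IsRelational] (R I E N J : Type u)
  [L.Structure (R ⊕ (I × E))] [L.Structure N] (l : Cardinal.{u}) (c : N → Option J) (Z : Set J),
  ℵ₀ ≤ l → IxSym L R I E → #R ≤ l → #E ≤ l → Nonempty E → Order.succ (2 ^ l) < #I →
  Order.succ (2 ^ l) ≤ #J → #{x | c x = none} ≤ l → (∀ j, #{x | c x = some j} ≤ 2 ^ l) →
  #Z ≤ l → (∀ J₁ : Set J, #J₁ ≤ Order.succ (2 ^ l) →
    ∃ h : N → R ⊕ (I × E), PreLoc L R I E c (Z ∪ J₁) Z h) →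
  ∃ (R' J' : Type u) (_ : L.Structure (R' ⊕ (I × E))) (ζ : N ≃ R' ⊕ (J' × E)),
    #R' ≤ 2 ^ l ∧ IxSym L R' I E ∧ Coord L R' I E N J' ζ ∧
    (∀ x a, (c x = none ∨ c x = c a) → (∀ s, ζ a = Sum.inl s → ∃ s', ζ x = Sum.inl s') ∧
      ∀ j e, ζ a = Sum.inr (j, e) → (∃ s', ζ x = Sum.inl s') ∨ ∃ e', ζ x = Sum.inr (j, e'))

/-- Part delta: symmetric structures built from a member with coordinates belong to the class. -/
def SpecW : Prop := ∀ (L : Language.{u, u}) [L.IsRelational] (K : AEC L) (N R I J E : Type u)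
  [L.Structure N] [L.Structure (R ⊕ (I × E))] (ρN : N → N → Prop) (ζ : N ≃ R ⊕ (J × E)),
  K.mem N → Infinite I → Infinite J → Nonempty E → IxSym L R I E → Coord L R I E N J ζ →
  (∀ X : Set N, X.Nonempty → Closed ρN X → ∃ S : L.Substructure N, K.le S ∧ (S : Set N) = X) →
  (∀ x a, ρN x a → (∀ s, ζ a = Sum.inl s → ∃ s', ζ x = Sum.inl s') ∧
      ∀ j e, ζ a = Sum.inr (j, e) → (∃ s', ζ x = Sum.inl s') ∨ ∃ e', ζ x = Sum.inr (j, e')) →
  K.mem (R ⊕ (I × E))

/-- Part epsilon: comparison of two symmetric presentations of one structure. -/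
def SpecB : Prop := ∀ (L : Language.{u, u}) [L.IsRelational] (R I E R' I' E' N N' J J' : Type u)
  [L.Structure (R ⊕ (I × E))] [L.Structure (R' ⊕ (I' × E'))] [L.Structure N] [L.Structure N']
  (χ : Cardinal.{u}), ℵ₀ ≤ χ → IxSym L R I E → IxSym L R' I' E' → #R ≤ χ → #E ≤ χ → #R' ≤ χ →
  #E' ≤ χ → Nonempty E → Nonempty E' → 2 ^ χ < #I → 2 ^ χ < #I' →
  ∀ (_ : R ⊕ (I × E) ≃[L] R' ⊕ (I' × E')) (ζ : N ≃ R ⊕ (J × E)) (ζ' : N' ≃ R' ⊕ (J' × E')),
    Coord L R I E N J ζ → Coord L R' I' E' N' J' ζ' → χ < #J → #J = #J' → Nonempty (N ≃[L] N')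

end Vale.Agent.P307.Triv
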