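import Vale.Agent.P307.Triv.PL

/-!
The condition on closures is only needed over strong substructures of cardinality `l`.
-/

universe u

open FirstOrder Cardinal Set

namespace Vale.Agent.P307.Triv

open Language.Structure Language.Substructure

variable {L : Language.{u, u}}

theorem mk_sub_le {N : Type u} [L.Structure N] {S T : L.Substructure N} (h : S ≤ T) : #S ≤ #T :=
  mk_le_mk_of_subset h

/-- The class of the members of `K` of cardinality at least `l`. -/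
def geAEC (K : AEC L) (l : Cardinal.{u}) (hK : K.IsLS l) : AEC L where
  mem := fun N _ => K.mem N ∧ l ≤ #N
  le := fun S => K.le S ∧ l ≤ #S
  mem_iso := fun e h => ⟨K.mem_iso e h.1, h.2.trans (Cardinal.mk_congr e.toEquiv).le⟩
  le_iso := fun e S h => ⟨K.le_iso e S h.1, h.2.trans
    (mk_le_of_injective (f := fun x : S => (⟨e x.1, ⟨x.1, x.2, rfl⟩⟩ : S.map e.toHom))
      fun x y hxy => Subtype.ext (e.injective (congrArg Subtype.val hxy)))⟩
  mem_of_le := fun S h => ⟨⟨(K.mem_of_le S h.1).1, h.2⟩, (K.mem_of_le S h.1).2,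
    h.2.trans (mk_le_of_injective (f := fun x : S => x.1) Subtype.val_injective)⟩
  le_refl := fun {N} _ h => ⟨K.le_refl h.1, h.2.trans
    (mk_le_of_injective (f := fun x : N => (⟨x, mem_top x⟩ : (⊤ : L.Substructure N)))
      fun x y hxy => congrArg Subtype.val hxy)⟩
  le_trans := fun T S hS hT => ⟨K.le_trans T S hS.1 hT.1, hS.2.trans
    (mk_le_of_injective (f := fun x : S => (⟨x.1.1, ⟨x.1, x.2, rfl⟩⟩ : S.map T.subtype.toHom))
      fun x y hxy => Subtype.ext (Subtype.ext (by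
        have h := congrArg Subtype.val hxy
        exact h)))⟩
  coherence := fun S T hST hS hT => ⟨K.coherence S T hST hS.1 hT.1, hS.2.trans
    (mk_le_of_injective
      (f := fun x : S => (⟨⟨x.1, hST x.2⟩, x.2⟩ : S.comap T.subtype.toHom))
      fun x y hxy => Subtype.ext (by
        have h := congrArg (fun z : S.comap T.subtype.toHom => z.1.1) hxy
        exact h))⟩
  chain_union := fun {U} _ {ι} _ _ _ S h1 h2 h3 => by
    obtain ⟨g1, g2⟩ := K.chain_union S h1 (fun i j hij => (h2 i j hij).1) h3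
    have hc : ∀ i, l ≤ #(S i) := fun i => (h2 i i le_rfl).2.trans
      (mk_le_of_injective (f := fun x : (S i).comap (S i).subtype.toHom => x.1)
        Subtype.val_injective)
    refine ⟨⟨g1, (hc (Classical.arbitrary ι)).trans
      (mk_le_of_injective (f := fun x : S (Classical.arbitrary ι) => x.1)
        Subtype.val_injective)⟩, fun i => ⟨g2 i, hc i⟩⟩
  chain_smooth := fun {N} _ {ι} _ _ _ S h1 h2 =>
    ⟨K.chain_smooth S h1 fun i => (h2 i).1, (h2 (Classical.arbitrary ι)).2.trans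
      (mk_sub_le (le_iSup S (Classical.arbitrary ι)))⟩
  exists_ls := by
    refine ⟨l, hK.1, hK.2.1, fun {N} _ hN A => ?_⟩
    obtain ⟨A₀, hA₀⟩ := le_mk_iff_exists_set.1 hN.2
    obtain ⟨S, h1, h2, h3⟩ := hK.2.2 N hN.1 (A ∪ A₀)
    refine ⟨S, ⟨h1, ?_⟩, fun x hx => h2 (Or.inl hx), h3.trans ?_⟩
    · rw [← hA₀]
      exact mk_le_mk_of_subset fun x hx => h2 (Or.inr hx)
    · refine (add_le_add_left (mk_union_le A A₀) l).trans ?_
      rw [hA₀, add_assoc, add_eq_self hK.1]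

variable {K : AEC L} {l : Cardinal.{u}}

theorem geAEC_isLS (hK : K.IsLS l) : (geAEC K l hK).IsLS l := by
  refine ⟨hK.1, hK.2.1, fun N _ hN A => ?_⟩
  obtain ⟨A₀, hA₀⟩ := le_mk_iff_exists_set.1 hN.2
  obtain ⟨S, h1, h2, h3⟩ := hK.2.2 N hN.1 (A ∪ A₀)
  refine ⟨S, ⟨h1, ?_⟩, fun x hx => h2 (Or.inl hx), h3.trans ?_⟩
  · rw [← hA₀]
    exact mk_le_mk_of_subset fun x hx => h2 (Or.inr hx)
  · refine (add_le_add_left (mk_union_le A A₀) l).trans ?_
    rw [hA₀, add_assoc, add_eq_self hK.1]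

theorem geAEC_categorical_iff (hK : K.IsLS l) {κ : Cardinal.{u}} (hκ : l ≤ κ) :
    (geAEC K l hK).CategoricalIn κ ↔ K.CategoricalIn κ := by
  constructor
  · rintro ⟨⟨M, _, hM, hc⟩, h⟩
    refine ⟨⟨M, inferInstance, hM.1, hc⟩, fun M N _ _ hM hN hMc hNc => ?_⟩
    exact h M N ⟨hM, hκ.trans hMc.ge⟩ ⟨hN, hκ.trans hNc.ge⟩ hMc hNc
  · rintro ⟨⟨M, _, hM, hc⟩, h⟩
    refine ⟨⟨M, inferInstance, ⟨hM, hκ.trans hc.ge⟩, hc⟩, fun M N _ _ hM hN hMc hNc => ?_⟩
    exact h M N hM.1 hN.1 hMc hNc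

/-- The condition over the strong substructures of cardinality `l` gives the condition over all
strong substructures in the class of the members of cardinality at least `l`. -/
theorem geAEC_disAll (hK : K.IsLS l) {M : Type u} [L.Structure M]
    (h : ∀ P : L.Substructure M, K.le P → #P = l → DisOver K P) : DisAll (geAEC K l hK) M := by
  intro P hP
  have hPm := K.mem_of_le P hP.1
  obtain ⟨A₀, hA₀⟩ := le_mk_iff_exists_set.1 hP.2
  obtain ⟨P₀, h1, h2, h3⟩ := hK.2.2 P hPm.1 A₀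
  have hP₀ : K.le (P₀.map P.subtype.toHom) := K.le_trans P P₀ h1 hP.1
  have hP₀P : P₀.map P.subtype.toHom ≤ P := by
    rintro x ⟨y, -, rfl⟩
    exact y.2
  have hP₀l : #(P₀.map P.subtype.toHom) = l := by
    apply le_antisymm
    · refine le_trans ?_ (h3.trans (add_le_of_le hK.1 hA₀.le le_rfl))
      exact mk_le_of_surjective (f := fun y : P₀ =>
        (⟨P.subtype.toHom y.1, ⟨y.1, y.2, rfl⟩⟩ : P₀.map P.subtype.toHom)) (by
          rintro ⟨x, y, hy, rfl⟩
          exact ⟨⟨y, hy⟩, rfl⟩)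
    · rw [← hA₀]
      refine mk_le_of_injective (f := fun y : A₀ =>
        (⟨y.1.1, ⟨y.1, h2 y.2, rfl⟩⟩ : P₀.map P.subtype.toHom)) ?_
      intro y y' hyy
      have h5 := congrArg Subtype.val hyy
      exact Subtype.ext (Subtype.ext h5)
  obtain ⟨g1, g2⟩ := (h _ hP₀ hP₀l).mono hP.1 hP₀P
  constructor
  · intro a
    obtain ⟨S, k1, k2, k3, k4⟩ := g1 a
    exact ⟨S, ⟨k1, hP.2.trans (mk_sub_le k2)⟩, k2, k3, fun T hT hPT haT => k4 T hT.1 hPT haT⟩
  · intro S T hS hT hPS hPT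
    obtain ⟨U, hU, hUe⟩ := g2 S T hS.1 hT.1 hPS hPT
    refine ⟨U, ⟨hU, hS.2.trans (mk_sub_le ?_)⟩, hUe⟩
    intro x hx
    change x ∈ (U : Set M)
    rw [hUe]
    exact Or.inl hx

/-- The final form: only strong substructures of cardinality `l` matter. -/
theorem transferPG_of (h : ∀ l : Cardinal.{u}, ℵ₀ ≤ l → ∃ μ : Cardinal.{u}, l ≤ μ ∧
      ∀ (L : Language.{u, u}) (K : AEC L), K.LS ≤ l →
        ∀ κ, μ ≤ κ → K.CategoricalIn κ →
          (∃ (M : Type u) (_ : L.Structure M), K.mem M ∧ κ ≤ #M ∧ DisAll K M) →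
          ∀ κ', μ ≤ κ' → K.CategoricalIn κ') :
    ∀ l : Cardinal.{u}, ℵ₀ ≤ l → ∃ μ : Cardinal.{u}, l ≤ μ ∧
      ∀ (L : Language.{u, u}) (K : AEC L), K.LS ≤ l →
        ∀ κ, μ ≤ κ → K.CategoricalIn κ →
          (∃ (M : Type u) (_ : L.Structure M), K.mem M ∧ κ ≤ #M ∧
            ∀ P : L.Substructure M, K.le P → #P = l → DisOver K P) →
          ∀ κ', μ ≤ κ' → K.CategoricalIn κ' := by
  intro l hl
  obtain ⟨μ, hμ, h⟩ := h l hl
  refine ⟨μ, hμ, fun L K hK κ hκ hcat hex κ' hκ' => ?_⟩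
  obtain ⟨M, _, hM, hMc, hD⟩ := hex
  have hLS : K.IsLS l := AEC.isLS_of_LS_le hK
  have hLS' : (geAEC K l hLS).LS ≤ l := csInf_le' (geAEC_isLS hLS)
  exact (geAEC_categorical_iff hLS (hμ.trans hκ')).1 (h L (geAEC K l hLS) hLS' κ hκ
    ((geAEC_categorical_iff hLS (hμ.trans hκ)).2 hcat)
    ⟨M, inferInstance, ⟨hM, (hμ.trans hκ).trans hMc⟩, hMc, geAEC_disAll hLS hD⟩ κ' hκ')

end Vale.Agent.P307.Triv
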