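import Vale.Agent.P307.Triv.PSA

/-!
Quasi-embeddings of small closed sets into the symmetric model.
-/

universe u

open FirstOrder Cardinal Set

namespace Vale.Agent.P307.Triv

open Language.Structure Language.Substructure

namespace PQ

variable {L : Language.{u, u}} {K : AEC L} {N M : Type u} [L.Structure N] [L.Structure M]

theorem clP_mono {P P' : L.Substructure M} (hPP' : P ≤ P') {x a : M} (h : clP K P x a) :
    clP K P' x a := fun S hS hPS ha => h S hS (hPP'.trans hPS) ha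

/-- Closures over a larger base. -/
theorem clP_large {P P' : L.Substructure M} (hP' : K.le P') (hD : DisOver K P) (hPP' : P ≤ P')
    {x a : M} (h : clP K P' x a) : x ∈ P' ∨ clP K P x a := by
  obtain ⟨S, hS, hPS, haS, hmin⟩ := hD.1 a
  obtain ⟨U, hU, hUe⟩ := hD.2 S P' hS hP' hPS hPP'
  have h1 : x ∈ (U : Set M) := by
    refine h U hU ?_ ?_
    · intro y hy
      change y ∈ (U : Set M)
      rw [hUe]
      exact Or.inr hy
    · change a ∈ (U : Set M)
      rw [hUe]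
      exact Or.inl haS
  rw [hUe] at h1
  rcases h1 with h1 | h1
  · exact Or.inr fun T hT hPT haT => hmin T hT hPT haT h1
  · exact Or.inl h1

/-- The image of a substructure under an isomorphism between substructures. -/
theorem exists_image {S : L.Substructure N} {S' : L.Substructure M} (e : S ≃[L] S')
    (hS : K.le S) (hS' : K.le S') {P : L.Substructure N} (hP : K.le P) (hPS : P ≤ S) :
    ∃ P' : L.Substructure M, K.le P' ∧ P' ≤ S' ∧ #P' ≤ #P ∧
      ∀ a : S, (a : N) ∈ P ↔ (e a : M) ∈ P' := by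
  have h1 := K.coherence P S hPS hP hS
  have h2 := K.le_trans S' _ (K.le_iso e _ h1) hS'
  refine ⟨_, h2, ?_, ?_, ?_⟩
  · rintro x ⟨y, -, rfl⟩
    exact y.2
  · refine mk_le_of_surjective (f := fun p : P =>
      (⟨(e ⟨p.1, hPS p.2⟩ : M), ⟨e ⟨p.1, hPS p.2⟩, ⟨⟨p.1, hPS p.2⟩, p.2, rfl⟩, rfl⟩⟩ :
        ((P.comap S.subtype.toHom).map e.toHom).map S'.subtype.toHom)) ?_
    rintro ⟨x, y, ⟨z, hz, rfl⟩, rfl⟩
    exact ⟨⟨z.1, hz⟩, rfl⟩
  · intro a
    constructor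
    · intro ha
      exact ⟨e a, ⟨a, ha, rfl⟩, rfl⟩
    · rintro ⟨y, ⟨z, hz, hzy⟩, hyx⟩
      have h3 : y = e a := Subtype.ext hyx
      have h4 : z = a := e.injective (hzy.trans h3)
      rw [← h4]
      exact hz

/-- An extension of an isomorphism between substructures to a function. -/
theorem exists_fun [Nonempty M] {S : L.Substructure N} {S' : L.Substructure M} (e : S ≃[L] S') :
    ∃ f : N → M, ∀ a : S, f a = e a := by
  classical
  refine ⟨fun a => if ha : a ∈ S then (e ⟨a, ha⟩ : M) else Classical.arbitrary M, fun a => ?_⟩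
  simp only [dif_pos a.2]

theorem hull {l : Cardinal.{u}} (hK : K.IsLS l) (hM : K.mem M) {P P' : L.Substructure M}
    (hP : #P ≤ l) (hP' : #P' ≤ l) :
    ∃ S : L.Substructure M, K.le S ∧ #S ≤ l ∧ P ≤ S ∧ P' ≤ S := by
  obtain ⟨S, h1, h2, h3⟩ := hK.2.2 M hM ((P : Set M) ∪ P')
  refine ⟨S, h1, h3.trans (add_le_of_le hK.1 ((mk_union_le _ _).trans
    (add_le_of_le hK.1 hP hP')) le_rfl), fun x hx => h2 (Or.inl hx), fun x hx => h2 (Or.inr hx)⟩

section main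

variable {R I E : Type u} [L.Structure (R ⊕ (I × E))]

theorem base_sub {P : L.Substructure (R ⊕ (I × E))} [Nontrivial I] [Nonempty E]
    (hsym : SymM L R I E (fun x a => clP K P x a)) {p : R ⊕ (I × E)} (hp : p ∈ P) :
    ∃ s, p = Sum.inl s := by
  rcases p with s | ⟨i, e⟩
  · exact ⟨s, rfl⟩
  · obtain ⟨j, hj⟩ := exists_ne i
    exact absurd (hsym.piece i e j (Classical.arbitrary E) (clP_base hp _)).symm hj

/-- The part of the symmetric model on the indices in `X` is strong. -/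
theorem exists_part [L.IsRelational] {P : L.Substructure (R ⊕ (I × E))} [Nontrivial I] [Nonempty E]
    (hsym : SymM L R I E (fun x a => clP K P x a)) (hP : K.le P) (hD : DisOver K P) (X : Set I) :
    ∃ S : L.Substructure (R ⊕ (I × E)), K.le S ∧ P ≤ S ∧
      (S : Set (R ⊕ (I × E))) = Set.range Sum.inl ∪ {x | ∃ i ∈ X, ∃ e, x = Sum.inr (i, e)} := by
  have h1 : (P : Set (R ⊕ (I × E))) ⊆
      Set.range Sum.inl ∪ {x | ∃ i ∈ X, ∃ e, x = Sum.inr (i, e)} := by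
    intro p hp
    obtain ⟨s, hs⟩ := base_sub hsym hp
    exact Or.inl ⟨s, hs.symm⟩
  obtain ⟨S, hS, hSe⟩ := exists_closedP hP hD h1 (by
    rintro a (⟨s, rfl⟩ | ⟨i, hi, e, rfl⟩) x hx
    · obtain ⟨s', hs'⟩ := hsym.base x s hx
      exact Or.inl ⟨s', hs'.symm⟩
    · rcases x with s | ⟨j, e'⟩
      · exact Or.inl ⟨s, rfl⟩
      · have h2 := hsym.piece j e' i e hx
        subst h2
        exact Or.inr ⟨j, hi, e', rfl⟩)
  refine ⟨S, hS, ?_, hSe⟩
  intro p hp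
  change p ∈ (S : Set (R ⊕ (I × E)))
  rw [hSe]
  exact h1 hp

/-- Small closed sets which contain the base have quasi-embeddings into the symmetric model. -/
theorem exists_qemb_aux [L.IsRelational] [Infinite I] [Nonempty E] {l lam κ : Cardinal.{u}}
    (hK : K.IsLS l) (hlam : l ≤ lam) (hκ : lam < κ) (hcat : K.CategoricalIn κ)
    (hM : K.mem (R ⊕ (I × E))) (hD : DisAll K (R ⊕ (I × E))) (hR : #R ≤ l) (hI : #I = κ)
    (hMκ : #(R ⊕ (I × E)) = κ) {P : L.Substructure (R ⊕ (I × E))} (hP : K.le P) (hPl : #P ≤ l)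
    (hsym : SymM L R I E (fun x a => clP K P x a)) (hN : K.mem N) (hN1 : hanf (2 ^ lam) ≤ #N)
    (hN2 : lam < #N) (hDN : DisAll K N) {PN : L.Substructure N} (hPN : K.le PN) (hPNl : #PN ≤ l)
    {B : Set N} (hPB : (PN : Set N) ⊆ B) (hB : Closed (fun x a => clP K PN x a) B)
    (hBl : #B ≤ lam) :
    ∃ (h : N → R ⊕ (I × E)) (Q : Set (R ⊕ (I × E))), #Q ≤ l ∧
      QEmb L (fun x a => clP K PN x a) (fun x a => clP K P x a) B h Q := by
  have hl := hK.1
  have hlam0 : ℵ₀ ≤ lam := hl.trans hlam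
  have hκ0 : ℵ₀ ≤ κ := hlam0.trans hκ.le
  have hMne : Nonempty (R ⊕ (I × E)) := ⟨Sum.inr (Classical.arbitrary I, Classical.arbitrary E)⟩
  have hInt : Nontrivial I := inferInstance
  -- the embedding of `B`
  obtain ⟨N₁, _, hN₁, hN₁κ, S, h₁, hS, hBS, hemb⟩ := exists_em (hK.mono hlam) hN hN1 hN2 B hBl κ
    hκ.le
  obtain ⟨g₁⟩ := hcat.2 N₁ (R ⊕ (I × E)) hN₁ hM hN₁κ hMκ
  have hemb' : K.Emb (g₁.toEmbedding.comp h₁) := (AEC.Emb.of_equiv g₁ hN₁).comp hemb
  have hPNS : PN ≤ S := fun x hx => hBS (hPB hx)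
  obtain ⟨fP, hfP, hfPS, hfPc, hfPe⟩ := exists_image (g₁.toEmbedding.comp h₁).equivRange hS hemb'
    hPN hPNS
  obtain ⟨f, hf⟩ := exists_fun (g₁.toEmbedding.comp h₁).equivRange
  have F := cEmbP_of_equiv (hDN PN hPN) (hD fP hfP) (g₁.toEmbedding.comp h₁).equivRange hS hemb'
    hPNS hfPS hfPe f hf
  -- the image of `B`
  obtain ⟨SB, hSB, hSBe⟩ := exists_closedP hPN (hDN PN hPN) hPB hB
  have hSBS : SB ≤ S := by
    intro x hx
    have hx' : x ∈ (SB : Set N) := hx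
    rw [hSBe] at hx'
    exact hBS hx'
  obtain ⟨FB, hFB, hFBS, hFBc, hFBe⟩ := exists_image (g₁.toEmbedding.comp h₁).equivRange hS hemb'
    hSB hSBS
  have hmemB : ∀ x, x ∈ SB ↔ x ∈ B := fun x => by
    have h2 : x ∈ (SB : Set N) ↔ x ∈ B := by rw [hSBe]
    exact h2
  have hFB1 : ∀ x ∈ B, f x ∈ FB := by
    intro x hx
    have h2 := (hFBe ⟨x, hBS hx⟩).1 ((hmemB x).2 hx)
    rw [← hf ⟨x, hBS hx⟩] at h2
    exact h2
  have hFB2 : ∀ y ∈ FB, ∃ x ∈ B, f x = y := by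
    intro y hy
    let z := (g₁.toEmbedding.comp h₁).equivRange.symm ⟨y, hFBS hy⟩
    have h2 : (g₁.toEmbedding.comp h₁).equivRange z = ⟨y, hFBS hy⟩ :=
      (g₁.toEmbedding.comp h₁).equivRange.apply_symm_apply _
    refine ⟨z.1, (hmemB _).1 ((hFBe z).2 ?_), ?_⟩
    · rw [h2]
      exact hy
    · rw [hf z, h2]
  have hfPFB : fP ≤ FB := by
    intro y hy
    let z := (g₁.toEmbedding.comp h₁).equivRange.symm ⟨y, hfPS hy⟩
    have h2 : (g₁.toEmbedding.comp h₁).equivRange z = ⟨y, hfPS hy⟩ :=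
      (g₁.toEmbedding.comp h₁).equivRange.apply_symm_apply _
    have h3 : z.1 ∈ PN := by
      refine (hfPe z).2 ?_
      rw [h2]
      exact hy
    have h4 := (hFBe z).1 ((hmemB _).2 (hPB h3))
    rw [h2] at h4
    exact h4
  have hFBl : #FB ≤ lam := by
    refine hFBc.trans ?_
    have h2 : #SB = #B := by rw [← hSBe]; rfl
    rw [h2]
    exact hBl
  -- the strong set `Y`
  obtain ⟨P₂, hP₂, hP₂l, hPP₂, hfPP₂⟩ := hull hK hM hPl (hfPc.trans hPNl)
  let X : Set I := {i | ∀ e, (Sum.inr (i, e) : R ⊕ (I × E)) ∉ FB ∧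
    (Sum.inr (i, e) : R ⊕ (I × E)) ∉ P₂}
  have hXc : #(Xᶜ : Set I) < #I := by
    have h2 : ∀ i : (Xᶜ : Set I), ∃ e, (Sum.inr (i.1, e) : R ⊕ (I × E)) ∈ ((FB : Set _) ∪ P₂) := by
      intro i
      have h3 := i.2
      simp only [X, Set.mem_compl_iff, Set.mem_setOf_eq, not_forall] at h3
      obtain ⟨e, he⟩ := h3
      refine ⟨e, ?_⟩
      by_contra h4
      exact he ⟨fun h5 => h4 (Or.inl h5), fun h5 => h4 (Or.inr h5)⟩
    choose e he using h2
    refine (mk_le_of_injective (f := fun i : (Xᶜ : Set I) =>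
      (⟨Sum.inr (i.1, e i), he i⟩ : ((FB : Set (R ⊕ (I × E))) ∪ P₂ : Set _))) ?_).trans_lt ?_
    · intro i i' h
      have h3 := Sum.inr_injective (congrArg Subtype.val h)
      exact Subtype.ext (congrArg Prod.fst h3)
    · refine ((mk_union_le _ _).trans (add_le_of_le hlam0 hFBl (hP₂l.trans hlam))).trans_lt ?_
      rw [hI]
      exact hκ
  have hX : #X = κ := by
    have h2 := mk_compl_of_infinite (Xᶜ : Set I) hXc
    rw [compl_compl] at h2
    rw [h2, hI]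
  obtain ⟨SX, hSX, hPSX, hSXe⟩ := exists_part hsym hP (hD P hP) X
  obtain ⟨Y₁, hY₁, hY₁e⟩ := (hD fP hfP).2 FB P₂ hFB hP₂ hfPFB hfPP₂
  obtain ⟨Y₂, hY₂, hY₂e⟩ := (hD P hP).2 SX P₂ hSX hP₂ hPSX hPP₂
  have hP₂Y₁ : P₂ ≤ Y₁ := by
    intro x hx
    change x ∈ (Y₁ : Set _)
    rw [hY₁e]
    exact Or.inr hx
  have hP₂Y₂ : P₂ ≤ Y₂ := by
    intro x hx
    change x ∈ (Y₂ : Set _)
    rw [hY₂e]
    exact Or.inr hx
  obtain ⟨Y, hY, hYe⟩ := (hD P₂ hP₂).2 Y₁ Y₂ hY₁ hY₂ hP₂Y₁ hP₂Y₂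
  have hYmem : ∀ x, x ∈ Y ↔ x ∈ FB ∨ x ∈ P₂ ∨ x ∈ SX := by
    intro x
    have h2 : x ∈ (Y : Set _) ↔ x ∈ (Y₁ : Set _) ∨ x ∈ (Y₂ : Set _) := by rw [hYe]; exact Iff.rfl
    have h3 : x ∈ (Y₁ : Set _) ↔ x ∈ FB ∨ x ∈ P₂ := by rw [hY₁e]; exact Iff.rfl
    have h4 : x ∈ (Y₂ : Set _) ↔ x ∈ SX ∨ x ∈ P₂ := by rw [hY₂e]; exact Iff.rfl
    change x ∈ (Y : Set _) ↔ _
    rw [h2, h3, h4]
    constructor
    · rintro ((h | h) | (h | h))
      · exact Or.inl h
      · exact Or.inr (Or.inl h)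
      · exact Or.inr (Or.inr h)
      · exact Or.inr (Or.inl h)
    · rintro (h | h | h)
      · exact Or.inl (Or.inl h)
      · exact Or.inl (Or.inr h)
      · exact Or.inr (Or.inl h)
  have hSXmem : ∀ x, x ∈ SX ↔ (∃ s, x = Sum.inl s) ∨ ∃ i ∈ X, ∃ e, x = Sum.inr (i, e) := by
    intro x
    change x ∈ (SX : Set _) ↔ _
    rw [hSXe]
    constructor
    · rintro (⟨s, rfl⟩ | h)
      · exact Or.inl ⟨s, rfl⟩
      · exact Or.inr h
    · rintro (⟨s, rfl⟩ | h)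
      · exact Or.inl ⟨s, rfl⟩
      · exact Or.inr h
  have hYκ : #Y = κ := by
    refine le_antisymm ?_ ?_
    · rw [← hMκ]
      exact mk_subtype_le _
    · rw [← hX]
      refine mk_le_of_injective (f := fun i : X => (⟨Sum.inr (i.1, Classical.arbitrary E),
        (hYmem _).2 (Or.inr (Or.inr ((hSXmem _).2 (Or.inr ⟨i.1, i.2, _, rfl⟩))))⟩ : Y)) ?_
      intro i i' h
      have h3 := Sum.inr_injective (congrArg Subtype.val h)
      exact Subtype.ext (congrArg Prod.fst h3)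
  obtain ⟨g⟩ := hcat.2 Y (R ⊕ (I × E)) (K.mem_of_le Y hY).1 hM hYκ hMκ
  let e' : Y ≃[L] (⊤ : L.Substructure (R ⊕ (I × E))) := topEquiv.symm.comp g
  have hP₂Y : P₂ ≤ Y := fun x hx => (hYmem x).2 (Or.inr (Or.inl hx))
  obtain ⟨gP, hgP, hgPS, hgPc, hgPe⟩ := exists_image e' hY (K.le_refl hM) hP₂ hP₂Y
  obtain ⟨gf, hgf⟩ := exists_fun e'
  have G := cEmbP_of_equiv (hD P₂ hP₂) (hD gP hgP) e' hY (K.le_refl hM) hP₂Y hgPS hgPe gf hgf
  have hGs : ∀ y, ∃ z ∈ Y, gf z = y := by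
    intro y
    let z := e'.symm ⟨y, trivial⟩
    refine ⟨z.1, z.2, ?_⟩
    rw [hgf z]
    exact congrArg Subtype.val (e'.apply_symm_apply ⟨y, trivial⟩)
  obtain ⟨P₃, hP₃, hP₃l, hPP₃, hgPP₃⟩ := hull hK hM hPl (hgPc.trans hP₂l)
  have hfY : ∀ x ∈ B, f x ∈ Y := fun x hx => (hYmem _).2 (Or.inl (hFB1 x hx))
  refine ⟨fun x => gf (f x), (P₃ : Set _) ∪ gf '' P₂ ∪ gf '' Set.range Sum.inl, ?_, ?_⟩
  · refine (mk_union_le _ _).trans (add_le_of_le hl ((mk_union_le _ _).trans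
      (add_le_of_le hl hP₃l (mk_image_le.trans hP₂l))) (mk_image_le.trans (mk_range_le.trans hR)))
  · refine ⟨?_, ?_, ?_, ?_, ?_⟩
    · intro x hx y hy hxy
      exact F.inj (hBS hx) (hBS hy) (G.inj (hfY x hx) (hfY y hy) hxy)
    · intro n r v hv
      exact (G.rel n r (fun i => f (v i)) fun i => hfY _ (hv i)).trans
        (F.rel n r v fun i => hBS (hv i))
    · intro a ha x hx hxa
      have h2 : clP K fP (f x) (f a) := (F.cl a (hBS ha) x (hBS hx)).2 hxa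
      have h3 : clP K gP (gf (f x)) (gf (f a)) :=
        (G.cl (f a) (hfY a ha) (f x) (hfY x hx)).2 (clP_mono hfPP₂ h2)
      rcases clP_large hP₃ (hD P hP) hPP₃ (clP_mono hgPP₃ h3) with h4 | h4
      · exact Or.inl (Or.inl (Or.inl h4))
      · exact Or.inr h4
    · intro a ha y hy
      rcases clP_large hP₃ (hD gP hgP) hgPP₃ (clP_mono hPP₃ hy) with h4 | h4
      · exact Or.inl (Or.inl (Or.inl h4))
      · obtain ⟨z, hz, rfl⟩ := G.closed (f a) (hfY a ha) y h4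
        have h5 : clP K P₂ z (f a) := (G.cl (f a) (hfY a ha) z hz).1 h4
        rcases clP_large hP₂ (hD fP hfP) hfPP₂ h5 with h6 | h6
        · exact Or.inl (Or.inl (Or.inr ⟨z, h6, rfl⟩))
        · obtain ⟨x, hx, rfl⟩ := F.closed a (hBS ha) z h6
          have h7 : clP K PN x a := (F.cl a (hBS ha) x hx).1 h6
          exact Or.inr ⟨x, hB a ha x h7, h7, rfl⟩
    · intro a ha y hy
      rcases clP_large hP₃ (hD gP hgP) hgPP₃ (clP_mono hPP₃ hy) with h4 | h4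
      · exact Or.inl (Or.inl (Or.inl h4))
      · obtain ⟨z, hz, rfl⟩ := hGs y
        have h5 : clP K P₂ (f a) z := (G.cl z hz (f a) (hfY a ha)).1 h4
        rcases (hYmem z).1 hz with hz1 | hz1 | hz1
        · obtain ⟨x, hx, rfl⟩ := hFB2 z hz1
          exact Or.inr (Or.inr ⟨x, hx, rfl⟩)
        · exact Or.inr (Or.inl (Or.inl (Or.inr ⟨z, hz1, rfl⟩)))
        · rcases (hSXmem z).1 hz1 with ⟨s, rfl⟩ | ⟨i, hi, e, rfl⟩
          · exact Or.inr (Or.inl (Or.inr ⟨_, ⟨s, rfl⟩, rfl⟩))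
          · rcases clP_large hP₂ (hD P hP) hPP₂ h5 with h6 | h6
            · exact Or.inl (Or.inl (Or.inr ⟨_, h6, rfl⟩))
            · rcases hfa : f a with s | ⟨j, e₁⟩
              · exact Or.inl (Or.inr ⟨Sum.inl s, ⟨s, rfl⟩, rfl⟩)
              · exfalso
                rw [hfa] at h6
                have h7 := hsym.piece j e₁ i e h6
                subst h7
                have h8 := hFB1 a ha
                rw [hfa] at h8
                exact (hi e₁).1 h8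

/-- Small closed sets have quasi-embeddings into the symmetric model. -/
theorem exists_qemb [L.IsRelational] [Infinite I] [Nonempty E] {l lam κ : Cardinal.{u}}
    (hK : K.IsLS l) (hlam : l ≤ lam) (hκ : lam < κ) (hcat : K.CategoricalIn κ)
    (hM : K.mem (R ⊕ (I × E))) (hD : DisAll K (R ⊕ (I × E))) (hR : #R ≤ l) (hI : #I = κ)
    (hMκ : #(R ⊕ (I × E)) = κ) {P : L.Substructure (R ⊕ (I × E))} (hP : K.le P) (hPl : #P ≤ l)
    (hsym : SymM L R I E (fun x a => clP K P x a)) (hN : K.mem N) (hN1 : hanf (2 ^ lam) ≤ #N)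
    (hN2 : lam < #N) (hDN : DisAll K N) {PN : L.Substructure N} (hPN : K.le PN) (hPNl : #PN ≤ l)
    {B : Set N} (hB : Closed (fun x a => clP K PN x a) B) (hBl : #B ≤ lam) :
    ∃ (h : N → R ⊕ (I × E)) (Q : Set (R ⊕ (I × E))), #Q ≤ l ∧
      QEmb L (fun x a => clP K PN x a) (fun x a => clP K P x a) B h Q := by
  have hl := hK.1
  obtain ⟨h, Q, hQ, H⟩ := exists_qemb_aux hK hlam hκ hcat hM hD hR hI hMκ hP hPl hsym hN hN1 hN2 hDN
    hPN hPNl (B := (PN : Set N) ∪ B) (fun x hx => Or.inl hx) (by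
      rintro a (ha | ha) x hx
      · exact Or.inl (mem_of_clP_base hPN ha hx)
      · exact Or.inr (hB a ha x hx))
    ((mk_union_le _ _).trans (add_le_of_le (hl.trans hlam) (hPNl.trans hlam) hBl))
  refine ⟨h, Q ∪ h '' PN, (mk_union_le _ _).trans (add_le_of_le hl hQ (mk_image_le.trans hPNl)),
    ?_⟩
  refine ⟨H.inj.mono fun x hx => Or.inr hx, fun n r v hv => H.rel n r v fun i => Or.inr (hv i),
    ?_, ?_, ?_⟩
  · intro a ha x hx hxa
    rcases H.down a (Or.inr ha) x (Or.inr hx) hxa with h1 | h1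
    · exact Or.inl (Or.inl h1)
    · exact Or.inr h1
  · intro a ha y hy
    rcases H.lift a (Or.inr ha) y hy with h1 | ⟨x, hx, hxa, hxy⟩
    · exact Or.inl (Or.inl h1)
    · exact Or.inr ⟨x, hB a ha x hxa, hxa, hxy⟩
  · intro a ha y hy
    rcases H.up a (Or.inr ha) y hy with h1 | h1 | ⟨x, hx | hx, hxy⟩
    · exact Or.inl (Or.inl h1)
    · exact Or.inr (Or.inl (Or.inl h1))
    · exact Or.inr (Or.inl (Or.inr ⟨x, hx, hxy⟩))
    · exact Or.inr (Or.inr ⟨x, hx, hxy⟩)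

end main

end PQ

end Vale.Agent.P307.Triv
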