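import Vale.Agent.P307.Triv.PDefs
import Vale.Agent.P307.Triv.LocA

/-!
Closed sets over a strong substructure.
-/

universe u

open FirstOrder Cardinal Set

namespace Vale.Agent.P307.Triv

open Language.Structure Language.Substructure

variable {L : Language.{u, u}} {K : AEC L} {N N' : Type u} [L.Structure N] [L.Structure N']

theorem clP_refl (K : AEC L) (P : L.Substructure N) (a : N) : clP K P a a := fun _ _ _ ha => ha

theorem clP_trans {P : L.Substructure N} {a b c : N} (h : clP K P a b) (h' : clP K P b c) :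
    clP K P a c := fun S hS hP hc => h S hS hP (h' S hS hP hc)

theorem clP_base {P : L.Substructure N} {p : N} (hp : p ∈ P) (a : N) : clP K P p a :=
  fun _ _ hP _ => hP hp

theorem mem_of_clP_base {P : L.Substructure N} (hP : K.le P) {x a : N} (ha : a ∈ P)
    (h : clP K P x a) : x ∈ P := h P hP le_rfl ha

theorem mk_clP_le {l : Cardinal.{u}} (hK : K.IsLS l) (hN : K.mem N) {P : L.Substructure N}
    (hP : K.le P) (hPl : #P ≤ l) (a : N) : #{x : N | clP K P x a} ≤ l := by
  have hl := hK.1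
  obtain ⟨S, hS, hsub, hc⟩ := hK.2.2 N hN (insert a (P : Set N))
  have h1 : (P : Set N) ⊆ S := (Set.subset_insert _ _).trans hsub
  have h2 : a ∈ S := hsub (Set.mem_insert _ _)
  have h3 : {x : N | clP K P x a} ⊆ (S : Set N) := fun x hx => hx S hS h1 h2
  refine (mk_le_mk_of_subset h3).trans (hc.trans ?_)
  refine add_le_of_le hl ?_ le_rfl
  refine (mk_insert_le).trans (add_le_of_le hl hPl (one_le_aleph0.trans hl))

/-- Closed sets which contain the base are strong. -/
theorem exists_closedP [L.IsRelational] {P : L.Substructure N} (hP : K.le P) (hD : DisOver K P)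
    {X : Set N} (hPX : (P : Set N) ⊆ X) (hX : Closed (fun x a => clP K P x a) X) :
    ∃ S : L.Substructure N, K.le S ∧ (S : Set N) = X := by
  classical
  have hcl : ∀ a : N, ∃ S : L.Substructure N, K.le S ∧ P ≤ S ∧
      (S : Set N) = {x | clP K P x a} := by
    intro a
    obtain ⟨S, h1, h2, h3, h4⟩ := hD.1 a
    refine ⟨S, h1, h2, ?_⟩
    ext x
    exact ⟨fun hx T hT hPT ha => h4 T hT hPT ha hx, fun hx => hx S h1 h2 h3⟩
  have key : ∀ b : Finset X, ∃ U : L.Substructure N, K.le U ∧ P ≤ U ∧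
      (U : Set N) = {x | x ∈ P ∨ ∃ a ∈ b, clP K P x a.1} := by
    intro b
    induction b using Finset.induction_on with
    | empty =>
      refine ⟨P, hP, le_rfl, ?_⟩
      ext x
      simp
    | insert a b _ ih =>
      obtain ⟨U, hU1, hU1', hU2⟩ := ih
      obtain ⟨S, h1, h1', h2⟩ := hcl a.1
      obtain ⟨V, hV1, hV2⟩ := hD.2 U S hU1 h1 hU1' h1'
      refine ⟨V, hV1, ?_, ?_⟩
      · intro x hx
        change x ∈ (V : Set N)
        rw [hV2]
        exact Or.inl (hU1' hx)
      · rw [hV2, hU2, h2]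
        ext x
        simp only [Set.mem_union, Set.mem_setOf_eq, Finset.mem_insert, exists_eq_or_imp]
        rw [or_assoc, or_comm (b := clP K P x a.1)]
  choose F hF1 hF3 hF2 using key
  have hm : Monotone F := by
    intro b b' hb x hx
    have hx' : x ∈ (F b : Set N) := hx
    rw [hF2] at hx'
    change x ∈ (F b' : Set N)
    rw [hF2]
    rcases hx' with h | ⟨a, ha, h⟩
    · exact Or.inl h
    · exact Or.inr ⟨a, hb ha, h⟩
  refine ⟨⨆ b, F b, AEC.le_iSup_finset F hm hF1, ?_⟩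
  let T : L.Substructure N := ⟨X, fun f => isEmptyElim f⟩
  have h1 : ⨆ b, F b ≤ T := by
    refine iSup_le fun b x hx => ?_
    have hx' : x ∈ (F b : Set N) := hx
    rw [hF2] at hx'
    rcases hx' with h | ⟨a, ha, h⟩
    · exact hPX h
    · exact hX a.1 a.2 x h
  refine Set.Subset.antisymm h1 fun x hx => ?_
  have h2 : x ∈ F {⟨x, hx⟩} := by
    change x ∈ (F {⟨x, hx⟩} : Set N)
    rw [hF2]
    exact Or.inr ⟨⟨x, hx⟩, by simp, clP_refl K P x⟩
  exact (le_iSup F {⟨x, hx⟩}) h2

theorem clP_map {P : L.Substructure N} {P' : L.Substructure N'} (hT' : DisOver K P')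
    {S : L.Substructure N} {S' : L.Substructure N'} (e : S ≃[L] S') (hS : K.le S) (hS' : K.le S')
    (hPS' : P' ≤ S') (he : ∀ a : S, (a : N) ∈ P → (e a : N') ∈ P')
    (hPS : P ≤ S) {x a : S} (h : clP K P (x : N) a) :
    clP K P' (e x : N') (e a) := by
  intro T' hTl hPT' haT'
  obtain ⟨T, h1, hPT, h2, h3⟩ := hT'.1 (e a)
  have h4 := K.coherence T S' (h3 S' hS' hPS' (e a).2) h1 hS'
  have h5 := K.le_trans S _ (K.le_iso e.symm _ h4) hS
  have h6 := h _ h5 (fun p hp => ⟨⟨p, hPS hp⟩, ⟨e ⟨p, hPS hp⟩, hPT (he _ hp),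
    e.symm_apply_apply _⟩, rfl⟩) ⟨a, ⟨e a, h2, e.symm_apply_apply a⟩, rfl⟩
  obtain ⟨y, ⟨z, hz, hzy⟩, hyx⟩ := h6
  have h7 : y = x := Subtype.ext hyx
  subst h7
  have h8 : e y = z := by
    rw [← hzy]
    exact e.apply_symm_apply z
  rw [h8]
  exact h3 T' hTl hPT' haT' hz

theorem cEmbP_of_equiv {P : L.Substructure N} {P' : L.Substructure N'} (hT : DisOver K P)
    (hT' : DisOver K P') {S : L.Substructure N} {S' : L.Substructure N'} (e : S ≃[L] S')
    (hS : K.le S) (hS' : K.le S') (hPS : P ≤ S) (hPS' : P' ≤ S')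
    (he : ∀ a : S, (a : N) ∈ P ↔ (e a : N') ∈ P') (f : N → N') (hf : ∀ a : S, f a = e a) :
    CEmb L (fun x a => clP K P x a) (fun x a => clP K P' x a) (S : Set N) f where
  inj x hx y hy h := by
    have h1 := hf ⟨x, hx⟩
    have h2 := hf ⟨y, hy⟩
    have h3 : e ⟨x, hx⟩ = e ⟨y, hy⟩ := Subtype.ext (h1.symm.trans (h.trans h2))
    exact congrArg Subtype.val (e.injective h3)
  rel n r v hv := by
    have h1 := e.map_rel r (fun i => (⟨v i, hv i⟩ : S))
    have h2 : (fun i => f (v i)) = fun i => ((e ⟨v i, hv i⟩ : S') : N') :=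
      funext fun i => hf ⟨v i, hv i⟩
    rw [h2]
    exact h1
  cl a ha x hx := by
    rw [hf ⟨a, ha⟩, hf ⟨x, hx⟩]
    constructor
    · intro h
      have h1 := clP_map (P := P') (P' := P) hT e.symm hS' hS hPS (fun b hb => by
        rw [he, e.apply_symm_apply]
        exact hb) hPS' h
      rwa [e.symm_apply_apply, e.symm_apply_apply] at h1
    · intro h
      exact clP_map hT' e hS hS' hPS' (fun b hb => (he b).1 hb) hPS (x := ⟨x, hx⟩) (a := ⟨a, ha⟩) h
  closed a ha y hy := by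
    rw [hf ⟨a, ha⟩] at hy
    have h1 : y ∈ S' := hy S' hS' hPS' (e ⟨a, ha⟩).2
    refine ⟨e.symm ⟨y, h1⟩, (e.symm ⟨y, h1⟩).2, ?_⟩
    rw [hf, e.apply_symm_apply]

end Vale.Agent.P307.Triv
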