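import Vale.Agent.P307.Triv.PSA
import Vale.Agent.P307.Triv.SymC

/-!
Part alpha: Ehrenfeucht-Mostowski models over a small strong substructure.
-/

universe u

open FirstOrder Cardinal Set Language Structure

namespace Vale.Agent.P307.Triv

open Vale.Agent.P307.H67

/-- the value of a constant symbol -/
def cval (L : Language.{u, u}) {Λ : Type u} (N : Type u) [(L.sum (LU Λ)).Structure N] (ξ : Λ) : N :=
  funMap (csym L ξ : (L.sum (LU Λ)).Functions 0) (fun k => k.elim0)

/-- Ehrenfeucht-Mostowski models over a small strong substructure -/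
theorem exists_emP {l : Cardinal.{u}} {L : Language.{u, u}}
    [L.IsRelational] {K : AEC L} (hK : K.IsLS l) {κ : Cardinal.{u}}
    (hD : ∀ (N : Type u) [L.Structure N], K.mem N → #N = κ → DisAll K N)
    (hlκ : l ≤ κ) {M : Type u} [L.Structure M] (hM : K.mem M) (hDM : DisAll K M)
    (hbig : hanf (2 ^ l) ≤ #M) {P : L.Substructure M} (hP : K.le P) (hPl : #P ≤ l)
    (hPne : (P : Set M).Nonempty) {Λ : Type u} (hΛ : #Λ = l) :
    ∃ (_ : (L.sum (LU Λ)).Structure M) (a : ∀ n : ℕ, Fin n → M),
      ∀ (I : Type u) [LinearOrder I], #I = κ → ∃ (N : Type u) (_ : L.Structure N)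
        (_ : (L.sum (LU Λ)).Structure N)
        (_ : (LHom.sumInl : L →ᴸ L.sum (LU Λ)).IsExpansionOn N) (e : I → N),
        IsEM (L.sum (LU Λ)) a e ∧ K.mem N ∧ #N = κ ∧ Function.Injective e ∧
        (∀ z : N, ∃ (s : (L.sum (LU Λ)).Term (Fin 1)) (i : I), ev e s i = z) ∧
        ∃ PN : L.Substructure N, K.le PN ∧ (PN : Set N) = range (cval L (Λ := Λ) N) ∧
          ∀ x a : N, clP K PN x a ↔ ∃ ξ : Λ, funMap (fsym L ξ) (fun _ => a) = x := by
  classical
  have hl := hK.1
  have hκ0 : ℵ₀ ≤ κ := hl.trans hlκ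
  have hA0 : ∀ a : M, #{x : M | clP K P x a} ≤ l := mk_clP_le hK hM hP hPl
  have hAc : ∀ X : Set M, (P : Set M) ⊆ X → Closed (fun x a => clP K P x a) X →
      ∃ S : L.Substructure M, K.le S ∧ (S : Set M) = X :=
    fun X h h' => exists_closedP hP (hDM P hP) h h'
  let X : Type u := (#M).ord.ToType
  have hX : #X = #M := by simp [X]
  obtain ⟨eq⟩ := Cardinal.eq.1 hX
  let x : X → M := eq
  have hxinj : Function.Injective x := eq.injective
  have hXbig : hanf (2 ^ l) ≤ #X := by
    rw [hX]
    exact hbig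
  have hMne : Nonempty M := mk_ne_zero_iff.1
    (aleph0_pos.trans_le ((aleph0_le_hanf _).trans hbig)).ne'
  choose g hg using fun a : M => exists_enum (Λ := Λ) (S := {x : M | clP K P x a})
    ⟨a, clP_refl K P a⟩ ((hA0 a).trans hΛ.ge)
  obtain ⟨gP, hgP⟩ := exists_enum (Λ := Λ) (S := (P : Set M)) hPne (hPl.trans hΛ.ge)
  let L₁ : Language.{u, u} := L.sum (LU Λ)
  let φ : L →ᴸ L₁ := LHom.sumInl
  let strX : (LU Λ).Structure M := luStr gP (fun ξ a => g a ξ)
  have hL₁ : L₁.card ≤ l := card_LU_le hl hK.2.1 hΛ.le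
  have hfun : ∀ (ξ : Λ) (a : M), funMap (fsym L ξ : L₁.Functions 1) (fun _ : Fin 1 => a) = g a ξ :=
    fun _ _ => rfl
  have hcst : ∀ (ξ : Λ) (v : Fin 0 → M), funMap (csym L ξ : L₁.Functions 0) v = gP ξ :=
    fun _ _ => rfl
  have hcl1 : Gr.Cl1 K φ M := by
    intro S
    have h5 : (P : Set M) ⊆ (S : Set M) := by
      rw [← hgP]
      rintro _ ⟨ξ, rfl⟩
      exact S.fun_mem (csym L ξ : L₁.Functions 0) (fun k => k.elim0) (fun k => k.elim0)
    have h6 : Closed (fun x a => clP K P x a) (S : Set M) := by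
      intro a ha y hy
      have h4 : y ∈ range (g a) := by
        rw [hg a]
        exact hy
      obtain ⟨ξ, hξ⟩ := h4
      rw [← hξ, ← hfun ξ a]
      exact S.fun_mem (fsym L ξ : L₁.Functions 1) (fun _ => a) (fun _ => ha)
    obtain ⟨S', h1, h2⟩ := hAc (S : Set M) h5 h6
    have h3 : φ.substructureReduct S = S' := SetLike.coe_injective h2.symm
    rw [h3]
    exact h1
  obtain ⟨a, ha1, ha2⟩ := exists_template (L := L₁) hl hL₁ x hXbig
  have hta : IsTemplate L₁ (fun n k => x (a n k)) := fun k n g hg => ha2 k n g hg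
  have hne01 : x (a 2 0) ≠ x (a 2 1) := by
    intro h
    exact absurd (hxinj h) ((ha1 2) (by decide : (0 : Fin 2) < 1)).ne
  refine ⟨inferInstance, fun n k => x (a n k), ?_⟩
  intro I _ hI
  obtain ⟨N, strN, e, he, htop⟩ := exists_isEM hta I
  let strN' : L.Structure N := φ.reduct N
  have hloc := Gr.isEM_local he htop
  have hNK : K.mem N ∧ Gr.Cl1 K φ N := hcl1.transfer fun A => by
    obtain ⟨ρ⟩ := hloc A
    exact ⟨ρ, ρ.injective⟩
  have hinj : Function.Injective e := by
    have h1 : ∀ w w' : I, w < w' → e w ≠ e w' := by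
      intro w w' hw h
      have hm : StrictMono (![w, w'] : Fin 2 → I) := by
        rw [Fin.strictMono_iff_lt_succ]
        intro i
        have : i = 0 := Subsingleton.elim _ _
        subst this
        exact hw
      have hat : AtEq L₁ (fun k => e ((![w, w'] : Fin 2 → I) k)) (fun k => x (a 2 k)) :=
        he 2 _ hm
      have h2 := (hat.1 (Term.var 0) (Term.var 1)).1 h
      exact hne01 h2
    intro w w' h
    rcases lt_trichotomy w w' with hw | hw | hw
    · exact absurd h (h1 w w' hw)
    · exact hw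
    · exact absurd h.symm (h1 w' w hw)
  have hterm : ∀ x : N, ∃ t : L₁.Term I, t.realize e = x := fun x => by
    rw [← Gr.mem_closure_range, htop]
    trivial
  have hIne : Nonempty I := mk_ne_zero_iff.1 (by rw [hI]; exact (aleph0_pos.trans_le hκ0).ne')
  have hNκ : #N = κ := by
    apply le_antisymm
    · choose t ht using hterm
      have h2 : #N ≤ #(L₁.Term I) := mk_le_of_injective (f := t) fun x y hxy => by
        rw [← ht x, ← ht y, hxy]
      exact h2.trans (mk_term_le hκ0 (hL₁.trans hlκ) I hI.le)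
    · rw [← hI]
      exact mk_le_of_injective hinj
  refine ⟨N, strN', strN, inferInstance, e, he, hNK.1, hNκ, hinj, ?_, ?_⟩
  · intro z
    obtain ⟨t, ht⟩ := hterm z
    obtain ⟨s, i, rfl⟩ := term_unary t
    refine ⟨s, i, ?_⟩
    rw [← ht, Term.realize_relabel]
    rfl
  · have hcN : ∀ (S : L₁.Substructure N) (ξ : Λ), cval L (Λ := Λ) N ξ ∈ S := fun S ξ =>
      S.fun_mem (csym L ξ : L₁.Functions 0) (fun k => k.elim0) (fun k => k.elim0)
    have hρc : ∀ (S : L₁.Substructure N) (ρ : S ↪[L₁] M) (ξ : Λ),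
        ρ ⟨cval L (Λ := Λ) N ξ, hcN S ξ⟩ = gP ξ := by
      intro S ρ ξ
      have h1 := ρ.map_fun (csym L ξ : L₁.Functions 0) (fun k => k.elim0)
      rw [hcst] at h1
      rw [← h1]
      congr 1
      apply Subtype.ext
      change funMap (csym L ξ : L₁.Functions 0) _ = funMap (csym L ξ : L₁.Functions 0) _
      congr 1
      funext k
      exact k.elim0
    have hfn0 : ∀ (S : L₁.Substructure N) (ξ : Λ) (b : N), b ∈ S →
        funMap (fsym L ξ : L₁.Functions 1) (fun _ : Fin 1 => b) ∈ S := fun S ξ b hb =>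
      S.fun_mem (fsym L ξ : L₁.Functions 1) (fun _ => b) (fun _ => hb)
    have hρf : ∀ (S : L₁.Substructure N) (ρ : S ↪[L₁] M) (ξ : Λ) (b : N) (hb : b ∈ S),
        ρ ⟨funMap (fsym L ξ : L₁.Functions 1) (fun _ : Fin 1 => b), hfn0 S ξ b hb⟩ =
          g (ρ ⟨b, hb⟩) ξ := by
      intro S ρ ξ b hb
      have h1 := ρ.map_fun (fsym L ξ : L₁.Functions 1) (fun _ => (⟨b, hb⟩ : S))
      exact h1
    let S0 : L₁.Substructure N :=
      { carrier := range (cval L (Λ := Λ) N)
        fun_mem := by
          intro n f v hv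
          rcases f with f | f
          · exact isEmptyElim (α := L.Functions n) f
          · match n, f, v, hv with
            | 0, f, v, _ =>
              refine ⟨f, ?_⟩
              change funMap (csym L f : L₁.Functions 0) (fun k => k.elim0) =
                funMap (csym L f : L₁.Functions 0) v
              congr 1
              funext k
              exact k.elim0
            | 1, f, v, hv =>
              obtain ⟨η, hη⟩ := hv 0
              have hv0 : v = fun _ => v 0 := by
                funext k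
                rw [Subsingleton.elim k 0]
              rw [hv0]
              let S : L₁.Substructure N := Substructure.closure L₁ ((({v 0} : Finset N)) : Set N)
              obtain ⟨ρ⟩ := hloc {v 0}
              have hb : v 0 ∈ S := Substructure.subset_closure (by simp)
              have h1 := hρf S ρ f (v 0) hb
              have h2 : ρ ⟨v 0, hb⟩ = gP η := by
                rw [← hρc S ρ η]
                congr 1
                exact Subtype.ext hη.symm
              have h3 : g (ρ ⟨v 0, hb⟩) f ∈ {x : M | clP K P x (gP η)} := by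
                rw [h2, ← hg]
                exact ⟨f, rfl⟩
              have h4 : gP η ∈ P := by
                change gP η ∈ (P : Set M)
                rw [← hgP]
                exact ⟨η, rfl⟩
              have h5 : g (ρ ⟨v 0, hb⟩) f ∈ (P : Set M) := mem_of_clP_base hP h4 h3
              rw [← hgP] at h5
              obtain ⟨ζ, hζ⟩ := h5
              refine ⟨ζ, ?_⟩
              have h6 : (⟨cval L (Λ := Λ) N ζ, hcN S ζ⟩ : S) =
                  ⟨funMap (fsym L f : L₁.Functions 1) (fun _ : Fin 1 => v 0),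
                    hfn0 S f (v 0) hb⟩ := by
                apply ρ.injective
                rw [hρc, h1, hζ]
              exact congrArg Subtype.val h6
            | n + 2, f, _, _ => exact PEmpty.elim f }
    have hS0 : K.le (φ.substructureReduct S0) := hNK.2 S0
    refine ⟨φ.substructureReduct S0, hS0, rfl, ?_⟩
    intro y b
    let S : L₁.Substructure N := Substructure.closure L₁ ((({b} : Finset N)) : Set N)
    obtain ⟨ρ⟩ := hloc {b}
    have hb : b ∈ S := Substructure.subset_closure (by simp)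
    have hS : K.le (φ.substructureReduct S) := hNK.2 S
    let E : (φ.substructureReduct S) ↪[L] M := Gr.subEmb φ S ρ
    have hE : K.le E.toHom.range := hcl1.emb S ρ
    let f : N → M := fun z => if h : z ∈ S then ρ ⟨z, h⟩ else Classical.arbitrary M
    have hf : ∀ (z : N) (h : z ∈ S), f z = ρ ⟨z, h⟩ := fun z h => dif_pos h
    have hPS : φ.substructureReduct S0 ≤ φ.substructureReduct S := by
      rintro _ ⟨ξ, rfl⟩
      exact hcN S ξ
    have hPS' : P ≤ E.toHom.range := by
      intro p hp
      have hp' : p ∈ (P : Set M) := hp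
      rw [← hgP] at hp'
      obtain ⟨ξ, rfl⟩ := hp'
      exact ⟨⟨cval L (Λ := Λ) N ξ, hcN S ξ⟩, hρc S ρ ξ⟩
    have hC := cEmbP_of_equiv (hD N hNK.1 hNκ _ hS0) (hDM P hP) E.equivRange hS hE hPS hPS' (by
      rintro ⟨a, ha⟩
      constructor
      · rintro ⟨ξ, hξ⟩
        change ρ ⟨a, ha⟩ ∈ (P : Set M)
        rw [← hgP]
        refine ⟨ξ, ?_⟩
        rw [← hρc S ρ ξ]
        congr 1
        exact Subtype.ext hξ
      · intro h
        have h' : ρ ⟨a, ha⟩ ∈ (P : Set M) := h
        rw [← hgP] at h'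
        obtain ⟨ξ, hξ⟩ := h'
        refine ⟨ξ, ?_⟩
        rw [← hρc S ρ ξ] at hξ
        exact congrArg Subtype.val (ρ.injective hξ)) f (by
      intro z
      rw [hf z.1 z.2]
      rfl)
    have hfn : ∀ ξ : Λ, funMap (fsym L ξ : L₁.Functions 1) (fun _ : Fin 1 => b) ∈ S := fun ξ =>
      hfn0 S ξ b hb
    have hρ : ∀ ξ : Λ, f (funMap (fsym L ξ : L₁.Functions 1) (fun _ : Fin 1 => b)) =
        g (f b) ξ := by
      intro ξ
      rw [hf _ (hfn ξ), hf b hb]
      exact hρf S ρ ξ b hb
    constructor
    · intro hy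
      have hyS : y ∈ S := hy (φ.substructureReduct S) hS hPS hb
      have h1 : clP K P (f y) (f b) := (hC.cl b hb y hyS).2 hy
      have h2 : f y ∈ range (g (f b)) := by
        rw [hg]
        exact h1
      obtain ⟨ξ, hξ⟩ := h2
      refine ⟨ξ, ?_⟩
      rw [← hρ ξ] at hξ
      exact hC.inj (hfn ξ) hyS hξ
    · rintro ⟨ξ, rfl⟩
      refine (hC.cl b hb _ (hfn ξ)).1 ?_
      rw [hρ ξ]
      have h2 : g (f b) ξ ∈ range (g (f b)) := ⟨ξ, rfl⟩
      rw [hg] at h2
      exact h2

end Vale.Agent.P307.Triv
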