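import Vale.Agent.P307.Triv.PDefs
import Vale.Agent.P307.Triv.OneDefs

/-!
Disintegrated closures imply disintegrated closures over all strong substructures.
-/

universe u

open FirstOrder Cardinal Set

namespace Vale.Agent.P307.Triv

theorem disAll_of_disModel {L : Language.{u, u}} {K : AEC L} {N : Type u} [L.Structure N]
    (h : DisModel K N) : DisAll K N := by
  intro P hP
  refine ⟨fun a => ?_, fun S T hS hT _ _ => h.2 S T hS hT⟩
  obtain ⟨S, hS, haS, hmin⟩ := h.1 a
  obtain ⟨U, hU, hUe⟩ := h.2 P S hP hS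
  refine ⟨U, hU, fun x hx => ?_, ?_, fun T hT hPT haT x hx => ?_⟩
  · change x ∈ (U : Set N)
    rw [hUe]
    exact Or.inl hx
  · change a ∈ (U : Set N)
    rw [hUe]
    exact Or.inr haS
  · have hx' : x ∈ (P : Set N) ∪ S := by
      rw [← hUe]
      exact hx
    rcases hx' with hx' | hx'
    · exact hPT hx'
    · exact hmin T hT haT hx'

end Vale.Agent.P307.Triv
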