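import Mathlib.GroupTheory.Perm.Fin
import Mathlib.GroupTheory.Perm.Closure
import Mathlib.Data.Finset.Sort
import Mathlib.Data.Fintype.EquivFin

/-!
Order invariant predicates which are invariant under the exchange of adjacent indices depend only
on the equality pattern.
-/

namespace Vale.Agent.P307.Triv

variable {n : ℕ} {J : Type*} [LinearOrder J] {P : (Fin n → J) → Prop}

/-- invariance under one exchange, for all increasing tuples -/
theorem swap_all (hord : ∀ i i' : Fin n → J, (∀ k k', i k < i k' ↔ i' k < i' k') → (P i ↔ P i'))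
    {m : ℕ} (p : Fin n → Fin m) (π : Equiv.Perm (Fin m))
    (hex : ∃ s s' : Fin m → J, StrictMono s ∧ StrictMono s' ∧ (P (s ∘ p) ↔ P (s' ∘ π ∘ p)))
    (s s' : Fin m → J) (hs : StrictMono s) (hs' : StrictMono s') :
    P (s ∘ p) ↔ P (s' ∘ π ∘ p) := by
  obtain ⟨s₁, s₂, h1, h2, h3⟩ := hex
  have e1 : P (s ∘ p) ↔ P (s₁ ∘ p) := hord _ _ fun k k' => by
    simp only [Function.comp_apply, hs.lt_iff_lt, h1.lt_iff_lt]
  have e2 : P (s' ∘ π ∘ p) ↔ P (s₂ ∘ π ∘ p) := hord _ _ fun k k' => by
    simp only [Function.comp_apply, hs'.lt_iff_lt, h2.lt_iff_lt]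
  exact e1.trans (h3.trans e2.symm)

/-- invariance under all permutations -/
theorem perm_all (hord : ∀ i i' : Fin n → J, (∀ k k', i k < i k' ↔ i' k < i' k') → (P i ↔ P i'))
    (hex : ∀ (m : ℕ) (p : Fin n → Fin (m + 1)) (k : Fin m), ∃ s s' : Fin (m + 1) → J,
      StrictMono s ∧ StrictMono s' ∧
        (P (s ∘ p) ↔ P (s' ∘ (Equiv.swap k.castSucc k.succ : Equiv.Perm (Fin (m + 1))) ∘ p)))
    {m : ℕ} (π : Equiv.Perm (Fin (m + 1))) (s : Fin (m + 1) → J) (hs : StrictMono s) :
    ∀ p : Fin n → Fin (m + 1), P (s ∘ p) ↔ P (s ∘ π ∘ p) := by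
  have hπ : π ∈ Submonoid.closure
      (Set.range fun i : Fin m => Equiv.swap i.castSucc i.succ) := by
    rw [Equiv.Perm.mclosure_swap_castSucc_succ]; trivial
  induction hπ using Submonoid.closure_induction with
  | mem x hx =>
    obtain ⟨k, rfl⟩ := hx
    intro p
    exact swap_all hord p _ (hex m p k) s s hs hs
  | one => intro p; rfl
  | mul x y _ _ hx hy =>
    intro p
    exact (hy p).trans (hx (y ∘ p))

/-- **Pattern lemma.** An order invariant predicate which is invariant under the exchange of two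
adjacent indices (for one pair of increasing tuples in each case) depends only on the equality
pattern of the indices. -/
theorem pattern (hord : ∀ i i' : Fin n → J, (∀ k k', i k < i k' ↔ i' k < i' k') → (P i ↔ P i'))
    (hex : ∀ (m : ℕ) (p : Fin n → Fin (m + 1)) (k : Fin m), ∃ s s' : Fin (m + 1) → J,
      StrictMono s ∧ StrictMono s' ∧
        (P (s ∘ p) ↔ P (s' ∘ (Equiv.swap k.castSucc k.succ : Equiv.Perm (Fin (m + 1))) ∘ p)))
    (i i' : Fin n → J) (hii : ∀ k k', i k = i k' ↔ i' k = i' k') : P i ↔ P i' := by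
  classical
  rcases isEmpty_or_nonempty (Fin n) with h0 | h0
  · have : i = i' := Subsingleton.elim _ _
    rw [this]
  let S : Finset J := Finset.univ.image i
  let S' : Finset J := Finset.univ.image i'
  have hS : ∀ k, i k ∈ S := fun k => Finset.mem_image_of_mem _ (Finset.mem_univ _)
  have hS' : ∀ k, i' k ∈ S' := fun k => Finset.mem_image_of_mem _ (Finset.mem_univ _)
  -- the bijection `S → S'`
  let f : S → S' := fun x => ⟨i' (Finset.mem_image.1 x.2).choose, hS' _⟩
  have hf : ∀ k, f ⟨i k, hS k⟩ = ⟨i' k, hS' k⟩ := fun k => Subtype.ext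
    ((hii _ _).1 (Finset.mem_image.1 (hS k)).choose_spec.2)
  have hsurj : Function.Surjective f := by
    rintro ⟨y, hy⟩
    obtain ⟨k, -, rfl⟩ := Finset.mem_image.1 hy
    exact ⟨_, hf k⟩
  have hinj : Function.Injective f := by
    rintro ⟨x, hx⟩ ⟨y, hy⟩ hxy
    obtain ⟨k, -, rfl⟩ := Finset.mem_image.1 hx
    obtain ⟨k', -, rfl⟩ := Finset.mem_image.1 hy
    rw [hf, hf] at hxy
    exact Subtype.ext ((hii k k').2 (congrArg Subtype.val hxy))
  let F : S ≃ S' := Equiv.ofBijective f ⟨hinj, hsurj⟩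
  have hne : S.Nonempty := ⟨_, hS (Classical.arbitrary _)⟩
  obtain ⟨m, hm⟩ : ∃ m, S.card = m + 1 := Nat.exists_eq_succ_of_ne_zero hne.card_pos.ne'
  have hm' : S'.card = m + 1 := by
    rw [← hm]
    have := Fintype.card_congr F
    simpa using this.symm
  let o := S.orderIsoOfFin hm
  let o' := S'.orderIsoOfFin hm'
  let π : Equiv.Perm (Fin (m + 1)) := (o.toEquiv.trans F).trans o'.symm.toEquiv
  let p : Fin n → Fin (m + 1) := fun k => o.symm ⟨i k, hS k⟩
  let s : Fin (m + 1) → J := fun k => (o k : J)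
  let s' : Fin (m + 1) → J := fun k => (o' k : J)
  have hs : StrictMono s := fun a b hab => o.strictMono hab
  have hs' : StrictMono s' := fun a b hab => o'.strictMono hab
  have e1 : i = s ∘ p := by
    funext k
    show i k = (o (o.symm ⟨i k, hS k⟩) : J)
    rw [OrderIso.apply_symm_apply]
  have e2 : i' = s' ∘ π ∘ p := by
    funext k
    show i' k = (o' (o'.symm (F (o (o.symm ⟨i k, hS k⟩)))) : J)
    rw [OrderIso.apply_symm_apply, OrderIso.apply_symm_apply]
    exact (congrArg Subtype.val (hf k)).symm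
  have e3 : P (s ∘ π ∘ p) ↔ P (s' ∘ π ∘ p) := hord _ _ fun k k' => by
    simp only [Function.comp_apply, hs.lt_iff_lt, hs'.lt_iff_lt]
  rw [e1, e2]
  exact (perm_all hord hex π s hs p).trans e3

end Vale.Agent.P307.Triv
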