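import Vale.Agent.P307.Triv.Spec

/-!
Coordinates of a totally symmetric model.
-/

universe u

open FirstOrder Cardinal Set

namespace Vale.Agent.P307.Triv

/-- Output of part S1: every element of the model `N` is of the form `t b i`, and relations,
equalities and closures depend only on the pattern of the indices. -/
structure TotSym (L : Language.{u, u}) (K : AEC L) (N T J : Type u) [L.Structure N]
    (t : T → J → N) : Prop where
  surj : ∀ x, ∃ b j, t b j = x
  rel : ∀ (n : ℕ) (r : L.Relations n) (b : Fin n → T) (i i' : Fin n → J),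
    (∀ k k', i k = i k' ↔ i' k = i' k') →
    (Language.Structure.RelMap r (fun k => t (b k) (i k)) ↔
      Language.Structure.RelMap r (fun k => t (b k) (i' k)))
  eq : ∀ (a b : T) (i j i' j' : J), (i = j ↔ i' = j') → (t a i = t b j ↔ t a i' = t b j')
  cl : ∀ a, ∃ C : Set T, ∀ i x, cl K x (t a i) ↔ ∃ b ∈ C, t b i = x

/-- Part S1 (total symmetry). -/
def SpecS1 : Prop := ∀ l : Cardinal.{u}, ℵ₀ ≤ l → ∃ μ : Cardinal.{u}, l < μ ∧
  ∀ (L : Language.{u, u}) [L.IsRelational] (K : AEC L), K.IsLS l → Disintegrated K →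
    ∀ κ, μ ≤ κ → K.CategoricalIn κ → ∃ (N T J : Type u) (_ : L.Structure N) (t : T → J → N),
      K.mem N ∧ #N = κ ∧ #T ≤ l ∧ #J = κ ∧ TotSym L K N T J t

namespace S2

variable {L : Language.{u, u}} {K : AEC L}

theorem cl_refl {N : Type u} [L.Structure N] (x : N) : cl K x x := fun _ _ h => h

theorem cl_trans {N : Type u} [L.Structure N] {x y z : N} (h : cl K x y) (h' : cl K y z) :
    cl K x z := fun S hS hz => h S hS (h' S hS hz)

variable {N T J : Type u} [L.Structure N] {t : T → J → N}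

/-- the term `b` is constant -/
def Cst (t : T → J → N) (b : T) : Prop := ∀ i j, t b i = t b j

/-- the base of the model -/
def R1 (t : T → J → N) : Set N := {x | ∃ b, Cst t b ∧ ∃ i, t b i = x}

theorem cst_left [Infinite J] (h : TotSym L K N T J t) {a b : T} {i j : J} (hij : i ≠ j)
    (he : t a i = t b j) : Cst t a := by
  have h1 : ∀ i' j', i' ≠ j' → t a i' = t b j' := fun i' j' hne =>
    (h.eq a b i j i' j' (by simp [hij, hne])).1 he
  classical
  intro i1 i2
  obtain ⟨j', hj'⟩ := Infinite.exists_notMem_finset ({i1, i2} : Finset J)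
  simp only [Finset.mem_insert, Finset.mem_singleton, not_or] at hj'
  rw [h1 i1 j' (Ne.symm hj'.1), h1 i2 j' (Ne.symm hj'.2)]

theorem eq_all (h : TotSym L K N T J t) {a b : T} {i : J} (he : t a i = t b i) (j : J) :
    t a j = t b j := (h.eq a b i i j j (by simp)).1 he

theorem cst_of_mem [Infinite J] (h : TotSym L K N T J t) {a : T} {i : J} (hm : t a i ∈ R1 t) :
    Cst t a := by
  obtain ⟨b, hb, i', he⟩ := hm
  have h1 : t a i = t b i := by rw [hb i i', he]
  intro j j'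
  rw [eq_all h h1 j, eq_all h h1 j', hb j j']

theorem mem_of_cst {a : T} (ha : Cst t a) (i : J) : t a i ∈ R1 t := ⟨a, ha, i, rfl⟩

theorem cl_iff (h : TotSym L K N T J t) {a : T} {i : J} {x : N} (hx : cl K x (t a i)) :
    ∃ b, t b i = x ∧ ∀ j, cl K (t b j) (t a j) := by
  obtain ⟨C, hC⟩ := h.cl a
  obtain ⟨b, hb, he⟩ := (hC i x).1 hx
  exact ⟨b, he, fun j => (hC j _).2 ⟨b, hb, rfl⟩⟩

/-- closures are uniform in the index -/
theorem cl_unif (h : TotSym L K N T J t) {a b : T} {i : J} (hx : cl K (t b i) (t a i)) (j : J) :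
    cl K (t b j) (t a j) := by
  obtain ⟨c, hc, hcj⟩ := cl_iff h hx
  rw [← eq_all h hc j]
  exact hcj j

theorem cl_base [Infinite J] (h : TotSym L K N T J t) {s x : N} (hs : s ∈ R1 t)
    (hx : cl K x s) : x ∈ R1 t := by
  classical
  obtain ⟨b, hb, i, rfl⟩ := hs
  obtain ⟨i', hi'⟩ := Infinite.exists_notMem_finset ({i} : Finset J)
  have hne : i ≠ i' := fun e => hi' (by simp [e])
  obtain ⟨c, hc, hcj⟩ := cl_iff h hx
  have hx' : cl K x (t b i') := by rw [hb i' i]; exact hx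
  obtain ⟨c', hc', -⟩ := cl_iff h hx'
  rw [← hc]
  exact mem_of_cst (cst_left h hne (hc.trans hc'.symm)) i

/-- comparable elements outside the base -/
def comp (K : AEC L) (t : T → J → N) (x y : N) : Prop :=
  x ∉ R1 t ∧ y ∉ R1 t ∧ (cl K x y ∨ cl K y x)

/-- the piece of the element `x₀` -/
abbrev E (K : AEC L) (t : T → J → N) (x₀ : N) : Type u :=
  {x : N // x ∉ R1 t ∧ Relation.ReflTransGen (comp K t) x₀ x}

/-- the base of the coordinates -/
abbrev R (K : AEC L) (t : T → J → N) (x₀ : N) : Type u :=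
  {s : N // s ∈ R1 t ∧ ∃ e : E K t x₀, cl K s e.1}

theorem comp_piece [Infinite J] (h : TotSym L K N T J t) {x y : N} {i : J}
    (hc : comp K t x y) (hx : ∃ b, t b i = x) : ∃ b, t b i = y := by
  obtain ⟨hx1, hy1, hxy⟩ := hc
  obtain ⟨b, rfl⟩ := hx
  rcases hxy with hxy | hxy
  · obtain ⟨c, j, rfl⟩ := h.surj y
    obtain ⟨d, hd, -⟩ := cl_iff h hxy
    by_cases hij : i = j
    · exact ⟨c, by rw [hij]⟩
    · exact absurd (mem_of_cst (cst_left h hij hd.symm) i) hx1
  · obtain ⟨d, hd, -⟩ := cl_iff h hxy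
    exact ⟨d, hd⟩

theorem exists_term [Infinite J] (h : TotSym L K N T J t) {b₀ : T} {i₀ : J}
    (e : E K t (t b₀ i₀)) : ∃ b, t b i₀ = e.1 := by
  obtain ⟨x, hx, hp⟩ := e
  show ∃ b, t b i₀ = x
  clear hx
  induction hp with
  | refl => exact ⟨b₀, rfl⟩
  | tail _ hc ih => exact comp_piece h hc ih

section Model

variable [Infinite J] (h : TotSym L K N T J t) {b₀ : T} {i₀ : J}

/-- the chosen term of an element of the piece -/
noncomputable def β (e : E K t (t b₀ i₀)) : T := (exists_term h e).choose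

theorem β_spec (e : E K t (t b₀ i₀)) : t (β h e) i₀ = e.1 := (exists_term h e).choose_spec

theorem β_ncst (e : E K t (t b₀ i₀)) : ¬ Cst t (β h e) := fun hc => e.2.1 (by
  rw [← β_spec h e]; exact mem_of_cst hc i₀)

/-- the coordinate map -/
noncomputable def φ : R K t (t b₀ i₀) ⊕ (J × E K t (t b₀ i₀)) → N :=
  Sum.elim (fun s => s.1) (fun p => t (β h p.2) p.1)

theorem φ_inr_notMem (p : J × E K t (t b₀ i₀)) : φ h (Sum.inr p) ∉ R1 t := fun hm =>
  β_ncst h p.2 (cst_of_mem h hm)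

theorem φ_inl_mem (s : R K t (t b₀ i₀)) : φ h (Sum.inl s) ∈ R1 t := s.2.1

theorem φ_inj : Function.Injective (φ h (b₀ := b₀) (i₀ := i₀)) := by
  rintro (s | ⟨i, e⟩) (s' | ⟨i', e'⟩) he
  · exact congrArg Sum.inl (Subtype.ext he)
  · exact absurd (he ▸ φ_inl_mem h s) (φ_inr_notMem h (i', e'))
  · exact absurd (he.symm ▸ φ_inl_mem h s') (φ_inr_notMem h (i, e))
  · have he' : t (β h e) i = t (β h e') i' := he
    have hi : i = i' := by
      by_contra hne
      exact β_ncst h e (cst_left h hne he')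
    subst hi
    have h2 : e.1 = e'.1 := by
      rw [← β_spec h e, ← β_spec h e']
      exact eq_all h he' i₀
    rw [Subtype.ext h2]

/-- uniformity: an element whose term is in the piece -/
theorem φ_inr_eq {e : E K t (t b₀ i₀)} {c : T} (hc : t c i₀ = e.1) (i : J) :
    φ h (Sum.inr (i, e)) = t c i :=
  eq_all h ((β_spec h e).trans hc.symm) i

theorem range_closed : Closed (fun x a => cl K x a) (Set.range (φ h (b₀ := b₀) (i₀ := i₀))) := by
  rintro _ ⟨s | ⟨i, e⟩, rfl⟩ x hx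
  · obtain ⟨e, he⟩ := s.2.2
    exact ⟨Sum.inl ⟨x, cl_base h s.2.1 hx, e, cl_trans hx he⟩, rfl⟩
  · obtain ⟨c, rfl, hcj⟩ := cl_iff h (show cl K x (t (β h e) i) from hx)
    have h0 : cl K (t c i₀) e.1 := by rw [← β_spec h e]; exact hcj i₀
    by_cases hc : Cst t c
    · refine ⟨Sum.inl ⟨t c i, mem_of_cst hc i, e, ?_⟩, rfl⟩
      rw [hc i i₀]
      exact h0
    · have hn : t c i₀ ∉ R1 t := fun hm => hc (cst_of_mem h hm)
      have hE : Relation.ReflTransGen (comp K t) (t b₀ i₀) (t c i₀) :=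
        e.2.2.tail ⟨e.2.1, hn, Or.inr h0⟩
      exact ⟨Sum.inr (i, ⟨t c i₀, hn, hE⟩), φ_inr_eq h rfl i⟩

/-- closures between elements of pieces are uniform -/
theorem cl_piece_unif {i : J} {e e' : E K t (t b₀ i₀)}
    (hc : cl K (φ h (Sum.inr (i, e))) (φ h (Sum.inr (i, e')))) (j : J) :
    cl K (φ h (Sum.inr (j, e))) (φ h (Sum.inr (j, e'))) :=
  cl_unif h (i := i) hc j

theorem φ_i₀ (e : E K t (t b₀ i₀)) : φ h (Sum.inr (i₀, e)) = e.1 := β_spec h e

theorem cl_base_unif {s : R K t (t b₀ i₀)} {i : J} {e : E K t (t b₀ i₀)}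
    (hc : cl K (φ h (Sum.inl s)) (φ h (Sum.inr (i, e)))) (j : J) :
    cl K (φ h (Sum.inl s)) (φ h (Sum.inr (j, e))) := by
  obtain ⟨c, hc1, hcj⟩ := cl_iff h (show cl K (φ h (Sum.inl s)) (t (β h e) i) from hc)
  have hcc : Cst t c := cst_of_mem h (i := i) (by rw [hc1]; exact s.2.1)
  rw [← hc1, hcc i j]
  exact hcj j

theorem cl_piece {i j : J} {e e' : E K t (t b₀ i₀)}
    (hc : cl K (φ h (Sum.inr (i, e))) (φ h (Sum.inr (j, e')))) : i = j := by
  obtain ⟨c, hc1, -⟩ := cl_iff h (show cl K (φ h (Sum.inr (i, e))) (t (β h e') j) from hc)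
  by_contra hne
  exact β_ncst h e (cst_left h (b := c) (j := j) hne hc1.symm)

theorem conn_aux (i : J) (e : E K t (t b₀ i₀)) (x : N)
    (hp : Relation.ReflTransGen (comp K t) e.1 x) :
    ∃ (hx : x ∉ R1 t ∧ Relation.ReflTransGen (comp K t) (t b₀ i₀) x),
      Relation.ReflTransGen (fun a b : E K t (t b₀ i₀) =>
        cl K (φ h (Sum.inr (i, a))) (φ h (Sum.inr (i, b))) ∨
        cl K (φ h (Sum.inr (i, b))) (φ h (Sum.inr (i, a)))) e ⟨x, hx⟩ := by
  induction hp with
  | refl => exact ⟨e.2, .refl⟩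
  | @tail y z hyz hc ih =>
    obtain ⟨hy, hpy⟩ := ih
    have hz : z ∉ R1 t ∧ Relation.ReflTransGen (comp K t) (t b₀ i₀) z :=
      ⟨hc.2.1, hy.2.tail hc⟩
    refine ⟨hz, hpy.tail ?_⟩
    rcases hc.2.2 with hc | hc
    · left
      refine cl_piece_unif h (i := i₀) ?_ i
      rw [φ_i₀, φ_i₀]; exact hc
    · right
      refine cl_piece_unif h (i := i₀) ?_ i
      rw [φ_i₀, φ_i₀]; exact hc

omit [Infinite J] in
theorem comp_symm {x y : N} (hc : comp K t x y) : comp K t y x := ⟨hc.2.1, hc.1, hc.2.2.symm⟩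

omit [Infinite J] in
theorem rtg_symm {x y : N} (hp : Relation.ReflTransGen (comp K t) x y) :
    Relation.ReflTransGen (comp K t) y x := by
  induction hp with
  | refl => exact .refl
  | tail _ hc ih => exact (Relation.ReflTransGen.single (comp_symm hc)).trans ih

theorem conn (i : J) (e e' : E K t (t b₀ i₀)) :
    Relation.ReflTransGen (fun a b : E K t (t b₀ i₀) =>
        cl K (φ h (Sum.inr (i, a))) (φ h (Sum.inr (i, b))) ∨
        cl K (φ h (Sum.inr (i, b))) (φ h (Sum.inr (i, a)))) e e' := by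
  have h1 : Relation.ReflTransGen (comp K t) e.1 (t b₀ i₀) :=
    rtg_symm e.2.2
  obtain ⟨hx, hp⟩ := conn_aux h i e e'.1 (h1.trans e'.2.2)
  exact hp

/-- the pulled back structure -/
@[instance_reducible] noncomputable def str [L.IsRelational] : L.Structure (R K t (t b₀ i₀) ⊕ (J × E K t (t b₀ i₀))) where
  funMap f _ := isEmptyElim f
  RelMap r v := Language.Structure.RelMap r (fun k => φ h (v k))

theorem le_str [L.IsRelational] (hA : SpecA1.{u}) {l : Cardinal.{u}} (hl : K.IsLS l)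
    (hD : Disintegrated K) (hN : K.mem N) (hb : ¬ Cst t b₀) :
    letI := str h (b₀ := b₀) (i₀ := i₀)
    K.mem (R K t (t b₀ i₀) ⊕ (J × E K t (t b₀ i₀))) ∧
      ∀ x y : R K t (t b₀ i₀) ⊕ (J × E K t (t b₀ i₀)), cl K (φ h x) (φ h y) ↔ cl K x y := by
  let := str h (b₀ := b₀) (i₀ := i₀)
  obtain ⟨hA1, hA2⟩ := hA L K l hl hD
  have x0 : E K t (t b₀ i₀) := ⟨t b₀ i₀, fun hm => hb (cst_of_mem h hm), .refl⟩
  obtain ⟨S, hS, hSr⟩ := (hA1 N hN).2 (Set.range (φ h (b₀ := b₀) (i₀ := i₀)))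
    ⟨_, Sum.inr (i₀, x0), rfl⟩ (range_closed h)
  have hmem : ∀ x, φ h (b₀ := b₀) (i₀ := i₀) x ∈ S := fun x => by
    rw [← SetLike.mem_coe, hSr]; exact ⟨x, rfl⟩
  let e : (R K t (t b₀ i₀) ⊕ (J × E K t (t b₀ i₀))) ≃[L] S :=
    { toEquiv := Equiv.ofBijective (fun x => ⟨φ h x, hmem x⟩) ⟨fun x y hxy =>
          φ_inj h (congrArg Subtype.val hxy), fun y => by
            have hy : y.1 ∈ Set.range (φ h (b₀ := b₀) (i₀ := i₀)) := by
              rw [← hSr]; exact y.2
            obtain ⟨x, hx⟩ := hy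
            exact ⟨x, Subtype.ext hx⟩⟩
      map_fun' := fun f _ => isEmptyElim f
      map_rel' := fun r v => Iff.rfl }
  have hM : K.mem (R K t (t b₀ i₀) ⊕ (J × E K t (t b₀ i₀))) :=
    K.mem_iso e.symm (K.mem_of_le S hS).1
  refine ⟨hM, fun x y => ?_⟩
  have hc := hA2 _ N hM hN ⊤ S (e.comp Language.Substructure.topEquiv) (K.le_refl hM) hS
    (φ h) (fun a => rfl)
  exact hc.cl y trivial x trivial

theorem symM [L.IsRelational]
    (hcl : letI := str h (b₀ := b₀) (i₀ := i₀)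
      ∀ x y : R K t (t b₀ i₀) ⊕ (J × E K t (t b₀ i₀)), cl K (φ h x) (φ h y) ↔ cl K x y) :
    letI := str h (b₀ := b₀) (i₀ := i₀)
    SymM L (R K t (t b₀ i₀)) J (E K t (t b₀ i₀)) (fun x a => cl K x a) := by
  let := str h (b₀ := b₀) (i₀ := i₀)
  refine ⟨?_, fun x => cl_refl x, fun x y z hx hy => cl_trans hx hy, ?_, ?_, ?_, ?_, ?_, ?_⟩
  · intro n r v σ hσ
    classical
    -- a fresh index
    obtain ⟨j, hj⟩ := Infinite.exists_notMem_finset
      ((Finset.univ.image fun k : Fin n => (Sum.elim (fun _ => i₀) (fun p => p.1) (v k) : J)) ∪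
        (Finset.univ.image fun k : Fin n =>
          (Sum.elim (fun _ => i₀) (fun p => σ p.1) (v k) : J)))
    simp only [Finset.mem_union, Finset.mem_image, Finset.mem_univ, true_and, not_or,
      not_exists] at hj
    have hpt : ∀ k : Fin n, ∃ b : T, ∃ i i' : J, φ h (v k) = t b i ∧ φ h (mv σ (v k)) = t b i' ∧
        ((∃ s, v k = Sum.inl s ∧ i = j ∧ i' = j) ∨
          ∃ p e, v k = Sum.inr (p, e) ∧ i = p ∧ i' = σ p) := by
      intro k
      rcases hk : v k with s | ⟨p, e⟩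
      · obtain ⟨b, hb, i, hbi⟩ := s.2.1
        refine ⟨b, j, j, ?_, ?_, Or.inl ⟨s, rfl, rfl, rfl⟩⟩
        · rw [hb j i, hbi]; rfl
        · rw [hb j i, hbi]; rfl
      · exact ⟨β h e, p, σ p, rfl, rfl, Or.inr ⟨p, e, rfl, rfl, rfl⟩⟩
    choose b i i' h1 h2 h3 using hpt
    have key := h.rel n r b i i' (by
      intro k k'
      rcases h3 k with ⟨s, hs, e1, e2⟩ | ⟨p, e, hp, e1, e2⟩ <;>
        rcases h3 k' with ⟨s', hs', e1', e2'⟩ | ⟨p', e', hp', e1', e2'⟩
      · rw [e1, e2, e1', e2']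
      · rw [e1, e2, e1', e2']
        have a1 := hj.1 k'
        have a2 := hj.2 k'
        rw [hp'] at a1 a2
        exact ⟨fun hh => absurd hh.symm a1, fun hh => absurd hh.symm a2⟩
      · rw [e1, e2, e1', e2']
        have a1 := hj.1 k
        have a2 := hj.2 k
        rw [hp] at a1 a2
        exact ⟨fun hh => absurd hh a1, fun hh => absurd hh a2⟩
      · rw [e1, e2, e1', e2']
        exact ⟨fun hh => by rw [hh], fun hh => hσ k k' p p' e e' hp hp' hh⟩)
    have g1 : (fun k => t (b k) (i k)) = fun k => φ h (v k) := funext fun k => (h1 k).symm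
    have g2 : (fun k => t (b k) (i' k)) = fun k => φ h (mv σ (v k)) :=
      funext fun k => (h2 k).symm
    rw [g1, g2] at key
    exact key.symm
  · intro x s hx
    have hx' := cl_base h s.2.1 ((hcl _ _).2 hx)
    rcases x with s' | p
    · exact ⟨s', rfl⟩
    · exact absurd hx' (φ_inr_notMem h p)
  · intro i e j e' hx
    exact cl_piece h ((hcl _ _).2 hx)
  · intro s i j e hx
    exact (hcl _ _).1 (cl_base_unif h ((hcl _ _).2 hx) j)
  · intro i j e e' hx
    exact (hcl _ _).1 (cl_piece_unif h ((hcl _ _).2 hx) j)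
  · intro i e e'
    have := conn h i e e'
    refine Relation.ReflTransGen.mono ?_ _ _ this
    rintro a b (hc | hc)
    · exact Or.inl ((hcl _ _).1 hc)
    · exact Or.inr ((hcl _ _).1 hc)
  · intro s
    obtain ⟨e, he⟩ := s.2.2
    refine ⟨e, fun i => (hcl _ _).1 (cl_base_unif h (i := i₀) ?_ i)⟩
    rw [φ_i₀]
    exact he

include h in
theorem card_E : #(E K t (t b₀ i₀)) ≤ #T :=
  Cardinal.mk_le_of_injective (f := β h) fun e e' he => Subtype.ext (by
    rw [← β_spec h e, ← β_spec h e', he])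

omit [Infinite J] in
theorem card_R1 [Nonempty J] : #(R1 t) ≤ #T := by
  have hch : ∀ s : R1 t, ∃ b, Cst t b ∧ ∃ i, t b i = s.1 := fun s => s.2
  choose f hf using hch
  refine Cardinal.mk_le_of_injective (f := f) fun s s' he => Subtype.ext ?_
  obtain ⟨i, hi⟩ := (hf s).2
  obtain ⟨i', hi'⟩ := (hf s').2
  rw [← hi, ← hi', he, (hf s').1 i i']

omit [Infinite J] in
theorem card_R [Nonempty J] : #(R K t (t b₀ i₀)) ≤ #T :=
  (Cardinal.mk_le_of_injective (f := fun s : R K t (t b₀ i₀) => (⟨s.1, s.2.1⟩ : R1 t))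
    fun _ _ he => Subtype.ext (congrArg (fun z : R1 t => z.1) he)).trans card_R1

end Model

theorem specS_of (hA : SpecA1.{u}) (hS1 : SpecS1.{u}) : SpecS.{u} := by
  intro l hl
  obtain ⟨μ, hμ, H⟩ := hS1 l hl
  refine ⟨μ, hμ, fun L _ K hLS hD κ hκ hcat => ?_⟩
  obtain ⟨N, T, J, _, t, hN, hNc, hT, hJ, h⟩ := H L K hLS hD κ hκ hcat
  have hlk : l < κ := hμ.trans_le hκ
  have : Infinite J := by
    rw [Cardinal.infinite_iff, hJ]
    exact hl.trans hlk.le
  have hb : ∃ b, ¬ Cst t b := by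
    by_contra hcon
    push Not at hcon
    have hall : (Set.univ : Set N) ⊆ R1 t := fun x _ => by
      obtain ⟨b, j, rfl⟩ := h.surj x
      exact mem_of_cst (hcon b) j
    have h1 : #N ≤ #(R1 t) := by
      rw [← Cardinal.mk_univ]
      exact Cardinal.mk_le_mk_of_subset hall
    exact absurd (h1.trans (card_R1.trans hT)) (by rw [hNc]; exact not_le.2 hlk)
  obtain ⟨b₀, hb₀⟩ := hb
  have i₀ : J := Classical.arbitrary J
  obtain ⟨hM, hcl⟩ := le_str h (i₀ := i₀) hA hLS hD hN hb₀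
  refine ⟨R K t (t b₀ i₀), J, E K t (t b₀ i₀), str h (b₀ := b₀) (i₀ := i₀), hM,
    card_R.trans hT, (card_E h).trans hT,
    ⟨⟨t b₀ i₀, fun hm => hb₀ (cst_of_mem h hm), .refl⟩⟩, hJ, symM h hcl⟩

end S2

theorem specS_of : SpecA1.{u} → SpecS1.{u} → SpecS.{u} := S2.specS_of

end Vale.Agent.P307.Triv
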