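import Vale.Agent.P307.Triv.Defs

/-!
Interfaces of the proof for classes with disintegrated closures (propositions only).
-/

universe u

open FirstOrder Cardinal Set

namespace Vale.Agent.P307.Triv

/-- `h` is a local coordinate map on the base and on the pieces with index in `J₁`;
`c x = none` on the base and `c x = some j` on the piece `j`. -/
structure Loc (L : Language.{u, u}) (R I E : Type u) [L.Structure (R ⊕ (I × E))] {N J : Type u}
    [L.Structure N] (c : N → Option J) (J₁ : Set J) (h : N → R ⊕ (I × E)) : Prop where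
  rel : ∀ (n : ℕ) (r : L.Relations n) (v : Fin n → N),
    (∀ k, c (v k) = none ∨ ∃ j ∈ J₁, c (v k) = some j) →
    (Language.Structure.RelMap r (fun k => h (v k)) ↔ Language.Structure.RelMap r v)
  base : ∀ x, c x = none → ∃ s, h x = Sum.inl s
  base_inj : ∀ x y, c x = none → c y = none → h x = h y → x = y
  base_surj : ∀ s, ∃ x, c x = none ∧ h x = Sum.inl s
  piece : ∃ k : J → I, Set.InjOn k J₁ ∧ ∀ j ∈ J₁,
    (∀ x, c x = some j → ∃ e, h x = Sum.inr (k j, e)) ∧
    (∀ x y, c x = some j → c y = some j → h x = h y → x = y) ∧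
    ∀ e, ∃ x, c x = some j ∧ h x = Sum.inr (k j, e)

/-- Part G (globalization). -/
def SpecG : Prop := ∀ (L : Language.{u, u}) (R I E N J : Type u) [L.Structure (R ⊕ (I × E))]
  [L.Structure N] (l : Cardinal.{u}) (ρ : R ⊕ (I × E) → R ⊕ (I × E) → Prop),
  ℵ₀ ≤ l → SymM L R I E ρ → #E ≤ l → ℵ₀ ≤ #I → Order.succ (2 ^ l) ≤ #J →
  ∀ c : N → Option J, (∀ J₁ : Set J, #J₁ ≤ Order.succ (2 ^ l) → ∃ h, Loc L R I E c J₁ h) →
    ∃ ζ : N ≃ R ⊕ (J × E), Coord L R I E N J ζ

/-- Part C (components and local coordinates). -/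
def SpecC : Prop := ∀ (L : Language.{u, u}) (R I E N : Type u) [L.Structure (R ⊕ (I × E))]
  [L.Structure N] (l : Cardinal.{u}) (ρ : R ⊕ (I × E) → R ⊕ (I × E) → Prop) (ρN : N → N → Prop),
  ℵ₀ ≤ l → SymM L R I E ρ → #R ≤ l → #E ≤ l → Nonempty E → Order.succ (2 ^ l) < #I →
  (∀ Y : Set (R ⊕ (I × E)), Closed ρ Y → #Y = #I → ∃ g, CEmb L ρ ρ Y g ∧ g '' Y = Set.univ) →
  (∀ x, ρN x x) → (∀ x y z, ρN x y → ρN y z → ρN x z) → (∀ a, #{x | ρN x a} ≤ l) →
  Order.succ (2 ^ l) < #N →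
  (∀ P : Set N, Closed ρN P → #P ≤ Order.succ (2 ^ l) → ∃ f, CEmb L ρN ρ P f) →
  ∃ (J : Type u) (c : N → Option J), Order.succ (2 ^ l) ≤ #J ∧
    ∀ J₁ : Set J, #J₁ ≤ Order.succ (2 ^ l) → ∃ h, Loc L R I E c J₁ h

/-- Part S (symmetry of the model of cardinality `κ`). -/
def SpecS : Prop := ∀ l : Cardinal.{u}, ℵ₀ ≤ l → ∃ μ : Cardinal.{u}, l < μ ∧
  ∀ (L : Language.{u, u}) [L.IsRelational] (K : AEC L), K.IsLS l → Disintegrated K →
    ∀ κ, μ ≤ κ → K.CategoricalIn κ → ∃ (R I E : Type u) (_ : L.Structure (R ⊕ (I × E))),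
      K.mem (R ⊕ (I × E)) ∧ #R ≤ l ∧ #E ≤ l ∧ Nonempty E ∧ #I = κ ∧
      SymM L R I E (fun x a => cl K x a)

/-- Part A1 (closed sets): the basic facts about closures. -/
def SpecA1 : Prop := ∀ (L : Language.{u, u}) [L.IsRelational] (K : AEC L) (l : Cardinal.{u}),
  K.IsLS l → Disintegrated K →
  (∀ (N : Type u) [L.Structure N], K.mem N → (∀ a : N, #{x : N | cl K x a} ≤ l) ∧
    ∀ X : Set N, X.Nonempty → Closed (fun x a => cl K x a) X →
      ∃ S : L.Substructure N, K.le S ∧ (S : Set N) = X) ∧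
  (∀ (N N' : Type u) [L.Structure N] [L.Structure N'], K.mem N → K.mem N' →
    ∀ (S : L.Substructure N) (S' : L.Substructure N') (e : S ≃[L] S'), K.le S → K.le S' →
    ∀ f : N → N', (∀ a : S, f a = e a) →
      CEmb L (fun x a => cl K x a) (fun x a => cl K x a) (S : Set N) f)

/-- Part A2 (small closed subsets of large members embed in the model of cardinality `κ`). -/
def SpecA2 : Prop := ∀ l lam : Cardinal.{u}, ℵ₀ ≤ l → l ≤ lam → ∃ μ : Cardinal.{u}, lam < μ ∧
  ∀ (L : Language.{u, u}) [L.IsRelational] (K : AEC L), K.IsLS l → Disintegrated K →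
    (∃ (N : Type u) (_ : L.Structure N), K.mem N ∧ μ ≤ #N) →
      (∀ κ, lam ≤ κ → ∃ (N : Type u) (_ : L.Structure N), K.mem N ∧ #N = κ) ∧
    ∀ (N M : Type u) [L.Structure N] [L.Structure M], K.mem N → K.mem M → μ ≤ #N → lam ≤ #M →
      K.CategoricalIn #M → ∀ P : Set N, Closed (fun x a => cl K x a) P → #P ≤ lam →
      ∃ f : N → M, CEmb L (fun x a => cl K x a) (fun x a => cl K x a) P f

end Vale.Agent.P307.Triv
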