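import Vale.Agent.P307.Triv.S2
import Vale.Agent.P307.Bdl.B1

/-!
Interface between the construction of Ehrenfeucht-Mostowski models and the counting of types.
-/

universe u

open FirstOrder Cardinal Set

namespace Vale.Agent.P307.Triv

/-- Relations and equalities between the elements `t b i` and between the elements `t' b i'` depend
in the same way on the order pattern of the indices. -/
structure SameTp (L : Language.{u, u}) {N N' T I J : Type u} [L.Structure N] [L.Structure N']
    [LinearOrder I] [LinearOrder J] (t : T → I → N) (t' : T → J → N') : Prop where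
  rel : ∀ (n : ℕ) (r : L.Relations n) (b : Fin n → T) (i : Fin n → I) (j : Fin n → J),
    (∀ k k', i k < i k' ↔ j k < j k') →
    (Language.Structure.RelMap r (fun k => t (b k) (i k)) ↔
      Language.Structure.RelMap r (fun k => t' (b k) (j k)))
  eq : ∀ (b : Fin 2 → T) (i : Fin 2 → I) (j : Fin 2 → J), (∀ k k', i k < i k' ↔ j k < j k') →
    (t (b 0) (i 0) = t (b 1) (i 1) ↔ t' (b 0) (j 0) = t' (b 1) (j 1))

/-- Part E (Ehrenfeucht-Mostowski models which are unions of closures of single indices). -/
def SpecE : Prop := ∀ (l : Cardinal.{u}) (L : Language.{u, u}) [L.IsRelational] (K : AEC L),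
  K.IsLS l → Disintegrated K → ∀ κ, hanf (2 ^ l) ≤ κ → l < κ →
    (∃ (M : Type u) (_ : L.Structure M), K.mem M ∧ #M = κ) →
    ∃ T : Type u, #T ≤ l ∧ ∀ (I J : Type u) [LinearOrder I] [LinearOrder J], #I = κ → #J = κ →
      ∃ (N N' : Type u) (_ : L.Structure N) (_ : L.Structure N') (t : T → I → N)
        (t' : T → J → N'), K.mem N ∧ K.mem N' ∧ #N = κ ∧ #N' = κ ∧
        SameTp L t t ∧ SameTp L t t' ∧ SameTp L t' t' ∧
        (∀ x, ∃ b i, t b i = x) ∧ (∀ x, ∃ b i, t' b i = x) ∧
        ∀ a, ∃ C : Set T, ∀ i x, cl K x (t' a i) ↔ ∃ b ∈ C, t' b i = x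

end Vale.Agent.P307.Triv
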