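import Vale.Agent.P307.Triv.SymC

/-!
Part S: symmetry of the model of the categoricity cardinal.
-/

universe u

open FirstOrder Cardinal Set Language Structure

namespace Vale.Agent.P307.Triv

open Vale.Agent.P307.H67

theorem specS (hA1 : SpecA1.{u}) : SpecS.{u} := by
  classical
  intro l hl
  have h2l : ℵ₀ ≤ 2 ^ l := hl.trans (cantor l).le
  refine ⟨max (hanf (2 ^ l)) ((2 : Cardinal.{u}) ^ ((2 : Cardinal.{u}) ^ l)), ((cantor l).trans (cantor _)).trans_le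
    (le_max_right _ _), ?_⟩
  intro L _ K hK hD κ hκ hcat
  have hκ1 : hanf (2 ^ l) ≤ κ := (le_max_left _ _).trans hκ
  have hκ2 : (2 : Cardinal.{u}) ^ ((2 : Cardinal.{u}) ^ l) ≤ κ := (le_max_right _ _).trans hκ
  have hlκ : l ≤ κ := ((cantor l).trans (cantor _)).le.trans hκ2
  have hκ0 : ℵ₀ ≤ κ := hl.trans hlκ
  obtain ⟨⟨M, _, hM, hMκ⟩, -⟩ := id hcat
  let Λ : Type u := l.out
  have hΛ : #Λ = l := mk_out l
  obtain ⟨_, a, main⟩ := exists_emU hA1 hK hD hlκ hM (by rw [hMκ]; exact hκ1) hΛ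
  have hL₁ : (L.sum (LU Λ)).card ≤ l := card_LU_le hl hK.2.1 hΛ.le
  obtain ⟨J, _, D, Y, hJ, hDc, hY, hsep⟩ := exists_order h2l
  let I₁ : Type u := κ.ord.ToType
  have hI₁ : #I₁ = κ := by simp [I₁]
  let I₂ : Type u := J ⊕ₗ κ.ord.ToType
  have hI₂ : #I₂ = κ := by
    have h1 : #I₂ = #(J ⊕ κ.ord.ToType) := rfl
    rw [h1, mk_sum, lift_id, lift_id, mk_toType, card_ord]
    exact add_eq_right hκ0 (hJ.trans hκ2)
  obtain ⟨N₁, _, _, x1, e₁, he₁, hN₁, hc₁, hinj₁, hev₁, hcl₁⟩ := main I₁ hI₁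
  obtain ⟨N₂, _, _, x2, e₂, he₂, hN₂, hc₂, hinj₂, hev₂, hcl₂⟩ := main I₂ hI₂
  obtain ⟨f⟩ := hcat.2 N₂ N₁ hN₂ hN₁ hc₂ hc₁
  have hlt : ∀ p p' : J, p < p' → (Sum.inlₗ p : I₂) < Sum.inlₗ p' := fun p p' h =>
    Sum.Lex.inl_lt_inl_iff.2 h
  have hinl : Function.Injective (Sum.inlₗ : J → I₂) := fun p p' h => by
    rcases lt_trichotomy p p' with hw | hw | hw
    · exact absurd h (hlt _ _ hw).ne
    · exact hw
    · exact absurd h (hlt _ _ hw).ne'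
  have hlt' : ∀ p p' : J, (Sum.inlₗ p : I₂) < Sum.inlₗ p' → p < p' := fun p p' h => by
    rcases lt_trichotomy p p' with hw | hw | hw
    · exact hw
    · rw [hw] at h
      exact absurd h (lt_irrefl _)
    · exact absurd h (hlt _ _ hw).not_gt
  let D₂ : Set I₂ := (Sum.inlₗ : J → I₂) '' D
  let Y₂ : Set I₂ := (Sum.inlₗ : J → I₂) '' Y
  have hD₂ : #D₂ ≤ 2 ^ l := mk_image_le.trans hDc
  have hY₂ : 2 ^ l < #Y₂ := by
    have h1 : #Y₂ = #Y := mk_image_eq hinl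
    rw [h1]
    exact hY
  obtain ⟨_, ⟨y, hy, rfl⟩, _, ⟨y', hy', rfl⟩, hyy, hsame⟩ :=
    exists_same_type (LHom.sumInl : L →ᴸ L.sum (LU Λ)) he₁ hev₁ hl hL₁ f D₂ Y₂ hD₂ hY₂
  obtain ⟨lo, mi, hi, h1, h2, h3, h4⟩ := hsep y hy y' hy' (hlt' _ _ hyy)
  have hm := movable (LHom.sumInl : L →ᴸ L.sum (LU Λ)) he₁ he₂ hsame
    (lo := fun n => Sum.inlₗ (lo n)) (mi := fun n => Sum.inlₗ (mi n))
    (hi := fun n => Sum.inlₗ (hi n)) (fun n n' h => hlt _ _ (h1 h)) (fun n n' h => hlt _ _ (h2 h))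
    (fun n n' h => hlt _ _ (h3 h)) (fun n => ⟨⟨⟨_, (h4 n).1.1, rfl⟩, ⟨_, (h4 n).1.2.1, rfl⟩,
      ⟨_, (h4 n).1.2.2, rfl⟩⟩, hlt _ _ (h4 n).2.1, hlt _ _ (h4 n).2.2.1,
      hlt _ _ (h4 n).2.2.2.1, hlt _ _ (h4 n).2.2.2.2⟩)
  have hinf : Infinite I₁ := infinite_iff.2 (by rw [hI₁]; exact hκ0)
  obtain ⟨R, E, strW, g1, g2, g3, g4, g5⟩ := coords hA1 hK hD hΛ hN₁ e₁ hinj₁ hcl₁ hm.sym
  exact ⟨R, I₁, E, strW, g1, g2, g3, g4, hI₁, g5⟩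

end Vale.Agent.P307.Triv
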