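import Vale.Agent.P307.H67.Chain

/-!
Total symmetry of Ehrenfeucht-Mostowski sequences in categorical classes (unary terms).
-/

universe u

open FirstOrder Cardinal Set Language Structure

namespace Vale.Agent.P307.Triv

open Vale.Agent.P307.H67

/-- a linear order with a small set which separates many points, with room -/
theorem exists_order {χ : Cardinal.{u}} (hχ : ℵ₀ ≤ χ) :
    ∃ (J : Type u) (_ : LinearOrder J) (D Y : Set J), #J ≤ 2 ^ χ ∧ #D ≤ χ ∧ χ < #Y ∧
      ∀ y ∈ Y, ∀ y' ∈ Y, y < y' → ∃ lo mi hi : ℕ → J, StrictMono lo ∧ StrictMono mi ∧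
        StrictMono hi ∧ ∀ n, (lo n ∈ D ∧ mi n ∈ D ∧ hi n ∈ D) ∧
          lo n < y ∧ y < mi n ∧ mi n < y' ∧ y' < hi n := by
  classical
  obtain ⟨J₀, ordJ, D₀, Y₀, hJ, hD, hY, hYD, hsep⟩ := exists_many_cuts hχ
  let B : Type u := WithBot (WithTop J₀)
  have hB : #B ≤ 2 ^ χ := by
    have h1 : #B = #(Option (Option J₀)) := rfl
    rw [h1, mk_option, mk_option]
    have h2 : ℵ₀ ≤ 2 ^ χ := hχ.trans (cantor χ).le
    exact add_le_of_le h2 (add_le_of_le h2 hJ (one_le_aleph0.trans h2)) (one_le_aleph0.trans h2)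
  let em : J₀ → B := fun x => ((x : WithTop J₀) : WithBot (WithTop J₀))
  let top : B := ((⊤ : WithTop J₀) : WithBot (WithTop J₀))
  have hem : ∀ x y : J₀, x < y → em x < em y := fun x y h =>
    WithBot.coe_lt_coe.2 (WithTop.coe_lt_coe.2 h)
  have hemt : ∀ x : J₀, em x < top := fun x => WithBot.coe_lt_coe.2 (WithTop.coe_lt_top x)
  have hemb : ∀ x : J₀, (⊥ : B) < em x := fun x => WithBot.bot_lt_coe _
  let J : Type u := Lex (B × ℕ)
  let pt : B → ℕ → J := fun b n => toLex (b, n)
  have hlt1 : ∀ b b' n n', b < b' → pt b n < pt b' n' := fun b b' n n' h =>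
    (Prod.Lex.lt_iff).2 (Or.inl h)
  have hlt2 : ∀ b n n', n < n' → pt b n < pt b n' := fun b n n' h =>
    (Prod.Lex.lt_iff).2 (Or.inr ⟨rfl, h⟩)
  let D₁ : Option (Option D₀) → B := fun o => o.elim ⊥ (fun o => o.elim top (fun d => em d.1))
  let D : Set J := range (fun q : Option (Option D₀) × ℕ => pt (D₁ q.1) q.2)
  have hDD : #D ≤ χ := by
    refine mk_range_le.trans ?_
    rw [mk_prod, mk_option, mk_option, lift_uzero]
    have h1 : #D₀ + 1 + 1 ≤ χ :=
      add_le_of_le hχ (add_le_of_le hχ hD (one_le_aleph0.trans hχ)) (one_le_aleph0.trans hχ)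
    exact (mul_le_mul' (b := χ) (d := χ) h1 (by simpa using hχ)).trans (mul_eq_self hχ).le
  let Y : Set J := range (fun y : Y₀ => pt (em y.1) 0)
  refine ⟨J, inferInstance, D, Y, ?_, hDD, ?_, ?_⟩
  · have h1 : #J = #(B × ℕ) := rfl
    have h2 : ℵ₀ ≤ 2 ^ χ := hχ.trans (cantor χ).le
    rw [h1, mk_prod, lift_uzero]
    exact (mul_le_mul' (b := 2 ^ χ) (d := 2 ^ χ) hB (by simpa using h2)).trans
      (mul_eq_self h2).le
  · have hinj : Function.Injective (fun y : Y₀ => pt (em y.1) 0) := by
      intro y y' h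
      rcases lt_trichotomy y.1 y'.1 with hw | hw | hw
      · exact absurd h (hlt1 _ _ 0 0 (hem _ _ hw)).ne
      · exact Subtype.ext hw
      · exact absurd h (hlt1 _ _ 0 0 (hem _ _ hw)).ne'
    change χ < #(range (fun y : Y₀ => pt (em y.1) 0))
    rw [mk_range_eq _ hinj]
    exact hY
  · rintro _ ⟨y, rfl⟩ _ ⟨y', rfl⟩ hyy'
    have hyy : y.1 < y'.1 := by
      rcases lt_trichotomy y.1 y'.1 with hw | hw | hw
      · exact hw
      · have : pt (em y.1) 0 = pt (em y'.1) 0 := by rw [hw]
        exact absurd hyy' (by simp only [this, lt_self_iff_false, not_false_eq_true])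
      · exact absurd hyy' (hlt1 _ _ 0 0 (hem _ _ hw)).not_gt
    obtain ⟨d, hd, h1, h2⟩ := hsep y.1 y.2 y'.1 y'.2 hyy
    refine ⟨fun n => pt ⊥ n, fun n => pt (em d) n, fun n => pt top n,
      fun n n' h => hlt2 _ _ _ h, fun n n' h => hlt2 _ _ _ h, fun n n' h => hlt2 _ _ _ h,
      fun n => ⟨⟨⟨(none, n), rfl⟩, ⟨(some (some ⟨d, hd⟩), n), rfl⟩, ⟨(some none, n), rfl⟩⟩,
        hlt1 _ _ _ _ (hemb _), hlt1 _ _ _ _ (hem _ _ h1), hlt1 _ _ _ _ (hem _ _ h2),
        hlt1 _ _ _ _ (hemt _)⟩⟩

/-- the value of a unary term -/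
def ev {L₁ : Language.{u, u}} {N I : Type u} [L₁.Structure N] (e : I → N)
    (t : L₁.Term (Fin 1)) (i : I) : N := t.realize (fun _ => e i)

/-- atomic conditions on `n` elements -/
inductive Atm (L : Language.{u, u}) (n : ℕ) : Type u
  | rel (r : L.Relations n)
  | eq (p q : Fin n)

/-- validity of an atomic condition -/
def Atm.Holds {L : Language.{u, u}} {n : ℕ} {N : Type u} [L.Structure N] :
    Atm L n → (Fin n → N) → Prop
  | .rel r, v => RelMap r v
  | .eq p q, v => v p = v q

section

variable {L L₁ : Language.{u, u}} {n : ℕ} {M N N' : Type u} [L.Structure N] [L.Structure N']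

theorem Atm.holds_iso (f : N ≃[L] N') (A : Atm L n) (v : Fin n → N) :
    A.Holds (fun k => f (v k)) ↔ A.Holds v := by
  cases A with
  | rel r => exact f.map_rel r v
  | eq p q => exact f.injective.eq_iff

variable [L₁.Structure M] [L₁.Structure N] [L₁.Structure N'] (φ : L →ᴸ L₁) [φ.IsExpansionOn N]
  [φ.IsExpansionOn N']

include φ in
theorem Atm.holds_atEq {Q : Type*} {x : Q → N} {y : Q → N'} (h : AtEq L₁ x y) (A : Atm L n)
    (τ : Fin n → L₁.Term Q) :
    A.Holds (fun k => (τ k).realize x) ↔ A.Holds (fun k => (τ k).realize y) := by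
  cases A with
  | rel r =>
    have h1 := h.2 n (φ.onRelation r) τ
    rw [LHom.map_onRelation, LHom.map_onRelation] at h1
    exact h1
  | eq p q => exact h.1 (τ p) (τ q)

include φ in
theorem Atm.pattern {a : ∀ n : ℕ, Fin n → M} {I I' : Type u} [LinearOrder I] [LinearOrder I']
    {e : I → N} {e' : I' → N'} (he : IsEM L₁ a e) (he' : IsEM L₁ a e') (w : Fin n → I)
    (w' : Fin n → I') (hw : ∀ p q, w p ≤ w q ↔ w' p ≤ w' q) (A : Atm L n)
    (t : Fin n → L₁.Term (Fin 1)) :
    A.Holds (fun k => ev e (t k) (w k)) ↔ A.Holds (fun k => ev e' (t k) (w' k)) := by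
  have h := A.holds_atEq φ (IsEM.pattern he he' w w' hw) (fun k => (t k).relabel (fun _ => k))
  simp only [Term.realize_relabel] at h
  exact h

end

section

variable {L L₁ : Language.{u, u}} {M N₁ N₂ : Type u} [L₁.Structure M] [L.Structure N₁]
  [L.Structure N₂] [L₁.Structure N₁] [L₁.Structure N₂] (φ : L →ᴸ L₁) [φ.IsExpansionOn N₁]
  [φ.IsExpansionOn N₂]

include φ in
/-- Two points with the same type over a small set of indices. -/
theorem exists_same_type {a : ∀ n : ℕ, Fin n → M} {I₁ I₂ : Type u} [LinearOrder I₁]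
    [WellFoundedLT I₁] [LinearOrder I₂] {e₁ : I₁ → N₁} {e₂ : I₂ → N₂} (he₁ : IsEM L₁ a e₁)
    (hev : ∀ z : N₁, ∃ (s : L₁.Term (Fin 1)) (i : I₁), ev e₁ s i = z) {l : Cardinal.{u}}
    (hl : ℵ₀ ≤ l) (hL₁ : L₁.card ≤ l) (f : N₂ ≃[L] N₁) (D Y : Set I₂) (hD : #D ≤ 2 ^ l)
    (hY : 2 ^ l < #Y) :
    ∃ y ∈ Y, ∃ y' ∈ Y, y < y' ∧ ∀ (n : ℕ) (A : Atm L n) (t : Fin n → L₁.Term (Fin 1))
      (g g' : Fin n → I₂), (∀ k, (g k ∈ D ∧ g' k = g k) ∨ (g k = y ∧ g' k = y')) →
      (A.Holds (fun k => ev e₂ (t k) (g k)) ↔ A.Holds (fun k => ev e₂ (t k) (g' k))) := by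
  classical
  let T : Type u := L₁.Term (Fin 1)
  have hT : #T ≤ l := mk_term_fin_le hl hL₁ 1
  have h2l : ℵ₀ ≤ 2 ^ l := hl.trans (cantor l).le
  choose s w hsw using hev
  let V : Set I₁ := range (fun p : D × T => w (f (ev e₂ p.2 p.1.1)))
  have hV : #V ≤ 2 ^ l := by
    refine mk_range_le.trans ?_
    rw [mk_prod, lift_id, lift_id]
    exact (mul_le_mul' (b := 2 ^ l) (d := 2 ^ l) hD (hT.trans (cantor l).le)).trans
      (mul_eq_self h2l).le
  let Code : Type u := (T → T) × (T → Option V × Option V) × (T → T → Prop)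
  let code : Y → Code := fun y => (fun t => s (f (ev e₂ t y.1)),
    fun t => cutCode V (w (f (ev e₂ t y.1))),
    fun t t' => w (f (ev e₂ t y.1)) ≤ w (f (ev e₂ t' y.1)))
  have hCode : #Code ≤ 2 ^ l := by
    have e1 : #(T → T) ≤ 2 ^ l := by
      have h1 : #(T → T) = #T ^ #T := by simp
      rw [h1]
      refine (power_le_power_right hT).trans ?_
      exact (power_le_power_left (aleph0_pos.trans_le hl).ne' hT).trans (power_self_eq hl).le
    have e2 : #(T → Option V × Option V) ≤ 2 ^ l := by
      have h0 : #(Option V × Option V) ≤ 2 ^ l := by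
        rw [mk_prod, lift_id, mk_option]
        have h2 : #V + 1 ≤ 2 ^ l := add_le_of_le h2l hV (one_le_aleph0.trans h2l)
        exact (mul_le_mul' h2 h2).trans (mul_eq_self h2l).le
      have h1 : #(T → Option V × Option V) = #(Option V × Option V) ^ #T := by simp
      rw [h1]
      refine (power_le_power_right h0).trans ?_
      rw [← power_mul]
      refine power_le_power_left two_ne_zero ?_
      exact (mul_le_mul' le_rfl hT).trans (mul_eq_self hl).le
    have e3 : #(T → T → Prop) ≤ 2 ^ l := by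
      have h1 : #(T → T → Prop) = (2 ^ #T) ^ #T := by simp
      rw [h1, ← power_mul]
      refine power_le_power_left two_ne_zero ?_
      exact (mul_le_mul' hT hT).trans (mul_eq_self hl).le
    rw [mk_prod, mk_prod, lift_id, lift_id, lift_id, lift_id]
    exact (mul_le_mul' e1 ((mul_le_mul' e2 e3).trans (mul_eq_self h2l).le)).trans
      (mul_eq_self h2l).le
  obtain ⟨y, y', hlt, hc⟩ : ∃ y y' : Y, y.1 < y'.1 ∧ code y = code y' := by
    by_contra hcon
    refine absurd ((mk_le_of_injective (f := code) ?_).trans hCode) (not_le.2 hY)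
    intro y y' h
    rcases lt_trichotomy y.1 y'.1 with hw | hw | hw
    · exact absurd ⟨y, y', hw, h⟩ hcon
    · exact Subtype.ext hw
    · exact absurd ⟨y', y, hw, h.symm⟩ hcon
  refine ⟨y.1, y.2, y'.1, y'.2, hlt, ?_⟩
  have hc1 : ∀ t : T, s (f (ev e₂ t y.1)) = s (f (ev e₂ t y'.1)) := fun t =>
    congrFun (congrArg Prod.fst hc) t
  have hc2 : ∀ t : T, cutCode V (w (f (ev e₂ t y.1))) = cutCode V (w (f (ev e₂ t y'.1))) :=
    fun t => congrFun (congrArg (fun c : Code => c.2.1) hc) t
  have hc3 : ∀ t t' : T, w (f (ev e₂ t y.1)) ≤ w (f (ev e₂ t' y.1)) ↔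
      w (f (ev e₂ t y'.1)) ≤ w (f (ev e₂ t' y'.1)) := fun t t' =>
    iff_of_eq (congrFun (congrFun (congrArg (fun c : Code => c.2.2) hc) t) t')
  let W : V ⊕ T → I₁ := Sum.elim (fun b => b.1) (fun t => w (f (ev e₂ t y.1)))
  let W' : V ⊕ T → I₁ := Sum.elim (fun b => b.1) (fun t => w (f (ev e₂ t y'.1)))
  have hW : ∀ p p', W p ≤ W p' ↔ W' p ≤ W' p' := by
    rintro (b | k) (b' | k')
    · exact Iff.rfl
    · change b.1 ≤ w (f (ev e₂ k' y.1)) ↔ b.1 ≤ w (f (ev e₂ k' y'.1))
      rw [← not_lt, ← not_lt, cutCode_snd V _ b, cutCode_snd V _ b, hc2 k']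
    · change w (f (ev e₂ k y.1)) ≤ b'.1 ↔ w (f (ev e₂ k y'.1)) ≤ b'.1
      rw [cutCode_fst V _ b', cutCode_fst V _ b', hc2 k]
    · exact hc3 k k'
  have hat : AtEq L₁ (fun p => e₁ (W p)) (fun p => e₁ (W' p)) := IsEM.pattern he₁ he₁ W W' hW
  intro n A t g g' hg
  have hτ : ∀ k, ∃ τ : L₁.Term (V ⊕ T), τ.realize (fun p => e₁ (W p)) = f (ev e₂ (t k) (g k)) ∧
      τ.realize (fun p => e₁ (W' p)) = f (ev e₂ (t k) (g' k)) := by
    intro k
    rcases hg k with ⟨h1, h2⟩ | ⟨h1, h2⟩
    · refine ⟨(s (f (ev e₂ (t k) (g k)))).relabel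
        (fun _ => Sum.inl ⟨w (f (ev e₂ (t k) (g k))), ⟨(⟨g k, h1⟩, t k), rfl⟩⟩), ?_, ?_⟩
      · rw [Term.realize_relabel]
        exact hsw _
      · rw [Term.realize_relabel, h2]
        exact hsw _
    · refine ⟨(s (f (ev e₂ (t k) y.1))).relabel (fun _ => Sum.inr (t k)), ?_, ?_⟩
      · rw [Term.realize_relabel, h1]
        exact hsw _
      · rw [Term.realize_relabel, h2, hc1 (t k)]
        exact hsw _
  choose τ hτ1 hτ2 using hτ
  have h := A.holds_atEq φ hat τ
  simp only [hτ1, hτ2] at h
  rw [A.holds_iso f, A.holds_iso f] at h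
  exact h

end

theorem le_iff_of_lt {ι I I' : Type*} [LinearOrder I] [LinearOrder I'] {j : ι → I} {H : ι → I'}
    (hj : Function.Injective j) (h : ∀ k k', j k < j k' → H k < H k') (k k' : ι) :
    j k ≤ j k' ↔ H k ≤ H k' := by
  rcases lt_trichotomy (j k) (j k') with hw | hw | hw
  · exact ⟨fun _ => (h _ _ hw).le, fun _ => hw.le⟩
  · rw [hj hw]
    exact ⟨fun _ => le_rfl, fun _ => le_rfl⟩
  · exact ⟨fun h1 => absurd h1 (not_le.2 hw), fun h1 => absurd h1 (not_le.2 (h _ _ hw))⟩

/-- a single index can be moved -/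
def Movable (L : Language.{u, u}) {L₁ : Language.{u, u}} {N I : Type u} [L.Structure N]
    [L₁.Structure N] (e : I → N) : Prop :=
  ∀ (ι : Type u) [Finite ι] [DecidableEq ι] (j : ι → I), Function.Injective j → ∀ (a₀ : ι) (z : I),
    z ∉ range j → ∀ (n : ℕ) (A : Atm L n) (t : Fin n → L₁.Term (Fin 1)) (w : Fin n → ι),
      (A.Holds (fun k => ev e (t k) (j (w k))) ↔
        A.Holds (fun k => ev e (t k) (Function.update j a₀ z (w k))))

section

variable {L L₁ : Language.{u, u}} {M N N₂ : Type u} [L₁.Structure M] [L.Structure N]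
  [L.Structure N₂] [L₁.Structure N] [L₁.Structure N₂] (φ : L →ᴸ L₁) [φ.IsExpansionOn N]
  [φ.IsExpansionOn N₂]

include φ in
theorem move_up {a : ∀ n : ℕ, Fin n → M} {I I₂ : Type u} [LinearOrder I] [LinearOrder I₂]
    {e : I → N} {e₂ : I₂ → N₂} (he : IsEM L₁ a e) (he₂ : IsEM L₁ a e₂) {D : Set I₂} {y y' : I₂}
    (hy : ∀ (n : ℕ) (A : Atm L n) (t : Fin n → L₁.Term (Fin 1)) (g g' : Fin n → I₂),
      (∀ k, (g k ∈ D ∧ g' k = g k) ∨ (g k = y ∧ g' k = y')) →
      (A.Holds (fun k => ev e₂ (t k) (g k)) ↔ A.Holds (fun k => ev e₂ (t k) (g' k))))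
    {lo mi hi : ℕ → I₂} (h1 : StrictMono lo) (h2 : StrictMono mi) (h3 : StrictMono hi)
    (h4 : ∀ n, (lo n ∈ D ∧ mi n ∈ D ∧ hi n ∈ D) ∧ lo n < y ∧ y < mi n ∧ mi n < y' ∧ y' < hi n)
    (ι : Type u) [Finite ι] [DecidableEq ι] (j : ι → I) (hj : Function.Injective j) (a₀ : ι)
    (z : I) (hz : z ∉ range j) (haz : j a₀ < z) (n : ℕ) (A : Atm L n)
    (t : Fin n → L₁.Term (Fin 1)) (w : Fin n → ι) :
    A.Holds (fun k => ev e (t k) (j (w k))) ↔
      A.Holds (fun k => ev e (t k) (Function.update j a₀ z (w k))) := by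
  classical
  have := Fintype.ofFinite ι
  let rk : ι → ℕ := fun k => (Finset.univ.filter (fun k' => j k' < j k)).card
  have hrk : ∀ k k', j k < j k' → rk k < rk k' := by
    intro k k' h
    apply Finset.card_lt_card
    refine ⟨fun x hx => ?_, fun hsub => ?_⟩
    · rw [Finset.mem_filter] at hx ⊢
      exact ⟨hx.1, hx.2.trans h⟩
    · have h5 : k ∈ Finset.univ.filter (fun k'' => j k'' < j k') :=
        Finset.mem_filter.2 ⟨Finset.mem_univ _, h⟩
      exact lt_irrefl _ (Finset.mem_filter.1 (hsub h5)).2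
  let h : ι → I₂ := fun k => if j k < j a₀ then lo (rk k) else if j k < z then mi (rk k)
    else hi (rk k)
  have hD : ∀ k, h k ∈ D := by
    intro k
    change (if j k < j a₀ then lo (rk k) else if j k < z then mi (rk k) else hi (rk k)) ∈ D
    split_ifs
    · exact (h4 _).1.1
    · exact (h4 _).1.2.1
    · exact (h4 _).1.2.2
  have hlm : ∀ m m', lo m < mi m' := fun m m' => (h4 m).2.1.trans (h4 m').2.2.1
  have hyy : y < y' := (h4 0).2.2.1.trans (h4 0).2.2.2.1
  have hmh : ∀ m m', mi m < hi m' := fun m m' => (h4 m).2.2.2.1.trans (h4 m').2.2.2.2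
  have hoth : ∀ k k', k ≠ a₀ → k' ≠ a₀ → j k < j k' → h k < h k' := by
    intro k k' _ _ hkk
    change (if j k < j a₀ then lo (rk k) else if j k < z then mi (rk k) else hi (rk k)) <
      (if j k' < j a₀ then lo (rk k') else if j k' < z then mi (rk k') else hi (rk k'))
    by_cases c1 : j k < j a₀
    · rw [if_pos c1]
      by_cases c1' : j k' < j a₀
      · rw [if_pos c1']
        exact h1 (hrk _ _ hkk)
      · rw [if_neg c1']
        by_cases c2' : j k' < z
        · rw [if_pos c2']
          exact hlm _ _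
        · rw [if_neg c2']
          exact (hlm _ 0).trans (hmh _ _)
    · rw [if_neg c1, if_neg (fun c => c1 (hkk.trans c))]
      by_cases c2 : j k < z
      · rw [if_pos c2]
        by_cases c2' : j k' < z
        · rw [if_pos c2']
          exact h2 (hrk _ _ hkk)
        · rw [if_neg c2']
          exact hmh _ _
      · rw [if_neg c2, if_neg (fun c => c2 (hkk.trans c))]
        exact h3 (hrk _ _ hkk)
  let H : ι → I₂ := Function.update h a₀ y
  let H' : ι → I₂ := Function.update h a₀ y'
  have hz' : ∀ k, j k ≠ z := fun k hk => hz ⟨k, hk⟩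
  have hH : ∀ k k', j k < j k' → H k < H k' := by
    intro k k' hkk
    by_cases c1 : k = a₀
    · subst c1
      have c2 : k' ≠ k := fun c => by rw [c] at hkk; exact lt_irrefl _ hkk
      change Function.update h k y k < Function.update h k y k'
      rw [Function.update_self, Function.update_of_ne c2]
      change y < (if j k' < j k then lo (rk k') else if j k' < z then mi (rk k') else hi (rk k'))
      rw [if_neg hkk.not_gt]
      split_ifs
      · exact (h4 _).2.2.1
      · exact hyy.trans (h4 _).2.2.2.2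
    · by_cases c2 : k' = a₀
      · subst c2
        change Function.update h k' y k < Function.update h k' y k'
        rw [Function.update_self, Function.update_of_ne c1]
        change (if j k < j k' then lo (rk k) else if j k < z then mi (rk k) else hi (rk k)) < y
        rw [if_pos hkk]
        exact (h4 _).2.1
      · change Function.update h a₀ y k < Function.update h a₀ y k'
        rw [Function.update_of_ne c1, Function.update_of_ne c2]
        exact hoth _ _ c1 c2 hkk
  have hj' : Function.Injective (Function.update j a₀ z) := by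
    intro k k' hkk
    by_cases c1 : k = a₀
    · by_cases c2 : k' = a₀
      · rw [c1, c2]
      · rw [c1, Function.update_self, Function.update_of_ne c2] at hkk
        exact absurd hkk.symm (hz' _)
    · by_cases c2 : k' = a₀
      · rw [c2, Function.update_self, Function.update_of_ne c1] at hkk
        exact absurd hkk (hz' _)
      · rw [Function.update_of_ne c1, Function.update_of_ne c2] at hkk
        exact hj hkk
  have hH' : ∀ k k', Function.update j a₀ z k < Function.update j a₀ z k' → H' k < H' k' := by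
    intro k k' hkk
    by_cases c1 : k = a₀
    · subst c1
      have c2 : k' ≠ k := fun c => by rw [c] at hkk; exact lt_irrefl _ hkk
      rw [Function.update_self, Function.update_of_ne c2] at hkk
      change Function.update h k y' k < Function.update h k y' k'
      rw [Function.update_self, Function.update_of_ne c2]
      change y' < (if j k' < j k then lo (rk k') else if j k' < z then mi (rk k') else hi (rk k'))
      rw [if_neg (haz.trans hkk).not_gt, if_neg hkk.not_gt]
      exact (h4 _).2.2.2.2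
    · by_cases c2 : k' = a₀
      · subst c2
        rw [Function.update_self, Function.update_of_ne c1] at hkk
        change Function.update h k' y' k < Function.update h k' y' k'
        rw [Function.update_self, Function.update_of_ne c1]
        change (if j k < j k' then lo (rk k) else if j k < z then mi (rk k) else hi (rk k)) < y'
        split_ifs
        · exact (h4 _).2.1.trans hyy
        · exact (h4 _).2.2.2.1
      · change Function.update h a₀ y' k < Function.update h a₀ y' k'
        rw [Function.update_of_ne c1, Function.update_of_ne c2] at hkk ⊢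
        exact hoth _ _ c1 c2 hkk
  have p1 := A.pattern φ he he₂ (fun k => j (w k)) (fun k => H (w k))
    (fun p q => le_iff_of_lt hj hH (w p) (w q)) t
  have p2 := A.pattern φ he he₂ (fun k => Function.update j a₀ z (w k)) (fun k => H' (w k))
    (fun p q => le_iff_of_lt hj' hH' (w p) (w q)) t
  rw [p1, p2]
  refine hy n A t _ _ fun k => ?_
  by_cases c : w k = a₀
  · right
    change Function.update h a₀ y (w k) = y ∧ Function.update h a₀ y' (w k) = y'
    rw [c, Function.update_self, Function.update_self]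
    exact ⟨rfl, rfl⟩
  · left
    change Function.update h a₀ y (w k) ∈ D ∧
      Function.update h a₀ y' (w k) = Function.update h a₀ y (w k)
    rw [Function.update_of_ne c, Function.update_of_ne c]
    exact ⟨hD _, rfl⟩

include φ in
theorem movable {a : ∀ n : ℕ, Fin n → M} {I I₂ : Type u} [LinearOrder I] [LinearOrder I₂]
    {e : I → N} {e₂ : I₂ → N₂} (he : IsEM L₁ a e) (he₂ : IsEM L₁ a e₂) {D : Set I₂} {y y' : I₂}
    (hy : ∀ (n : ℕ) (A : Atm L n) (t : Fin n → L₁.Term (Fin 1)) (g g' : Fin n → I₂),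
      (∀ k, (g k ∈ D ∧ g' k = g k) ∨ (g k = y ∧ g' k = y')) →
      (A.Holds (fun k => ev e₂ (t k) (g k)) ↔ A.Holds (fun k => ev e₂ (t k) (g' k))))
    {lo mi hi : ℕ → I₂} (h1 : StrictMono lo) (h2 : StrictMono mi) (h3 : StrictMono hi)
    (h4 : ∀ n, (lo n ∈ D ∧ mi n ∈ D ∧ hi n ∈ D) ∧ lo n < y ∧ y < mi n ∧ mi n < y' ∧ y' < hi n) :
    Movable L (L₁ := L₁) e := by
  intro ι _ _ j hj a₀ z hz n A t w
  have hz' : ∀ k, j k ≠ z := fun k hk => hz ⟨k, hk⟩
  rcases lt_trichotomy (j a₀) z with hlt | heq | hgt
  · exact move_up φ he he₂ hy h1 h2 h3 h4 ι j hj a₀ z hz hlt n A t w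
  · exact absurd heq (hz' _)
  · have hj' : Function.Injective (Function.update j a₀ z) := by
      intro k k' hkk
      by_cases c1 : k = a₀
      · by_cases c2 : k' = a₀
        · rw [c1, c2]
        · rw [c1, Function.update_self, Function.update_of_ne c2] at hkk
          exact absurd hkk.symm (hz' _)
      · by_cases c2 : k' = a₀
        · rw [c2, Function.update_self, Function.update_of_ne c1] at hkk
          exact absurd hkk (hz' _)
        · rw [Function.update_of_ne c1, Function.update_of_ne c2] at hkk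
          exact hj hkk
    have h5 := move_up φ he he₂ hy h1 h2 h3 h4 ι (Function.update j a₀ z) hj' a₀ (j a₀) (by
      rintro ⟨k, hk⟩
      by_cases c : k = a₀
      · rw [c, Function.update_self] at hk
        exact absurd hk.symm (hz' _)
      · rw [Function.update_of_ne c] at hk
        exact c (hj hk)) (by rw [Function.update_self]; exact hgt) n A t w
    rw [Function.update_idem, Function.update_eq_self] at h5
    exact h5.symm

end

section

variable {L L₁ : Language.{u, u}} {N I : Type u} [L.Structure N] [L₁.Structure N]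

theorem Movable.away {e : I → N} (hm : Movable L (L₁ := L₁) e) {ι : Type u} [Finite ι]
    (j j' : ι → I) (hj : Function.Injective j) (hj' : Function.Injective j')
    (hdis : ∀ k k', j k ≠ j' k') (n : ℕ) (A : Atm L n) (t : Fin n → L₁.Term (Fin 1))
    (w : Fin n → ι) :
    A.Holds (fun k => ev e (t k) (j (w k))) ↔ A.Holds (fun k => ev e (t k) (j' (w k))) := by
  classical
  have := Fintype.ofFinite ι
  have key : ∀ s : Finset ι, A.Holds (fun k => ev e (t k) (j (w k))) ↔
      A.Holds (fun k => ev e (t k) (if w k ∈ s then j' (w k) else j (w k))) := by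
    intro s
    induction s using Finset.induction_on with
    | empty => simp
    | insert a s ha ih =>
      rw [ih]
      have hinj : Function.Injective (fun k => if k ∈ s then j' k else j k) := by
        intro k k' hkk
        by_cases c1 : k ∈ s <;> by_cases c2 : k' ∈ s
        · simp only [if_pos c1, if_pos c2] at hkk
          exact hj' hkk
        · simp only [if_pos c1, if_neg c2] at hkk
          exact absurd hkk.symm (hdis _ _)
        · simp only [if_neg c1, if_pos c2] at hkk
          exact absurd hkk (hdis _ _)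
        · simp only [if_neg c1, if_neg c2] at hkk
          exact hj hkk
      have h1 := hm ι (fun k => if k ∈ s then j' k else j k) hinj a (j' a) (by
        rintro ⟨k, hk⟩
        by_cases c1 : k ∈ s
        · simp only [if_pos c1] at hk
          rw [hj' hk] at c1
          exact ha c1
        · simp only [if_neg c1] at hk
          exact absurd hk (hdis _ _)) n A t w
      rw [h1]
      have h2 : Function.update (fun k => if k ∈ s then j' k else j k) a (j' a) =
          fun k => if k ∈ insert a s then j' k else j k := by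
        funext k
        by_cases c : k = a
        · subst c
          rw [Function.update_self, if_pos (Finset.mem_insert_self _ _)]
        · rw [Function.update_of_ne c]
          by_cases c2 : k ∈ s
          · rw [if_pos c2, if_pos (Finset.mem_insert_of_mem c2)]
          · rw [if_neg c2, if_neg fun h => (Finset.mem_insert.1 h).elim c c2]
      rw [h2]
  have h := key Finset.univ
  simpa using h

/-- total symmetry -/
theorem Movable.sym [Infinite I] {e : I → N} (hm : Movable L (L₁ := L₁) e) (n : ℕ) (A : Atm L n)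
    (t : Fin n → L₁.Term (Fin 1)) (g g' : Fin n → I) (hg : ∀ k k', g k = g k' ↔ g' k = g' k') :
    A.Holds (fun k => ev e (t k) (g k)) ↔ A.Holds (fun k => ev e (t k) (g' k)) := by
  classical
  let ι : Type u := range g
  let j : ι → I := Subtype.val
  let w : Fin n → ι := fun k => ⟨g k, k, rfl⟩
  let j' : ι → I := fun x => g' x.2.choose
  have hj : Function.Injective j := Subtype.val_injective
  have hj' : Function.Injective j' := by
    intro x x' h
    have h1 := (hg _ _).2 h
    rw [x.2.choose_spec, x'.2.choose_spec] at h1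
    exact Subtype.ext h1
  have hw' : ∀ k, j' (w k) = g' k := fun k => (hg _ _).1 (w k).2.choose_spec
  obtain ⟨F, hF⟩ : ∃ F : Finset I, (F : Set I) = range g ∪ range g' :=
    ⟨((Set.finite_range g).union (Set.finite_range g')).toFinset, by simp⟩
  have hinf : Infinite {x : I // x ∉ F} := by
    have h1 : ((F : Set I)ᶜ).Infinite := F.finite_toSet.infinite_compl
    exact h1.to_subtype
  have := Fintype.ofFinite ι
  obtain ⟨em⟩ : Nonempty (ι ↪ {x : I // x ∉ F}) := by
    exact ⟨(Fintype.equivFin ι).toEmbedding.trans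
      (Fin.valEmbedding.trans (Infinite.natEmbedding _))⟩
  let j'' : ι → I := fun x => (em x).1
  have hj'' : Function.Injective j'' := fun x x' h => em.injective (Subtype.ext h)
  have hn : ∀ x, j'' x ∉ range g ∪ range g' := fun x h => by
    rw [← hF] at h
    exact (em x).2 h
  have h1 := hm.away j j'' hj hj'' (fun k k' h => hn k' (Or.inl (h ▸ k.2))) n A t w
  have h2 := hm.away j' j'' hj' hj'' (fun k k' h => hn k' (Or.inr ⟨_, h⟩)) n A t w
  rw [h1, ← h2]
  simp only [hw']

end

end Vale.Agent.P307.Triv
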