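import Vale.Agent.P307.Triv.SymA
import Vale.Agent.P307.Triv.Spec

/-!
Unary Skolem expansions for classes with disintegrated closures, and Ehrenfeucht-Mostowski models.
-/

universe u

open FirstOrder Cardinal Set Language Structure

namespace Vale.Agent.P307.Triv

open Vale.Agent.P307.H67

/-- the functions of the unary language -/
def LUF (Λ : Type u) : ℕ → Type u
  | 0 => Λ
  | 1 => Λ
  | _ + 2 => PEmpty

/-- A language with constants `Λ` and unary functions `Λ`. -/
def LU (Λ : Type u) : Language.{u, u} := ⟨LUF Λ, fun _ => PEmpty⟩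

/-- interpretation of the functions -/
def luFun {Λ M : Type u} (cst : Λ → M) (fn : Λ → M → M) : ∀ n : ℕ, LUF Λ n → (Fin n → M) → M
  | 0, ξ, _ => cst ξ
  | 1, ξ, v => fn ξ (v 0)
  | _ + 2, x, _ => PEmpty.elim x

/-- The structure given by constants and unary operations. -/
@[reducible] def luStr {Λ M : Type u} (cst : Λ → M) (fn : Λ → M → M) : (LU Λ).Structure M where
  funMap {n} F v := luFun cst fn n F v
  RelMap {_} R _ := PEmpty.elim R

theorem card_LU_le {L : Language.{u, u}} {Λ : Type u} {l : Cardinal.{u}} (hl : ℵ₀ ≤ l)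
    (hL : L.card ≤ l) (hΛ : #Λ ≤ l) : (L.sum (LU Λ)).card ≤ l := by
  rw [Language.card_sum, lift_id, lift_id]
  refine add_le_of_le hl hL ?_
  have h1 : (LU Λ).card = #((Σ n : ℕ, LUF Λ n) ⊕ (Σ _ : ℕ, PEmpty.{u + 1})) := rfl
  rw [h1, mk_sum, lift_id, lift_id]
  have h2 : ∀ A : ℕ → Type u, (∀ n, #(A n) ≤ l) → #(Σ n : ℕ, A n) ≤ l := by
    intro A hA
    rw [mk_sigma]
    refine (sum_le_lift_mk_mul_iSup _).trans ?_
    refine (mul_le_mul' (b := l) (d := l) ?_ (ciSup_le' fun n => hA n)).trans (mul_eq_self hl).le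
    simpa using hl
  refine add_le_of_le hl (h2 _ fun n => ?_) (h2 _ fun _ => by simp)
  match n with
  | 0 => exact hΛ
  | 1 => exact hΛ
  | _ + 2 =>
    change #PEmpty.{u + 1} ≤ l
    simp

/-- the unary function symbols -/
def fsym (L : Language.{u, u}) {Λ : Type u} (ξ : Λ) : (L.sum (LU Λ)).Functions 1 := Sum.inr ξ

/-- the constant symbols -/
def csym (L : Language.{u, u}) {Λ : Type u} (ξ : Λ) : (L.sum (LU Λ)).Functions 0 := Sum.inr ξ

theorem term_unary {L : Language.{u, u}} [L.IsRelational] {Λ : Type u} {α : Type*} [Nonempty α]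
    (t : (L.sum (LU Λ)).Term α) :
    ∃ (s : (L.sum (LU Λ)).Term (Fin 1)) (i : α), t = s.relabel (fun _ => i) := by
  induction t with
  | var i => exact ⟨Term.var 0, i, rfl⟩
  | @func n f ts ih =>
    rcases f with f | f
    · exact isEmptyElim (α := L.Functions n) f
    · match n, f, ts, ih with
      | 0, f, ts, _ =>
        refine ⟨Term.func (csym L f) (fun k => k.elim0), Classical.arbitrary α, ?_⟩
        rw [Term.relabel]
        change Term.func (csym L f) ts = _
        congr 1
        funext k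
        exact k.elim0
      | 1, f, ts, ih =>
        obtain ⟨s, i, h⟩ := ih 0
        refine ⟨Term.func (fsym L f) (fun _ => s), i, ?_⟩
        rw [Term.relabel]
        change Term.func (fsym L f) ts = _
        congr 1
        funext k
        rw [Subsingleton.elim k 0]
        exact h
      | n + 2, f, _, _ => exact PEmpty.elim f

theorem exists_enum {M Λ : Type u} {S : Set M} (hne : S.Nonempty) (h : #S ≤ #Λ) :
    ∃ g : Λ → M, range g = S := by
  obtain ⟨i⟩ := (Cardinal.le_def _ _).1 h
  have : Nonempty S := hne.to_subtype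
  refine ⟨fun ξ => (Function.invFun i ξ).1, ?_⟩
  have h1 := (Function.invFun_surjective i.injective).range_eq
  ext x
  constructor
  · rintro ⟨ξ, rfl⟩
    exact (Function.invFun i ξ).2
  · intro hx
    have h2 : (⟨x, hx⟩ : S) ∈ range (Function.invFun i) := by
      rw [h1]
      trivial
    obtain ⟨ξ, hξ⟩ := h2
    exact ⟨ξ, congrArg Subtype.val hξ⟩

/-- Ehrenfeucht-Mostowski models for classes with disintegrated closures -/
theorem exists_emU (hA1 : SpecA1.{u}) {l : Cardinal.{u}} {L : Language.{u, u}}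
    [L.IsRelational] {K : AEC L} (hK : K.IsLS l) (hD : Disintegrated K) {κ : Cardinal.{u}}
    (hlκ : l ≤ κ) {M : Type u} [L.Structure M] (hM : K.mem M) (hbig : hanf (2 ^ l) ≤ #M)
    {Λ : Type u} (hΛ : #Λ = l) :
    ∃ (_ : (L.sum (LU Λ)).Structure M) (a : ∀ n : ℕ, Fin n → M),
      ∀ (I : Type u) [LinearOrder I], #I = κ → ∃ (N : Type u) (_ : L.Structure N)
        (_ : (L.sum (LU Λ)).Structure N)
        (_ : (LHom.sumInl : L →ᴸ L.sum (LU Λ)).IsExpansionOn N) (e : I → N),
        IsEM (L.sum (LU Λ)) a e ∧ K.mem N ∧ #N = κ ∧ Function.Injective e ∧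
        (∀ z : N, ∃ (s : (L.sum (LU Λ)).Term (Fin 1)) (i : I), ev e s i = z) ∧
        ∀ x a : N, cl K x a ↔ ∃ ξ : Λ, funMap (fsym L ξ) (fun _ => a) = x := by
  classical
  have hl := hK.1
  have hκ0 : ℵ₀ ≤ κ := hl.trans hlκ
  obtain ⟨hA, hA'⟩ := hA1 L K l hK hD
  obtain ⟨hA0, hAc⟩ := hA M hM
  let X : Type u := (#M).ord.ToType
  have hX : #X = #M := by simp [X]
  obtain ⟨eq⟩ := Cardinal.eq.1 hX
  let x : X → M := eq
  have hxinj : Function.Injective x := eq.injective
  have hXbig : hanf (2 ^ l) ≤ #X := by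
    rw [hX]
    exact hbig
  have hMne : Nonempty M := mk_ne_zero_iff.1
    (aleph0_pos.trans_le ((aleph0_le_hanf _).trans hbig)).ne'
  have hself : ∀ (N : Type u) [L.Structure N] (a : N), cl K a a := fun N _ a S _ ha => ha
  choose g hg using fun a : M => exists_enum (Λ := Λ) (S := {x : M | cl K x a}) ⟨a, hself M a⟩
    ((hA0 a).trans hΛ.ge)
  let L₁ : Language.{u, u} := L.sum (LU Λ)
  let φ : L →ᴸ L₁ := LHom.sumInl
  let strX : (LU Λ).Structure M := luStr (g (Classical.arbitrary M)) (fun ξ a => g a ξ)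
  have hL₁ : L₁.card ≤ l := card_LU_le hl hK.2.1 hΛ.le
  have hfun : ∀ (ξ : Λ) (a : M), funMap (fsym L ξ : L₁.Functions 1) (fun _ : Fin 1 => a) = g a ξ :=
    fun _ _ => rfl
  have hcl1 : Gr.Cl1 K φ M := by
    intro S
    have h5 : (S : Set M).Nonempty := by
      have hΛne : Nonempty Λ := mk_ne_zero_iff.1 (by rw [hΛ]; exact (aleph0_pos.trans_le hl).ne')
      obtain ⟨ξ⟩ := hΛne
      exact ⟨_, S.fun_mem (csym L ξ : L₁.Functions 0) (fun k => k.elim0) (fun k => k.elim0)⟩
    have h6 : Closed (fun x a => cl K x a) (S : Set M) := by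
      intro a ha y hy
      have h4 : y ∈ range (g a) := by
        rw [hg a]
        exact hy
      obtain ⟨ξ, hξ⟩ := h4
      rw [← hξ, ← hfun ξ a]
      exact S.fun_mem (fsym L ξ : L₁.Functions 1) (fun _ => a) (fun _ => ha)
    obtain ⟨S', h1, h2⟩ := hAc (S : Set M) h5 h6
    have h3 : φ.substructureReduct S = S' := SetLike.coe_injective h2.symm
    rw [h3]
    exact h1
  obtain ⟨a, ha1, ha2⟩ := exists_template (L := L₁) hl hL₁ x hXbig
  have hta : IsTemplate L₁ (fun n k => x (a n k)) := fun k n g hg => ha2 k n g hg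
  have hne01 : x (a 2 0) ≠ x (a 2 1) := by
    intro h
    exact absurd (hxinj h) ((ha1 2) (by decide : (0 : Fin 2) < 1)).ne
  refine ⟨inferInstance, fun n k => x (a n k), ?_⟩
  intro I _ hI
  obtain ⟨N, strN, e, he, htop⟩ := exists_isEM hta I
  let strN' : L.Structure N := φ.reduct N
  have hloc := Gr.isEM_local he htop
  have hNK : K.mem N ∧ Gr.Cl1 K φ N := hcl1.transfer fun A => by
    obtain ⟨ρ⟩ := hloc A
    exact ⟨ρ, ρ.injective⟩
  have hinj : Function.Injective e := by
    have h1 : ∀ w w' : I, w < w' → e w ≠ e w' := by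
      intro w w' hw h
      have hm : StrictMono (![w, w'] : Fin 2 → I) := by
        rw [Fin.strictMono_iff_lt_succ]
        intro i
        have : i = 0 := Subsingleton.elim _ _
        subst this
        exact hw
      have hat : AtEq L₁ (fun k => e ((![w, w'] : Fin 2 → I) k)) (fun k => x (a 2 k)) :=
        he 2 _ hm
      have h2 := (hat.1 (Term.var 0) (Term.var 1)).1 h
      exact hne01 h2
    intro w w' h
    rcases lt_trichotomy w w' with hw | hw | hw
    · exact absurd h (h1 w w' hw)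
    · exact hw
    · exact absurd h.symm (h1 w' w hw)
  have hterm : ∀ x : N, ∃ t : L₁.Term I, t.realize e = x := fun x => by
    rw [← Gr.mem_closure_range, htop]
    trivial
  have hIne : Nonempty I := mk_ne_zero_iff.1 (by rw [hI]; exact (aleph0_pos.trans_le hκ0).ne')
  have hNκ : #N = κ := by
    apply le_antisymm
    · choose t ht using hterm
      have h2 : #N ≤ #(L₁.Term I) := mk_le_of_injective (f := t) fun x y hxy => by
        rw [← ht x, ← ht y, hxy]
      exact h2.trans (mk_term_le hκ0 (hL₁.trans hlκ) I hI.le)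
    · rw [← hI]
      exact mk_le_of_injective hinj
  refine ⟨N, strN', strN, inferInstance, e, he, hNK.1, hNκ, hinj, ?_, ?_⟩
  · intro z
    obtain ⟨t, ht⟩ := hterm z
    obtain ⟨s, i, rfl⟩ := term_unary t
    refine ⟨s, i, ?_⟩
    rw [← ht, Term.realize_relabel]
    rfl
  · intro y b
    let S : L₁.Substructure N := Substructure.closure L₁ ((({b} : Finset N)) : Set N)
    obtain ⟨ρ⟩ := hloc {b}
    have hb : b ∈ S := Substructure.subset_closure (by simp)
    have hS : K.le (φ.substructureReduct S) := hNK.2 S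
    let E : (φ.substructureReduct S) ↪[L] M := Gr.subEmb φ S ρ
    have hE : K.le E.toHom.range := hcl1.emb S ρ
    let f : N → M := fun z => if h : z ∈ S then ρ ⟨z, h⟩ else Classical.arbitrary M
    have hf : ∀ (z : N) (h : z ∈ S), f z = ρ ⟨z, h⟩ := fun z h => dif_pos h
    have hC := hA' N M hNK.1 hM (φ.substructureReduct S) E.toHom.range E.equivRange hS hE f (by
      intro z
      rw [hf z.1 z.2]
      rfl)
    have hfn : ∀ ξ : Λ, funMap (fsym L ξ : L₁.Functions 1) (fun _ : Fin 1 => b) ∈ S := fun ξ =>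
      S.fun_mem (fsym L ξ : L₁.Functions 1) (fun _ => b) (fun _ => hb)
    have hρ : ∀ ξ : Λ, f (funMap (fsym L ξ : L₁.Functions 1) (fun _ : Fin 1 => b)) =
        g (f b) ξ := by
      intro ξ
      rw [hf _ (hfn ξ), hf b hb, ← hfun]
      have h1 := ρ.map_fun (fsym L ξ : L₁.Functions 1) (fun _ => (⟨b, hb⟩ : S))
      exact h1
    constructor
    · intro hy
      have hyS : y ∈ S := hy (φ.substructureReduct S) hS hb
      have h1 : cl K (f y) (f b) := (hC.cl b hb y hyS).2 hy
      have h2 : f y ∈ range (g (f b)) := by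
        rw [hg]
        exact h1
      obtain ⟨ξ, hξ⟩ := h2
      refine ⟨ξ, ?_⟩
      rw [← hρ ξ] at hξ
      exact hC.inj (hfn ξ) hyS hξ
    · rintro ⟨ξ, rfl⟩
      refine (hC.cl b hb _ (hfn ξ)).1 ?_
      rw [hρ ξ]
      have h2 : g (f b) ξ ∈ range (g (f b)) := ⟨ξ, rfl⟩
      rw [hg] at h2
      exact h2

end Vale.Agent.P307.Triv
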