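import Vale.Agent.P307.Triv.PDefs
import Vale.Agent.P307.Triv.Final

/-!
Part delta: symmetric structures built from a member with coordinates belong to the class.
-/

universe u

open FirstOrder Cardinal Set

namespace Vale.Agent.P307.Triv

open Language Language.Structure

namespace PW

variable {L : Language.{u, u}} {R I J E N : Type u}

/-- The substructure on the base and the pieces with index in `W`. -/
def subW (L : Language.{u, u}) [L.IsRelational] (R I E : Type u) [L.Structure (R ⊕ (I × E))]
    (W : Set I) : L.Substructure (R ⊕ (I × E)) where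
  carrier := {x | ∀ i e, x = Sum.inr (i, e) → i ∈ W}
  fun_mem f := isEmptyElim f

theorem subW_mono [L.IsRelational] [L.Structure (R ⊕ (I × E))] {W W' : Set I} (h : W ⊆ W') :
    subW L R I E W ≤ subW L R I E W' := fun _ hx i e he => h (hx i e he)

theorem exists_injOn [Infinite J] (W : Finset I) : ∃ τ : I → J, Set.InjOn τ W := by
  classical
  obtain ⟨g⟩ : Nonempty (W ↪ J) := by
    have h1 : #W ≤ #J := (lt_aleph0_of_finite _).le.trans (infinite_iff.1 inferInstance)
    exact (Cardinal.le_def _ _).1 h1
  have hJ : Nonempty J := inferInstance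
  refine ⟨fun i => if h : i ∈ W then g ⟨i, h⟩ else Classical.arbitrary J, ?_⟩
  intro i hi i' hi' h
  simp only [dif_pos (show i ∈ W from hi), dif_pos (show i' ∈ W from hi')] at h
  exact congrArg Subtype.val (g.injective h)

theorem mv_inl (σ : I → J) (s : R) : mv (E := E) σ (Sum.inl s) = Sum.inl s := rfl

theorem mv_inr (σ : I → J) (i : I) (e : E) : mv (R := R) σ (Sum.inr (i, e)) = Sum.inr (σ i, e) :=
  rfl

end PW

open PW

theorem specW : SpecW.{u} := by
  intro L _ K N R I J E _ _ ρN ζ hN hI hJ hE _ hco hcl hρ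
  classical
  have hJne : Nonempty J := inferInstance
  have hIne : Nonempty I := inferInstance
  -- strong substructures of `N`
  have hT : ∀ (A : Set J), A.Nonempty → ∃ S : L.Substructure N, K.le S ∧
      ∀ y, y ∈ S ↔ ∀ j e, ζ y = Sum.inr (j, e) → j ∈ A := by
    intro A hA
    obtain ⟨S, h1, h2⟩ := hcl {y | ∀ j e, ζ y = Sum.inr (j, e) → j ∈ A} (by
      obtain ⟨j, hj⟩ := hA
      obtain ⟨e⟩ := hE
      refine ⟨ζ.symm (Sum.inr (j, e)), ?_⟩
      intro j' e' h
      rw [ζ.apply_symm_apply] at h
      have h3 := (Prod.mk.injEq _ _ _ _ ▸ Sum.inr.inj h : j = j' ∧ e = e')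
      rw [← h3.1]
      exact hj) (by
      intro a ha x hx j e hj
      obtain ⟨h1, h2⟩ := hρ x a hx
      rcases hz : ζ a with s | ⟨j', e'⟩
      · obtain ⟨s', hs'⟩ := h1 s hz
        rw [hs'] at hj
        cases hj
      · rcases h2 j' e' hz with ⟨s', hs'⟩ | ⟨e'', he''⟩
        · rw [hs'] at hj
          cases hj
        · rw [he''] at hj
          have h3 := (Prod.mk.injEq _ _ _ _ ▸ Sum.inr.inj hj : j' = j ∧ e'' = e)
          rw [← h3.1]
          exact ha j' e' hz)
    refine ⟨S, h1, fun y => ?_⟩
    rw [← SetLike.mem_coe, h2]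
    rfl
  -- the local embeddings
  have hemb : ∀ (W : Finset I) (τ : I → J), Set.InjOn τ W →
      ∃ f : subW L R I E (W : Set I) ↪[L] N, ∀ x, ζ (f x) = mv τ x.1 := by
    intro W τ hτ
    let σ : J → I := fun j => if h : ∃ i ∈ W, τ i = j then h.choose else Classical.arbitrary I
    have hσ : ∀ i ∈ W, σ (τ i) = i := by
      intro i hi
      have h : ∃ i' ∈ W, τ i' = τ i := ⟨i, hi, rfl⟩
      have h1 : σ (τ i) = h.choose := dif_pos h
      rw [h1]
      exact hτ h.choose_spec.1 hi h.choose_spec.2
    have hback : ∀ x : subW L R I E (W : Set I), mv σ (mv τ x.1) = x.1 := by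
      rintro ⟨x, hx⟩
      rcases x with s | ⟨i, e⟩
      · rfl
      · change Sum.inr (σ (τ i), e) = Sum.inr (i, e)
        rw [hσ i (hx i e rfl)]
    refine ⟨{ toFun := fun x => ζ.symm (mv τ x.1), inj' := ?_, map_fun' := fun F => isEmptyElim F,
              map_rel' := ?_ }, fun x => ζ.apply_symm_apply _⟩
    · intro x y hxy
      have h1 := ζ.symm.injective hxy
      apply Subtype.ext
      rw [← hback x, ← hback y, h1]
    · intro n r v
      have h1 := hco n r (fun k => ζ.symm (mv τ (v k).1)) σ ?_
      · change RelMap r (fun k => ζ.symm (mv τ (v k).1)) ↔ RelMap r (fun k => (v k).1)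
        rw [← h1]
        have h2 : (fun k => mv (E := E) σ (ζ (ζ.symm (mv τ (v k).1)))) = fun k => (v k).1 := by
          funext k
          rw [ζ.apply_symm_apply, hback]
        rw [h2]
      · intro k k' j j' e e' hk hk' hjj
        simp only [ζ.apply_symm_apply] at hk hk'
        have key : ∀ (x : subW L R I E (W : Set I)) (j : J) (e : E), mv τ x.1 = Sum.inr (j, e) →
            ∃ i ∈ W, τ i = j := by
          rintro ⟨x, hx⟩ j e h
          rcases x with s | ⟨i, e₀⟩
          · cases h
          · have h3 : (Sum.inr (τ i, e₀) : R ⊕ (J × E)) = Sum.inr (j, e) := h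
            have h4 := (Prod.mk.injEq _ _ _ _ ▸ Sum.inr.inj h3 : τ i = j ∧ e₀ = e)
            exact ⟨i, hx i e₀ rfl, h4.1⟩
        obtain ⟨i, hi, rfl⟩ := key _ _ _ hk
        obtain ⟨i', hi', rfl⟩ := key _ _ _ hk'
        rw [hσ i hi, hσ i' hi'] at hjj
        rw [hjj]
  -- strong inclusions
  have hsle : ∀ W' W : Finset I, W'.Nonempty → W' ⊆ W →
      K.sle (subW L R I E (W' : Set I)) (subW L R I E (W : Set I)) := by
    intro W' W hW' hWW
    obtain ⟨τ, hτ⟩ := exists_injOn (J := J) W
    obtain ⟨f, hf⟩ := hemb W τ hτ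
    obtain ⟨S', hS'1, hS'2⟩ := hT (τ '' (W' : Set I)) ((Finset.coe_nonempty.2 hW').image _)
    obtain ⟨S, hS1, hS2⟩ := hT (τ '' (W : Set I)) ((Finset.coe_nonempty.2 (hW'.mono hWW)).image _)
    have hle : S' ≤ S := by
      intro y hy
      rw [hS2]
      rw [hS'2] at hy
      intro j e h
      exact Set.image_mono (Finset.coe_subset.2 hWW) (hy j e h)
    have h1 := AEC.sle_of_le_le hle hS'1 hS1
    have hmap : ∀ (X : Finset I), X ⊆ W → ∀ T : L.Substructure N,
        (∀ y, y ∈ T ↔ ∀ j e, ζ y = Sum.inr (j, e) → j ∈ τ '' (X : Set I)) →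
        ((subW L R I E (X : Set I)).comap (subW L R I E (W : Set I)).subtype.toHom).map f.toHom
          = T := by
      intro X hX T hT'
      ext y
      rw [hT']
      constructor
      · rintro ⟨x, hx, rfl⟩ j e h
        have h2 : ζ (f x) = Sum.inr (j, e) := h
        rw [hf] at h2
        have hx' : x.1 ∈ subW L R I E (X : Set I) := hx
        rcases hz : x.1 with s | ⟨i, e₀⟩
        · rw [hz] at h2
          cases h2
        · rw [hz] at h2 hx'
          have h3 : (Sum.inr (τ i, e₀) : R ⊕ (J × E)) = Sum.inr (j, e) := h2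
          have h4 := (Prod.mk.injEq _ _ _ _ ▸ Sum.inr.inj h3 : τ i = j ∧ e₀ = e)
          exact ⟨i, hx' i e₀ rfl, h4.1⟩
      · intro h
        rcases hz : ζ y with s | ⟨j, e⟩
        · refine ⟨⟨Sum.inl s, fun i e h => by cases h⟩, ?_, ?_⟩
          · intro i e h
            cases h
          · change f _ = y
            apply ζ.injective
            rw [hf, hz]
            rfl
        · obtain ⟨i, hi, rfl⟩ := h j e hz
          have hi2 : ∀ (i' : I) (e' : E), (Sum.inr (i, e) : R ⊕ (I × E)) = Sum.inr (i', e') →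
              i' = i := by
            intro i' e' h
            have h4 := (Prod.mk.injEq _ _ _ _ ▸ Sum.inr.inj h : i = i' ∧ e = e')
            exact h4.1.symm
          refine ⟨⟨Sum.inr (i, e), ?_⟩, ?_, ?_⟩
          · intro i' e' h
            rw [hi2 i' e' h]
            exact hX hi
          · intro i' e' h
            rw [hi2 i' e' h]
            exact hi
          · change f _ = y
            apply ζ.injective
            rw [hf, hz]
            rfl
    rw [← hmap W' hWW S' hS'2, ← hmap W (Finset.Subset.refl _) S hS2, AEC.sle_map f,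
      AEC.sle_comap_subtype (subW_mono (Finset.coe_subset.2 hWW)) (_root_.le_refl _)] at h1
    exact h1
  -- the directed union
  let ι := {W : Finset I // W.Nonempty}
  have hne : Nonempty ι := ⟨⟨{Classical.arbitrary I}, Finset.singleton_nonempty _⟩⟩
  have hdir : IsDirectedOrder ι := ⟨fun W W' => ⟨⟨W.1 ∪ W'.1, W.2.mono Finset.subset_union_left⟩,
    Finset.subset_union_left, Finset.subset_union_right⟩⟩
  refine (AEC.mem_of_directed_union (K := K) (fun W : ι => subW L R I E (W.1 : Set I))
    (fun W W' h => subW_mono (Finset.coe_subset.2 h))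
    (fun W W' h => hsle W.1 W'.1 W.2 h) ?_).1
  intro x
  rcases x with s | ⟨i, e⟩
  · obtain ⟨W⟩ := hne
    exact ⟨W, fun i e h => by cases h⟩
  · refine ⟨⟨{i}, Finset.singleton_nonempty _⟩, fun i' e' h => ?_⟩
    have h4 := (Prod.mk.injEq _ _ _ _ ▸ Sum.inr.inj h : i = i' ∧ e = e')
    rw [← h4.1]
    simp

end Vale.Agent.P307.Triv
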